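import Mathlib

/-! Averaging over the fibres of a key (conditional expectation under the uniform measure). -/

namespace Vale.Agent.P335

open Finset
open scoped Classical

variable {Ω κ : Type*} [Fintype Ω]

/-- The fibre of `key` through `x`. -/
noncomputable def cls (key : Ω → κ) (x : Ω) : Finset Ω := univ.filter (fun y => key y = key x)

/-- Average of `f` over the fibre of `key` through `x`. -/
noncomputable def avg (key : Ω → κ) (f : Ω → ℝ) (x : Ω) : ℝ :=
  (∑ y ∈ cls key x, f y) / ((cls key x).card : ℝ)

/-- Fluctuation of `f` within the fibres of `key`. -/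
noncomputable def dev (key : Ω → κ) (f : Ω → ℝ) (x : Ω) : ℝ := f x - avg key f x

/-- Inner product for the counting measure. -/
noncomputable def ip (f g : Ω → ℝ) : ℝ := ∑ x, f x * g x

end Vale.Agent.P335
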