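import Mathlib
import Vale.Agent.P335.Avg

/-! General facts on fibre averages and symmetric operators. -/

namespace Vale.Agent.P335

open Finset
open scoped Classical

variable {Ω κ : Type*} [Fintype Ω]

theorem mem_cls {key : Ω → κ} {x y : Ω} : y ∈ cls key x ↔ key y = key x := by simp [cls]

theorem avg_congr {key : Ω → κ} (f : Ω → ℝ) {x y : Ω} (h : key x = key y) :
    avg key f x = avg key f y := by
  simp only [avg, cls, h]

theorem cls_card_pos (key : Ω → κ) (x : Ω) : (0:ℝ) < (cls key x).card :=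
  Nat.cast_pos.2 (card_pos.2 ⟨x, mem_cls.2 rfl⟩)

theorem ip_avg_comm (key : Ω → κ) (f g : Ω → ℝ) : ip (avg key f) g = ip f (avg key g) := by
  simp only [ip, avg, sum_div, sum_mul, mul_sum, cls, sum_filter]
  rw [sum_comm]
  refine sum_congr rfl fun x _ => sum_congr rfl fun y _ => ?_
  by_cases h : key x = key y
  · rw [if_pos h, if_pos h.symm]
    simp only [h]
    ring
  · rw [if_neg h, if_neg (fun e => h e.symm)]
    simp

theorem avg_of_invariant (key : Ω → κ) (f : Ω → ℝ) (h : ∀ x y, key x = key y → f x = f y) :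
    avg key f = f := by
  funext x
  rw [avg, sum_congr rfl fun y hy => h y x (mem_cls.1 hy), sum_const, nsmul_eq_mul,
    mul_div_cancel_left₀ _ (cls_card_pos key x).ne']

theorem sum_avg (key : Ω → κ) (f : Ω → ℝ) : ∑ x, avg key f x = ∑ x, f x := by
  have h := ip_avg_comm key f (fun _ => 1)
  rw [avg_of_invariant key (fun _ => (1:ℝ)) fun _ _ _ => rfl] at h
  simpa [ip] using h

theorem avg_avg (key : Ω → κ) (f : Ω → ℝ) : avg key (avg key f) = avg key f :=
  avg_of_invariant key _ fun _ _ h => avg_congr f h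

theorem ip_dev_comm (key : Ω → κ) (f g : Ω → ℝ) : ip (dev key f) g = ip f (dev key g) := by
  have h := ip_avg_comm key f g
  simp only [ip, dev, sub_mul, mul_sub, sum_sub_distrib] at *
  rw [h]

theorem ip_dev_self (key : Ω → κ) (f : Ω → ℝ) :
    ip (dev key f) (dev key f) = ip f (dev key f) := by
  have h : ip (avg key f) (dev key f) = 0 := by
    rw [ip_avg_comm]
    have : avg key (dev key f) = 0 := by
      funext x
      simp only [dev, avg, sum_sub_distrib, sub_div, Pi.zero_apply]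
      rw [sub_eq_zero]
      exact (congrFun (avg_avg key f) x).symm
    simp [ip, this]
  simp only [ip, dev, sub_mul, sum_sub_distrib] at *
  linarith

theorem dev_add (key : Ω → κ) (f g : Ω → ℝ) : dev key (f + g) = dev key f + dev key g := by
  funext x
  simp only [dev, avg, Pi.add_apply, sum_add_distrib, add_div]
  ring

theorem dev_smul (key : Ω → κ) (c : ℝ) (f : Ω → ℝ) : dev key (c • f) = c • dev key f := by
  funext x
  simp only [dev, avg, Pi.smul_apply, smul_eq_mul, ← mul_sum]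
  ring

theorem eq_of_dev_eq_zero (key : Ω → κ) (f : Ω → ℝ) (h : dev key f = 0) {x y : Ω}
    (hxy : key x = key y) : f x = f y := by
  have hx := congrFun h x
  have hy := congrFun h y
  simp only [dev, Pi.zero_apply, sub_eq_zero] at hx hy
  rw [hx, hy, avg_congr f hxy]

theorem ip_self_nonneg (f : Ω → ℝ) : 0 ≤ ip f f := sum_nonneg fun x _ => mul_self_nonneg (f x)

theorem ip_comm (f g : Ω → ℝ) : ip f g = ip g f := sum_congr rfl fun x _ => mul_comm _ _

theorem ip_smul_left (c : ℝ) (f g : Ω → ℝ) : ip (c • f) g = c * ip f g := by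
  simp only [ip, Pi.smul_apply, smul_eq_mul, mul_sum, mul_assoc]

/-- An orthonormal eigenbasis of a symmetric operator. -/
theorem exists_eigen_repr (T : (Ω → ℝ) →ₗ[ℝ] (Ω → ℝ)) (hsym : ∀ f g, ip (T f) g = ip f (T g)) :
    ∃ (b : Ω → Ω → ℝ) (μ : Ω → ℝ), (∀ i, T (b i) = μ i • b i) ∧ (∀ i, b i ≠ 0) ∧
      ∀ f g, ip f g = ∑ i, ip (b i) f * ip (b i) g := by
  set M := LinearMap.toMatrix' T with hMdef
  have hM : M.IsHermitian := Matrix.IsHermitian.ext fun x y => by
    have h := hsym (Pi.single x 1) (Pi.single y 1)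
    simpa [ip, hMdef, LinearMap.toMatrix'_apply, Pi.single_apply, star_trivial] using h
  refine ⟨fun i => WithLp.ofLp (hM.eigenvectorBasis i), hM.eigenvalues, fun i => ?_, fun i => ?_,
    fun f g => ?_⟩
  · have h := hM.mulVec_eigenvectorBasis i
    exact (LinearMap.toMatrix'_mulVec T _).symm.trans h
  · intro h
    exact hM.eigenvectorBasis.toBasis.ne_zero i (by
      simpa using congrArg (WithLp.toLp (2 : ENNReal)) h)
  · have hip : ∀ a b : EuclideanSpace ℝ Ω,
        ip (WithLp.ofLp a) (WithLp.ofLp b) = inner ℝ a b := fun a b => by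
      simp [ip, PiLp.inner_apply, mul_comm]
    set fE : EuclideanSpace ℝ Ω := WithLp.toLp 2 f
    set gE : EuclideanSpace ℝ Ω := WithLp.toLp 2 g
    have h := hM.eigenvectorBasis.sum_inner_mul_inner fE gE
    rw [show ip f g = inner ℝ fE gE from hip fE gE, ← h]
    refine sum_congr rfl fun i _ => ?_
    rw [show ip _ f = inner ℝ (hM.eigenvectorBasis i) fE from hip _ fE,
      show ip _ g = inner ℝ (hM.eigenvectorBasis i) gE from hip _ gE, real_inner_comm fE]

theorem ip_le_of_eigen (T : (Ω → ℝ) →ₗ[ℝ] (Ω → ℝ)) (hsym : ∀ f g, ip (T f) g = ip f (T g))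
    (h : ∀ (f : Ω → ℝ) (μ : ℝ), f ≠ 0 → T f = μ • f → μ = 0 ∨ 1 ≤ μ) (f : Ω → ℝ) :
    ip f (T f) ≤ ip (T f) (T f) := by
  obtain ⟨b, μ, hb, hne, hrep⟩ := exists_eigen_repr T hsym
  rw [hrep f, hrep (T f)]
  refine sum_le_sum fun i _ => ?_
  have e : ip (b i) (T f) = μ i * ip (b i) f := by rw [← hsym, hb, ip_smul_left]
  rw [e]
  rcases h (b i) (μ i) (hne i) (hb i) with h0 | h1
  · simp [h0]
  · have := mul_le_mul_of_nonneg_right h1
      (mul_nonneg (zero_le_one.trans h1) (mul_self_nonneg (ip (b i) f)))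
    linarith

theorem poincare_of_sq (T : (Ω → ℝ) →ₗ[ℝ] (Ω → ℝ)) (hsym : ∀ f g, ip (T f) g = ip f (T g))
    {c : ℝ} (hc0 : 0 < c) (hc : ∀ f, c * ip f (T f) ≤ ip (T f) (T f))
    (hpos : ∀ f, 0 ≤ ip f (T f))
    (hker : ∀ f, T f = 0 → ∀ x y, f x = f y) (f : Ω → ℝ) (hf : ∑ x, f x = 0) :
    c * ip f f ≤ ip f (T f) := by
  obtain ⟨b, μ, hb, hne, hrep⟩ := exists_eigen_repr T hsym
  have hpp : ∀ i, 0 < ip (b i) (b i) := fun i => by
    obtain ⟨x, hx⟩ := Function.ne_iff.1 (hne i)
    exact lt_of_lt_of_le (mul_self_pos.2 hx)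
      (single_le_sum (f := fun x => b i x * b i x) (fun y _ => mul_self_nonneg _) (mem_univ x))
  rw [hrep f f, hrep f (T f), mul_sum]
  refine sum_le_sum fun i _ => ?_
  have e : ip (b i) (T f) = μ i * ip (b i) f := by rw [← hsym, hb, ip_smul_left]
  rw [e]
  have h1 := hc (b i)
  have h2 := hpos (b i)
  rw [hb, ip_smul_left, ip_comm (b i), ip_smul_left] at h1
  rw [hb, ip_comm, ip_smul_left] at h2
  have hμ : 0 ≤ μ i := nonneg_of_mul_nonneg_left h2 (hpp i)
  rcases hμ.eq_or_lt with h0 | hpos'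
  · have hconst := hker (b i) (by rw [hb, ← h0, zero_smul])
    have hzero : ip (b i) f = 0 := by
      rcases isEmpty_or_nonempty Ω with hΩ | ⟨⟨x₀⟩⟩
      · simp [ip]
      · simp only [ip, hconst _ x₀, ← mul_sum, hf, mul_zero]
    simp [hzero]
  · have h3 : c ≤ μ i := le_of_mul_le_mul_right (by linarith) (mul_pos hpos' (hpp i))
    have := mul_le_mul_of_nonneg_right h3 (mul_self_nonneg (ip (b i) f))
    linarith

end Vale.Agent.P335
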