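import Mathlib
import Vale.Agent.P335.Avg

/-! The switch chain and the local operators used to analyse it. -/

namespace Vale.Agent.P335

open Finset
open scoped Classical

variable {n : ℕ}

/-- Simple graphs on `Fin n` in which vertex `i` has degree `d i`. -/
abbrev Realization {n : ℕ} (d : Fin n → ℕ) : Type :=
  {G : SimpleGraph (Fin n) // ∀ i, (G.neighborSet i).ncard = d i}

/-- The perfect matchings of the complete graph on `S`. -/
noncomputable def perfectMatchings (S : Finset (Fin n)) : Finset (Finset (Sym2 (Fin n))) :=
  (S.sym2.filter (fun e => ¬ e.IsDiag)).powerset.filter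
    (fun F => ∀ s ∈ S, (F.filter (fun e => s ∈ e)).card = 1)

/-- All choices `(S, F, F')`: a 4-set `S` and an ordered pair of distinct perfect matchings of it. -/
noncomputable def switchChoices (n : ℕ) :
    Finset (Finset (Fin n) × Finset (Sym2 (Fin n)) × Finset (Sym2 (Fin n))) :=
  (univ.powersetCard 4).biUnion (fun S =>
    ((perfectMatchings S ×ˢ perfectMatchings S).filter (fun p => p.1 ≠ p.2)).image (fun p => (S, p)))

/-- The switch replacing `F` by `F'`, if possible; otherwise the graph is left unchanged. -/
noncomputable def switchResult (G : SimpleGraph (Fin n))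
    (m : Finset (Fin n) × Finset (Sym2 (Fin n)) × Finset (Sym2 (Fin n))) : SimpleGraph (Fin n) :=
  if (↑m.2.1 : Set (Sym2 (Fin n))) ⊆ G.edgeSet ∧ Disjoint (↑m.2.2 : Set (Sym2 (Fin n))) G.edgeSet
  then SimpleGraph.fromEdgeSet ((G.edgeSet \ ↑m.2.1) ∪ ↑m.2.2)
  else G

/-- Transition matrix of the lazy switch chain. -/
noncomputable def switchChain {n : ℕ} (d : Fin n → ℕ) :
    Matrix (Realization d) (Realization d) ℝ :=
  Matrix.of (fun G H => (1 / 2) * (if G = H then 1 else 0) + (1 / 2) *
    ((((switchChoices n).filter (fun m => switchResult G.1 m = H.1)).card : ℝ) /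
      ((switchChoices n).card : ℝ)))

variable {d : Fin n → ℕ}

/-- Adjacency as a number `0` or `1`. -/
noncomputable def adjN (G : Realization d) (i j : Fin n) : ℕ := if G.1.Adj i j then 1 else 0

/-- Everything about `G` except how the neighbours of exactly one of `u`, `v` are shared between
them: the adjacency matrix with the rows and the columns of `u` and `v` added up. -/
noncomputable def pairKey (u v : Fin n) (G : Realization d) : Fin n → Fin n → ℕ := fun i j =>
  if i = u ∨ i = v then
    (if j = u ∨ j = v then adjN G i j else adjN G u j + adjN G v j)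
  else
    (if j = u ∨ j = v then adjN G i u + adjN G i v else adjN G i j)

/-- `P`-fluctuation for the vertex pair `(u, v)`. -/
noncomputable def Q (u v : Fin n) (f : Realization d → ℝ) : Realization d → ℝ :=
  dev (pairKey u v) f

/-- The four vertices are distinct. -/
def Distinct4 (u v x y : Fin n) : Prop :=
  u ≠ v ∧ u ≠ x ∧ u ≠ y ∧ v ≠ x ∧ v ≠ y ∧ x ≠ y

/-- The edges between `{u, v}` and `{x, y}` form a perfect matching of these four vertices. -/
def CrossMatched (u v x y : Fin n) (G : Realization d) : Prop :=
  (G.1.Adj u x ∧ G.1.Adj v y ∧ ¬ G.1.Adj u y ∧ ¬ G.1.Adj v x) ∨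
  (¬ G.1.Adj u x ∧ ¬ G.1.Adj v y ∧ G.1.Adj u y ∧ G.1.Adj v x)

/-- Symmetric difference of `G` with the 4-cycle `u x v y`. -/
noncomputable def toggleGraph (u v x y : Fin n) (G : SimpleGraph (Fin n)) : SimpleGraph (Fin n) :=
  SimpleGraph.fromEdgeSet (symmDiff G.edgeSet {s(u, x), s(u, y), s(v, x), s(v, y)})

/-- The switch on the cross edges, and the identity where it is not available. -/
noncomputable def flip4 (u v x y : Fin n) (G : Realization d) : Realization d :=
  if h : Distinct4 u v x y ∧ CrossMatched u v x y G ∧
      (∀ i, ((toggleGraph u v x y G.1).neighborSet i).ncard = d i)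
  then ⟨toggleGraph u v x y G.1, h.2.2⟩ else G

/-- Squared differences along the switches on the cross edges of `{u, v}` and `{x, y}`. -/
noncomputable def swEnergy (u v x y : Fin n) (f : Realization d → ℝ) : ℝ :=
  ∑ G, if CrossMatched u v x y G then (f G - f (flip4 u v x y G)) ^ 2 else 0

/-- The correction term of the pair `(u, v)` relative to the pair `(x, y)`. -/
noncomputable def psi (u v x y : Fin n) (f : Realization d → ℝ) : ℝ :=
  ∑ G, if CrossMatched u v x y G then
    (avg (fun H => (pairKey u v H, decide (CrossMatched u v x y H))) f G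
      - avg (pairKey u v) f G) ^ 2 else 0

/-- Ordered pairs of distinct vertices. -/
def vPairs (n : ℕ) : Finset (Fin n × Fin n) := univ.filter (fun p => p.1 ≠ p.2)

/-- The sum of all pair fluctuation operators. -/
noncomputable def Lop (f : Realization d → ℝ) : Realization d → ℝ :=
  fun G => ∑ p ∈ vPairs n, Q p.1 p.2 f G

end Vale.Agent.P335
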