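import Mathlib
import Vale.Agent.P335.Defs

/-! Elementary facts on keys and flips. -/

namespace Vale.Agent.P335

open Finset
open scoped Classical

variable {n : ℕ} {d : Fin n → ℕ}

theorem adjN_comm (G : Realization d) (i j : Fin n) : adjN G i j = adjN G j i := by
  simp only [adjN, SimpleGraph.adj_comm]

theorem adjN_self (G : Realization d) (i : Fin n) : adjN G i i = 0 := by
  simp [adjN]

theorem adjN_le_one (G : Realization d) (i j : Fin n) : adjN G i j ≤ 1 := by
  simp only [adjN]; split <;> simp

theorem adjN_eq_one_iff (G : Realization d) (i j : Fin n) : adjN G i j = 1 ↔ G.1.Adj i j := by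
  simp [adjN]

theorem adjN_eq_zero_iff (G : Realization d) (i j : Fin n) : adjN G i j = 0 ↔ ¬ G.1.Adj i j := by
  simp [adjN]

theorem sum_adjN (G : Realization d) (i : Fin n) : ∑ j, adjN G i j = d i := by
  rw [← G.2 i]
  simp only [adjN]
  rw [Finset.sum_boole, Set.ncard_eq_toFinset_card']
  simp only [Nat.cast_id]
  congr 1
  ext j
  simp

theorem realization_ext {G H : Realization d} (h : ∀ i j, adjN G i j = adjN H i j) : G = H := by
  apply Subtype.ext
  ext i j
  rw [← adjN_eq_one_iff G, ← adjN_eq_one_iff H, h]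

theorem pairKey_eq_iff {u v : Fin n} (huv : u ≠ v) (G H : Realization d) :
    pairKey u v G = pairKey u v H ↔
      (∀ i j, i ≠ u → i ≠ v → j ≠ u → j ≠ v → adjN G i j = adjN H i j) ∧
      adjN G u v = adjN H u v ∧
      (∀ w, w ≠ u → w ≠ v → adjN G u w + adjN G v w = adjN H u w + adjN H v w) := by
  constructor
  · intro h
    refine ⟨fun i j hi hi' hj hj' => ?_, ?_, fun w hw hw' => ?_⟩
    · simpa [pairKey, hi, hi', hj, hj'] using congrFun (congrFun h i) j
    · simpa [pairKey] using congrFun (congrFun h u) v
    · simpa [pairKey, hw, hw', huv] using congrFun (congrFun h u) w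
  · rintro ⟨h1, h2, h3⟩
    funext i j
    unfold pairKey
    by_cases hi : i = u ∨ i = v
    · rw [if_pos hi, if_pos hi]
      by_cases hj : j = u ∨ j = v
      · rw [if_pos hj, if_pos hj]
        rcases hi with rfl | rfl <;> rcases hj with rfl | rfl
        · simp [adjN_self]
        · exact h2
        · rw [adjN_comm G, adjN_comm H]; exact h2
        · simp [adjN_self]
      · rw [if_neg hj, if_neg hj]
        push_neg at hj
        exact h3 j hj.1 hj.2
    · rw [if_neg hi, if_neg hi]
      push_neg at hi
      by_cases hj : j = u ∨ j = v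
      · rw [if_pos hj, if_pos hj, adjN_comm G i u, adjN_comm G i v, adjN_comm H i u,
          adjN_comm H i v]
        exact h3 i hi.1 hi.2
      · rw [if_neg hj, if_neg hj]
        push_neg at hj
        exact h1 i j hi.1 hi.2 hj.1 hj.2

theorem pairKey_comm (u v : Fin n) (G : Realization d) : pairKey u v G = pairKey v u G := by
  funext i j
  unfold pairKey
  have e : ∀ a : Fin n, (a = u ∨ a = v) = (a = v ∨ a = u) := fun a => propext Or.comm
  simp only [e, Nat.add_comm (adjN G u j), Nat.add_comm (adjN G i u)]

theorem Q_comm (u v : Fin n) (f : Realization d → ℝ) : Q u v f = Q v u f := by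
  have : (pairKey u v : Realization d → _) = pairKey v u := funext (pairKey_comm u v)
  rw [Q, Q, this]

/-- The four cross edges. -/
def InBlock (u v x y i j : Fin n) : Prop :=
  ((i = u ∨ i = v) ∧ (j = x ∨ j = y)) ∨ ((i = x ∨ i = y) ∧ (j = u ∨ j = v))

theorem toggleGraph_adj {u v x y : Fin n} (h : Distinct4 u v x y) (G : SimpleGraph (Fin n))
    (i j : Fin n) :
    (toggleGraph u v x y G).Adj i j ↔ (if InBlock u v x y i j then ¬ G.Adj i j else G.Adj i j) := by
  obtain ⟨h1, h2, h3, h4, h5, h6⟩ := h
  have hS : s(i, j) ∈ ({s(u, x), s(u, y), s(v, x), s(v, y)} : Set (Sym2 (Fin n))) ↔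
      InBlock u v x y i j := by
    simp only [InBlock, Set.mem_insert_iff, Set.mem_singleton_iff, Sym2.eq_iff]
    grind
  have hne : InBlock u v x y i j → i ≠ j := by
    unfold InBlock
    grind
  simp only [toggleGraph, SimpleGraph.fromEdgeSet_adj, Set.mem_symmDiff, SimpleGraph.mem_edgeSet,
    hS]
  by_cases hb : InBlock u v x y i j
  · simp [hb, hne hb]
  · simp only [hb, if_false, not_false_eq_true, and_true, false_and, or_false]
    exact ⟨fun hh => hh.1, fun hh => ⟨hh, hh.ne⟩⟩

/-- The toggled graph has the prescribed degrees. -/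
theorem toggle_degrees {u v x y : Fin n} (h : Distinct4 u v x y) (G : Realization d)
    (hD : CrossMatched u v x y G) (i : Fin n) :
    ((toggleGraph u v x y G.1).neighborSet i).ncard = d i := by
  rw [Set.ncard_eq_toFinset_card']
  have hc : (toggleGraph u v x y G.1).neighborSet i =
      {j | if InBlock u v x y i j then ¬ G.1.Adj i j else G.1.Adj i j} := by
    ext j
    simp [toggleGraph_adj h]
  have hsum : ∑ j, (if InBlock u v x y i j then 1 - adjN G i j else adjN G i j) = d i := by
    rw [← sum_adjN G i]
    obtain ⟨h1, h2, h3, h4, h5, h6⟩ := h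
    have key : ∀ a b : Fin n, a ≠ b → adjN G i a + adjN G i b = 1 →
        (∀ j, InBlock u v x y i j ↔ (j = a ∨ j = b)) →
        ∑ j, (if InBlock u v x y i j then 1 - adjN G i j else adjN G i j) = ∑ j, adjN G i j := by
      intro a b hab hone hiff
      rw [← Finset.sum_add_sum_compl ({a, b} : Finset (Fin n)),
        ← Finset.sum_add_sum_compl ({a, b} : Finset (Fin n)) (fun j => adjN G i j)]
      congr 1
      · rw [Finset.sum_pair hab, Finset.sum_pair hab, if_pos ((hiff a).2 (Or.inl rfl)),
          if_pos ((hiff b).2 (Or.inr rfl))]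
        omega
      · refine Finset.sum_congr rfl (fun j hj => ?_)
        rw [if_neg]
        intro hb
        simp only [Finset.mem_compl, Finset.mem_insert, Finset.mem_singleton] at hj
        exact hj ((hiff j).1 hb)
    by_cases hiu : i = u ∨ i = v
    · refine key x y h6 ?_ (fun j => by unfold InBlock; grind)
      rcases hiu with rfl | rfl <;> rcases hD with ⟨a, b, c, e⟩ | ⟨a, b, c, e⟩ <;>
        simp [adjN, a, b, c, e]
    · by_cases hix : i = x ∨ i = y
      · refine key u v h1 ?_ (fun j => by unfold InBlock; grind)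
        rcases hix with rfl | rfl <;> rcases hD with ⟨a, b, c, e⟩ | ⟨a, b, c, e⟩ <;>
          simp [adjN, SimpleGraph.adj_comm, a, b, c, e]
      · refine Finset.sum_congr rfl (fun j _ => ?_)
        rw [if_neg]
        unfold InBlock
        grind
  rw [← hsum]
  have : (toggleGraph u v x y G.1).neighborSet i = _ := hc
  rw [Finset.card_eq_sum_ones]
  simp only [hc, Set.toFinset_setOf, Finset.sum_filter]
  refine Finset.sum_congr rfl (fun j _ => ?_)
  by_cases hb : InBlock u v x y i j <;> by_cases ha : G.1.Adj i j <;> simp [adjN, hb, ha]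

theorem flip4_eq {u v x y : Fin n} (h : Distinct4 u v x y) (G : Realization d)
    (hD : CrossMatched u v x y G) :
    (flip4 u v x y G).1 = toggleGraph u v x y G.1 := by
  rw [flip4, dif_pos ⟨h, hD, toggle_degrees h G hD⟩]

theorem flip4_adjN {u v x y : Fin n} (h : Distinct4 u v x y) (G : Realization d)
    (hD : CrossMatched u v x y G) (i j : Fin n) :
    adjN (flip4 u v x y G) i j =
      if ((i = u ∨ i = v) ∧ (j = x ∨ j = y)) ∨ ((i = x ∨ i = y) ∧ (j = u ∨ j = v))
      then 1 - adjN G i j else adjN G i j := by
  simp only [adjN, flip4_eq h G hD, toggleGraph_adj h, InBlock]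
  by_cases hb : ((i = u ∨ i = v) ∧ (j = x ∨ j = y)) ∨ ((i = x ∨ i = y) ∧ (j = u ∨ j = v)) <;>
    by_cases ha : G.1.Adj i j <;> simp [hb, ha]

theorem flip4_of_not {u v x y : Fin n} (G : Realization d)
    (hD : ¬ CrossMatched u v x y G) : flip4 u v x y G = G := by
  rw [flip4, dif_neg (fun hh => hD hh.2.1)]

theorem crossMatched_flip4 {u v x y : Fin n} (h : Distinct4 u v x y) (G : Realization d) :
    CrossMatched u v x y (flip4 u v x y G) ↔ CrossMatched u v x y G := by
  by_cases hD : CrossMatched u v x y G
  · simp only [hD, iff_true]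
    simp only [CrossMatched, flip4_eq h G hD, toggleGraph_adj h]
    have hb : InBlock u v x y u x ∧ InBlock u v x y v y ∧ InBlock u v x y u y ∧
        InBlock u v x y v x := by simp [InBlock]
    simp only [hb.1, hb.2.1, hb.2.2.1, hb.2.2.2, if_true, not_not]
    unfold CrossMatched at hD
    tauto
  · rw [flip4_of_not G hD]

theorem flip4_flip4 {u v x y : Fin n} (h : Distinct4 u v x y) (G : Realization d) :
    flip4 u v x y (flip4 u v x y G) = G := by
  by_cases hD : CrossMatched u v x y G
  · refine realization_ext (fun i j => ?_)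
    rw [flip4_adjN h _ ((crossMatched_flip4 h G).2 hD), flip4_adjN h G hD]
    have := adjN_le_one G i j
    split_ifs <;> omega
  · rw [flip4_of_not G hD, flip4_of_not G hD]

theorem crossMatched_comm (u v x y : Fin n) (G : Realization d) :
    CrossMatched x y u v G ↔ CrossMatched u v x y G := by
  unfold CrossMatched
  simp only [SimpleGraph.adj_comm G.1 x, SimpleGraph.adj_comm G.1 y]
  tauto

theorem distinct4_swap {u v x y : Fin n} (h : Distinct4 u v x y) : Distinct4 x y u v := by
  obtain ⟨h1, h2, h3, h4, h5, h6⟩ := h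
  exact ⟨h6, h2.symm, h4.symm, h3.symm, h5.symm, h1⟩

theorem flip4_comm (u v x y : Fin n) (G : Realization d) :
    flip4 x y u v G = flip4 u v x y G := by
  by_cases h : Distinct4 u v x y
  · by_cases hD : CrossMatched u v x y G
    · refine realization_ext (fun i j => ?_)
      rw [flip4_adjN h G hD,
        flip4_adjN (distinct4_swap h) G ((crossMatched_comm u v x y G).2 hD)]
      exact if_congr Or.comm rfl rfl
    · rw [flip4_of_not G hD, flip4_of_not G (fun hh => hD ((crossMatched_comm u v x y G).1 hh))]
  · rw [flip4, flip4, dif_neg (fun hh => h (distinct4_swap hh.1)), dif_neg (fun hh => h hh.1)]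

theorem pairKey_flip4_left {u v x y : Fin n} (h : Distinct4 u v x y) (G : Realization d) :
    pairKey u v (flip4 u v x y G) = pairKey u v G := by
  by_cases hD : CrossMatched u v x y G
  · rw [pairKey_eq_iff h.1]
    obtain ⟨h1, h2, h3, h4, h5, h6⟩ := id h
    refine ⟨fun i j hi hi' hj hj' => ?_, ?_, fun w hw hw' => ?_⟩
    · rw [flip4_adjN h G hD, if_neg]; grind
    · rw [flip4_adjN h G hD, if_neg]; grind
    · rw [flip4_adjN h G hD, flip4_adjN h G hD]
      by_cases hwx : w = x ∨ w = y
      · rw [if_pos (Or.inl ⟨Or.inl rfl, hwx⟩), if_pos (Or.inl ⟨Or.inr rfl, hwx⟩)]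
        rcases hwx with rfl | rfl <;> rcases hD with ⟨a, b, c, e⟩ | ⟨a, b, c, e⟩ <;>
          simp [adjN, a, b, c, e]
      · rw [if_neg, if_neg] <;> grind
  · rw [flip4_of_not G hD]

theorem pairKey_flip4 {u v x y : Fin n} (h : Distinct4 u v x y) (G : Realization d) :
    pairKey u v (flip4 u v x y G) = pairKey u v G ∧
      pairKey x y (flip4 u v x y G) = pairKey x y G := by
  refine ⟨pairKey_flip4_left h G, ?_⟩
  rw [← flip4_comm u v x y G]
  exact pairKey_flip4_left (distinct4_swap h) G

theorem swEnergy_comm (u v x y : Fin n) (f : Realization d → ℝ) :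
    swEnergy u v x y f = swEnergy x y u v f := by
  simp only [swEnergy, crossMatched_comm u v x y, flip4_comm u v x y]

end Vale.Agent.P335
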