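import Mathlib
import Vale.Agent.P335.Defs

/-! Perfect matchings of a four-set and the graphs produced by switches. -/

namespace Vale.Agent.P335

open Finset
open scoped Classical

variable {n : ℕ}

theorem mem_pm {S : Finset (Fin n)} {F : Finset (Sym2 (Fin n))} :
    F ∈ perfectMatchings S ↔ (∀ e ∈ F, (∀ s ∈ e, s ∈ S) ∧ ¬ e.IsDiag) ∧
      ∀ s ∈ S, (F.filter (fun e => s ∈ e)).card = 1 := by
  simp [perfectMatchings, Finset.subset_iff, Finset.mem_sym2_iff]

theorem pm_unique {S : Finset (Fin n)} {F : Finset (Sym2 (Fin n))} (hF : F ∈ perfectMatchings S)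
    {s v w : Fin n} (hv : s(s, v) ∈ F) (hw : s(s, w) ∈ F) : v = w := by
  have hs : s ∈ S := ((mem_pm.1 hF).1 _ hv).1 s (Sym2.mem_mk_left s v)
  obtain ⟨e, he⟩ := card_eq_one.1 ((mem_pm.1 hF).2 s hs)
  have h1 : s(s, v) ∈ F.filter (fun e => s ∈ e) := mem_filter.2 ⟨hv, Sym2.mem_mk_left s v⟩
  have h2 : s(s, w) ∈ F.filter (fun e => s ∈ e) := mem_filter.2 ⟨hw, Sym2.mem_mk_left s w⟩
  rw [he, mem_singleton] at h1 h2
  exact Sym2.congr_right.1 (h1.trans h2.symm)

theorem pm_partner {S : Finset (Fin n)} {F : Finset (Sym2 (Fin n))} (hF : F ∈ perfectMatchings S)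
    {s : Fin n} (hs : s ∈ S) : ∃ w, w ∈ S ∧ w ≠ s ∧ s(s, w) ∈ F := by
  obtain ⟨e, he⟩ := card_eq_one.1 ((mem_pm.1 hF).2 s hs)
  have h1 : e ∈ F.filter (fun e => s ∈ e) := by rw [he]; exact mem_singleton_self e
  obtain ⟨h2, h3⟩ := mem_filter.1 h1
  obtain ⟨w, rfl⟩ := Sym2.mem_iff_exists.1 h3
  obtain ⟨h4, h5⟩ := (mem_pm.1 hF).1 _ h2
  exact ⟨w, h4 w (Sym2.mem_mk_right s w), fun e => h5 (Sym2.mk_isDiag_iff.2 e.symm), h2⟩

theorem pair_mem_pm {a b c e : Fin n} (h : Distinct4 a b c e) :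
    ({s(a, b), s(c, e)} : Finset (Sym2 (Fin n))) ∈ perfectMatchings {a, b, c, e} := by
  obtain ⟨hab, hac, hae, hbc, hbe, hce⟩ := h
  refine mem_pm.2 ⟨fun x hx => ?_, fun s hs => ?_⟩
  · simp only [mem_insert, mem_singleton] at hx
    rcases hx with rfl | rfl
    · simp [hab]
    · simp [hce]
  · simp only [mem_insert, mem_singleton] at hs
    have := hab.symm
    have := hac.symm
    have := hae.symm
    have := hbc.symm
    have := hbe.symm
    have := hce.symm
    rcases hs with rfl | rfl | rfl | rfl <;> simp [filter_insert, filter_singleton, *]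

theorem pm_eq_pair {S : Finset (Fin n)} {F : Finset (Sym2 (Fin n))} (hF : F ∈ perfectMatchings S)
    {a b c e : Fin n} (hS : S = {a, b, c, e}) (h : Distinct4 a b c e) (hb : s(a, b) ∈ F) :
    F = {s(a, b), s(c, e)} := by
  obtain ⟨hab, hac, hae, hbc, hbe, hce⟩ := h
  have hb' : s(b, a) ∈ F := Sym2.eq_swap ▸ hb
  obtain ⟨w, hwS, hwc, hw⟩ := pm_partner hF (s := c) (by simp [hS])
  have hw' : s(w, c) ∈ F := Sym2.eq_swap ▸ hw
  have hwe : w = e := by
    simp only [hS, mem_insert, mem_singleton] at hwS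
    rcases hwS with rfl | rfl | rfl | rfl
    · exact absurd (pm_unique hF hb hw') hbc
    · exact absurd (pm_unique hF hb' hw') hac
    · exact absurd rfl hwc
    · rfl
  subst hwe
  ext x
  simp only [mem_insert, mem_singleton]
  refine ⟨fun hx => ?_, fun hx => hx.elim (fun e => e ▸ hb) (fun e => e ▸ hw)⟩
  induction x using Sym2.ind with
  | _ p q =>
    have hp : p ∈ S := ((mem_pm.1 hF).1 _ hx).1 p (Sym2.mem_mk_left p q)
    simp only [hS, mem_insert, mem_singleton] at hp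
    rcases hp with rfl | rfl | rfl | rfl
    · exact Or.inl (by rw [pm_unique hF hx hb])
    · exact Or.inl (by rw [pm_unique hF hx hb', Sym2.eq_swap])
    · exact Or.inr (by rw [pm_unique hF hx hw])
    · exact Or.inr (by rw [pm_unique hF hx hw', Sym2.eq_swap])

theorem pm_four {a b c e : Fin n} (h : Distinct4 a b c e) :
    perfectMatchings {a, b, c, e} =
      {{s(a, b), s(c, e)}, {s(a, c), s(b, e)}, {s(a, e), s(b, c)}} := by
  obtain ⟨hab, hac, hae, hbc, hbe, hce⟩ := h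
  have h1 : Distinct4 a b c e := ⟨hab, hac, hae, hbc, hbe, hce⟩
  have h2 : Distinct4 a c b e := ⟨hac, hab, hae, hbc.symm, hce, hbe⟩
  have h3 : Distinct4 a e b c := ⟨hae, hab, hac, hbe.symm, hce.symm, hbc⟩
  have e2 : ({a, b, c, e} : Finset (Fin n)) = {a, c, b, e} := by
    ext x; simp only [mem_insert, mem_singleton]; tauto
  have e3 : ({a, b, c, e} : Finset (Fin n)) = {a, e, b, c} := by
    ext x; simp only [mem_insert, mem_singleton]; tauto
  ext F
  simp only [mem_insert, mem_singleton]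
  refine ⟨fun hF => ?_, fun hF => ?_⟩
  · obtain ⟨w, hwS, hwa, hw⟩ := pm_partner hF (s := a) (by simp)
    simp only [mem_insert, mem_singleton] at hwS
    rcases hwS with rfl | rfl | rfl | rfl
    · exact absurd rfl hwa
    · exact Or.inl (pm_eq_pair hF rfl h1 hw)
    · exact Or.inr (Or.inl (pm_eq_pair hF e2 h2 hw))
    · exact Or.inr (Or.inr (pm_eq_pair hF e3 h3 hw))
  · rcases hF with rfl | rfl | rfl
    · exact pair_mem_pm h1
    · exact e2 ▸ pair_mem_pm h2
    · exact e3 ▸ pair_mem_pm h3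

theorem card_pm {S : Finset (Fin n)} (hS : S.card = 4) : (perfectMatchings S).card = 3 := by
  obtain ⟨a, b, c, e, hab, hac, hae, hbc, hbe, hce, rfl⟩ := card_eq_four.1 hS
  rw [pm_four ⟨hab, hac, hae, hbc, hbe, hce⟩]
  have ne : ∀ {p q r t p' q' r' t' : Fin n}, s(p, q) ≠ s(p', q') → s(p, q) ≠ s(r', t') →
      ({s(p, q), s(r, t)} : Finset (Sym2 (Fin n))) ≠ {s(p', q'), s(r', t')} := by
    intro p q r t p' q' r' t' h1 h2 h
    have : s(p, q) ∈ ({s(p', q'), s(r', t')} : Finset (Sym2 (Fin n))) := h ▸ mem_insert_self _ _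
    simp only [mem_insert, mem_singleton] at this
    exact this.elim h1 h2
  rw [card_insert_of_notMem, card_insert_of_notMem, card_singleton]
  · simp only [mem_singleton]
    exact ne (by simp [hce, hae]) (by simp [hab, hac])
  · simp only [mem_insert, mem_singleton, not_or]
    exact ⟨ne (by simp [hbc, hac]) (by simp [hab, hae]),
      ne (by simp [hbe, hae]) (by simp [hab, hac])⟩

theorem mem_switchChoices {m : Finset (Fin n) × Finset (Sym2 (Fin n)) × Finset (Sym2 (Fin n))} :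
    m ∈ switchChoices n ↔ m.1.card = 4 ∧ m.2.1 ∈ perfectMatchings m.1 ∧
      m.2.2 ∈ perfectMatchings m.1 ∧ m.2.1 ≠ m.2.2 := by
  simp only [switchChoices, mem_biUnion, mem_powersetCard, mem_image, mem_filter, mem_product,
    subset_univ, true_and]
  constructor
  · rintro ⟨S, hS, p, ⟨⟨h1, h2⟩, h3⟩, rfl⟩
    exact ⟨hS, h1, h2, h3⟩
  · rintro ⟨hS, h1, h2, h3⟩
    exact ⟨m.1, hS, m.2, ⟨⟨h1, h2⟩, h3⟩, rfl⟩

/-- The neighbours of `v` in `F` number one on `S` and none elsewhere. -/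
theorem ncard_pm_nbr {S : Finset (Fin n)} {F : Finset (Sym2 (Fin n))}
    (hF : F ∈ perfectMatchings S) (v : Fin n) :
    {w | s(v, w) ∈ F}.ncard = if v ∈ S then 1 else 0 := by
  split_ifs with hv
  · obtain ⟨w, -, -, hw⟩ := pm_partner hF hv
    rw [Set.ncard_eq_one]
    exact ⟨w, Set.ext fun u => ⟨fun hu => pm_unique hF hu hw, fun hu => hu ▸ hw⟩⟩
  · rw [Set.ncard_eq_zero]
    exact Set.eq_empty_of_forall_notMem fun w hw =>
      hv (((mem_pm.1 hF).1 _ hw).1 v (Sym2.mem_mk_left v w))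

theorem switchResult_ncard (G : SimpleGraph (Fin n))
    {m : Finset (Fin n) × Finset (Sym2 (Fin n)) × Finset (Sym2 (Fin n))}
    (hm : m ∈ switchChoices n) (v : Fin n) :
    ((switchResult G m).neighborSet v).ncard = (G.neighborSet v).ncard := by
  obtain ⟨-, h1, h2, -⟩ := mem_switchChoices.1 hm
  unfold switchResult
  split_ifs with h
  swap
  · rfl
  obtain ⟨hsub, hdis⟩ := h
  set A := {w | s(v, w) ∈ m.2.1}
  set B := {w | s(v, w) ∈ m.2.2}
  have hN : (SimpleGraph.fromEdgeSet ((G.edgeSet \ ↑m.2.1) ∪ ↑m.2.2)).neighborSet v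
      = (G.neighborSet v \ A) ∪ B := by
    ext w
    simp only [SimpleGraph.mem_neighborSet, SimpleGraph.fromEdgeSet_adj, Set.mem_union,
      Set.mem_sdiff, SimpleGraph.mem_edgeSet, Finset.mem_coe, A, B, Set.mem_setOf_eq]
    refine ⟨fun h => h.1, fun h => ⟨h, ?_⟩⟩
    rcases h with ⟨h, -⟩ | h
    · exact h.ne
    · exact fun e => ((mem_pm.1 h2).1 _ h).2 (Sym2.mk_isDiag_iff.2 e)
  have hA : A ⊆ G.neighborSet v := fun w hw => hsub hw
  have hB : Disjoint (G.neighborSet v \ A) B := by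
    rw [Set.disjoint_left]
    intro w hw hw'
    exact Set.disjoint_left.1 hdis hw' hw.1
  rw [hN, Set.ncard_union_eq hB, Set.ncard_sdiff hA, ncard_pm_nbr h1, ncard_pm_nbr h2]
  have := Set.ncard_le_ncard hA
  rw [ncard_pm_nbr h1] at this
  split_ifs at this ⊢ <;> omega

theorem switchResult_rev {G H : SimpleGraph (Fin n)}
    {m : Finset (Fin n) × Finset (Sym2 (Fin n)) × Finset (Sym2 (Fin n))}
    (hm : m ∈ switchChoices n) (hne : G ≠ H) (h : switchResult G m = H) :
    switchResult H (m.1, m.2.2, m.2.1) = G := by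
  obtain ⟨-, h1, h2, -⟩ := mem_switchChoices.1 hm
  unfold switchResult at h
  split_ifs at h with hc
  swap
  · exact absurd h hne
  obtain ⟨hsub, hdis⟩ := hc
  subst h
  have hdiag : ∀ e ∈ (G.edgeSet \ ↑m.2.1) ∪ ↑m.2.2, ¬ e.IsDiag := by
    rintro e (⟨he, -⟩ | he)
    · exact G.not_isDiag_of_mem_edgeSet he
    · exact ((mem_pm.1 h2).1 e he).2
  have hE : (SimpleGraph.fromEdgeSet ((G.edgeSet \ ↑m.2.1) ∪ ↑m.2.2)).edgeSet
      = (G.edgeSet \ ↑m.2.1) ∪ ↑m.2.2 := by
    rw [SimpleGraph.edgeSet_fromEdgeSet]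
    exact sdiff_eq_left.2 (Set.disjoint_left.2 hdiag)
  unfold switchResult
  rw [if_pos]
  · rw [hE]
    conv_rhs => rw [← SimpleGraph.fromEdgeSet_edgeSet G]
    congr 1
    ext e
    simp only [Set.mem_union, Set.mem_sdiff]
    have a1 : e ∈ (↑m.2.1 : Set _) → e ∈ G.edgeSet := fun he => hsub he
    have a2 : e ∈ (↑m.2.2 : Set _) → e ∉ G.edgeSet := fun he => Set.disjoint_left.1 hdis he
    tauto
  · rw [hE]
    refine ⟨Set.subset_union_right, Set.disjoint_left.2 fun e he => ?_⟩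
    rintro (⟨-, he'⟩ | he')
    · exact he' he
    · exact Set.disjoint_left.1 hdis he' (hsub he)

end Vale.Agent.P335
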