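import Mathlib
import Vale.Agent.P335.Defs
import Vale.Agent.P335.Basic
import Vale.Agent.P335.ComparisonAux

/-! The switch chain: elementary properties and its Dirichlet form. -/

namespace Vale.Agent.P335

open Finset
open scoped Classical

variable {n : ℕ} {d : Fin n → ℕ}

theorem card_switchChoices (hn : 4 ≤ n) : (switchChoices n).card = 6 * n.choose 4 := by
  have _ := hn
  rw [switchChoices, card_biUnion]
  · rw [sum_congr rfl (g := fun _ => 6), sum_const, card_powersetCard, card_univ, Fintype.card_fin,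
      smul_eq_mul, mul_comm]
    intro S hS
    rw [card_image_of_injective _ (fun p q h => (Prod.mk.injEq _ _ _ _ ▸ h).2)]
    have h3 := card_pm (mem_powersetCard.1 hS).2
    have : (perfectMatchings S ×ˢ perfectMatchings S).filter (fun p => p.1 ≠ p.2)
        = (perfectMatchings S).offDiag := by
      ext p; simp [mem_offDiag, and_assoc]
    rw [this, offDiag_card, h3]
  · intro S _ T _ hne
    refine disjoint_left.2 fun m h1 h2 => hne ?_
    obtain ⟨p, -, rfl⟩ := mem_image.1 h1
    obtain ⟨q, -, hq⟩ := mem_image.1 h2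
    exact (congrArg Prod.fst hq).symm

/-- `switchResult` as a realization. -/
noncomputable def switchReal (G : Realization d)
    (m : Finset (Fin n) × Finset (Sym2 (Fin n)) × Finset (Sym2 (Fin n))) : Realization d :=
  if h : ∀ i, ((switchResult G.1 m).neighborSet i).ncard = d i then ⟨switchResult G.1 m, h⟩ else G

theorem switchReal_val {m : Finset (Fin n) × Finset (Sym2 (Fin n)) × Finset (Sym2 (Fin n))}
    (hm : m ∈ switchChoices n) (G : Realization d) :
    (switchReal G m).1 = switchResult G.1 m := by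
  rw [switchReal, dif_pos fun i => (switchResult_ncard G.1 hm i).trans (G.2 i)]

theorem filter_switchResult (G H : Realization d) :
    (switchChoices n).filter (fun m => switchResult G.1 m = H.1)
      = (switchChoices n).filter (fun m => switchReal G m = H) :=
  filter_congr fun m hm => by rw [← switchReal_val hm G, Subtype.val_injective.eq_iff]

theorem switchChain_symm (G H : Realization d) : switchChain d G H = switchChain d H G := by
  rcases eq_or_ne G H with rfl | hne
  · rfl
  have hne' : G.1 ≠ H.1 := fun e => hne (Subtype.ext e)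
  have hc : ((switchChoices n).filter (fun m => switchResult G.1 m = H.1)).card
      = ((switchChoices n).filter (fun m => switchResult H.1 m = G.1)).card := by
    refine card_nbij' (fun m => (m.1, m.2.2, m.2.1)) (fun m => (m.1, m.2.2, m.2.1)) ?_ ?_
      (fun m _ => rfl) (fun m _ => rfl)
    · intro m hm
      obtain ⟨hm, h⟩ := mem_filter.1 hm
      obtain ⟨h1, h2, h3, h4⟩ := mem_switchChoices.1 hm
      exact mem_filter.2 ⟨mem_switchChoices.2 ⟨h1, h3, h2, h4.symm⟩, switchResult_rev hm hne' h⟩
    · intro m hm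
      obtain ⟨hm, h⟩ := mem_filter.1 hm
      obtain ⟨h1, h2, h3, h4⟩ := mem_switchChoices.1 hm
      exact mem_filter.2 ⟨mem_switchChoices.2 ⟨h1, h3, h2, h4.symm⟩,
        switchResult_rev hm hne'.symm h⟩
  simp only [switchChain, Matrix.of_apply, hc, if_neg hne, if_neg hne.symm]

theorem switchChain_nonneg (G H : Realization d) : 0 ≤ switchChain d G H := by
  simp only [switchChain, Matrix.of_apply]
  split_ifs <;> positivity

theorem sum_switch_card_mul (G : Realization d) (g : Realization d → ℝ) :
    ∑ H, (((switchChoices n).filter (fun m => switchResult G.1 m = H.1)).card : ℝ) * g H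
      = ∑ m ∈ switchChoices n, g (switchReal G m) := by
  rw [← sum_fiberwise (switchChoices n) (switchReal G) (fun m => g (switchReal G m))]
  refine sum_congr rfl fun H _ => ?_
  rw [filter_switchResult]
  rw [sum_congr rfl (g := fun _ => g H) fun m hm => by rw [(mem_filter.1 hm).2], sum_const,
    nsmul_eq_mul]

theorem switchChain_row (hn : 4 ≤ n) (G : Realization d) : ∑ H, switchChain d G H = 1 := by
  simp only [switchChain, Matrix.of_apply, sum_add_distrib, ← mul_sum, ← sum_div, sum_ite_eq,
    mem_univ, if_true]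
  have h := sum_switch_card_mul G (fun _ => 1)
  simp only [mul_one, sum_const, nsmul_eq_mul] at h
  rw [h, div_self (Nat.cast_ne_zero.2 (by
    rw [card_switchChoices hn]; have := Nat.choose_pos hn; omega))]
  norm_num

theorem switchChain_lazy (G : Realization d) : 1 / 2 ≤ switchChain d G G := by
  simp only [switchChain, Matrix.of_apply, if_true, mul_one]
  exact le_add_of_nonneg_right (by positivity)

/-- The choice made by the cross switch on `(u, v, x, y)`. -/
noncomputable def quadChoice (G : Realization d) (q : Fin n × Fin n × Fin n × Fin n) :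
    Finset (Fin n) × Finset (Sym2 (Fin n)) × Finset (Sym2 (Fin n)) :=
  if G.1.Adj q.1 q.2.2.1 then
    ({q.1, q.2.1, q.2.2.1, q.2.2.2}, {s(q.1, q.2.2.1), s(q.2.1, q.2.2.2)},
      {s(q.1, q.2.2.2), s(q.2.1, q.2.2.1)})
  else
    ({q.1, q.2.1, q.2.2.1, q.2.2.2}, {s(q.1, q.2.2.2), s(q.2.1, q.2.2.1)},
      {s(q.1, q.2.2.1), s(q.2.1, q.2.2.2)})

theorem quadChoice_mem (G : Realization d) {u v x y : Fin n} (h : Distinct4 u v x y) :
    quadChoice G (u, v, x, y) ∈ switchChoices n := by
  obtain ⟨huv, hux, huy, hvx, hvy, hxy⟩ := h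
  have h1 : Distinct4 u x v y := ⟨hux, huv, huy, hvx.symm, hxy, hvy⟩
  have h2 : Distinct4 u y v x := ⟨huy, huv, hux, hvy.symm, hxy.symm, hvx⟩
  have e1 : ({u, v, x, y} : Finset (Fin n)) = {u, x, v, y} := by
    ext z; simp only [mem_insert, mem_singleton]; tauto
  have e2 : ({u, v, x, y} : Finset (Fin n)) = {u, y, v, x} := by
    ext z; simp only [mem_insert, mem_singleton]; tauto
  have p1 := pair_mem_pm h1
  have p2 := pair_mem_pm h2
  rw [← e1] at p1
  rw [← e2] at p2
  have hcard : ({u, v, x, y} : Finset (Fin n)).card = 4 :=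
    card_eq_four.2 ⟨u, v, x, y, huv, hux, huy, hvx, hvy, hxy, rfl⟩
  have hne : ({s(u, x), s(v, y)} : Finset (Sym2 (Fin n))) ≠ {s(u, y), s(v, x)} := by
    intro h
    have : s(u, x) ∈ ({s(u, y), s(v, x)} : Finset (Sym2 (Fin n))) := h ▸ mem_insert_self _ _
    simp [huv, hux, huy, hxy, hvx] at this
  unfold quadChoice
  split_ifs
  · exact mem_switchChoices.2 ⟨hcard, p1, p2, hne⟩
  · exact mem_switchChoices.2 ⟨hcard, p2, p1, hne.symm⟩

theorem symmDiff_union_eq {α : Type*} {E F F' : Set α} (hs : F ⊆ E) (hd : Disjoint F' E) :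
    symmDiff E (F ∪ F') = (E \ F) ∪ F' := by
  ext e
  have a1 : e ∈ F → e ∈ E := fun h => hs h
  have a2 : e ∈ F' → e ∉ E := fun h => Set.disjoint_left.1 hd h
  simp only [Set.mem_symmDiff, Set.mem_union, Set.mem_sdiff]
  tauto

theorem switchReal_quadChoice (G : Realization d) {u v x y : Fin n} (h : Distinct4 u v x y)
    (hc : CrossMatched u v x y G) :
    switchReal G (quadChoice G (u, v, x, y)) = flip4 u v x y G := by
  have hm := quadChoice_mem G h
  have key : switchResult G.1 (quadChoice G (u, v, x, y)) = toggleGraph u v x y G.1 := by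
    unfold quadChoice switchResult toggleGraph
    rcases hc with ⟨h1, h2, h3, h4⟩ | ⟨h1, h2, h3, h4⟩
    · simp only [if_pos h1]
      have hs : (↑({s(u, x), s(v, y)} : Finset (Sym2 (Fin n))) : Set (Sym2 (Fin n)))
          ⊆ G.1.edgeSet := by simp [Set.insert_subset_iff, h1, h2]
      have hd : Disjoint (↑({s(u, y), s(v, x)} : Finset (Sym2 (Fin n))) : Set (Sym2 (Fin n)))
          G.1.edgeSet := by simp [h3, h4]
      rw [if_pos ⟨hs, hd⟩, ← symmDiff_union_eq hs hd]
      congr 2
      ext e
      simp only [coe_insert, coe_singleton, Set.mem_union, Set.mem_insert_iff,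
        Set.mem_singleton_iff, or_assoc, or_left_comm, or_comm]
    · simp only [if_neg h1]
      have hs : (↑({s(u, y), s(v, x)} : Finset (Sym2 (Fin n))) : Set (Sym2 (Fin n)))
          ⊆ G.1.edgeSet := by simp [Set.insert_subset_iff, h3, h4]
      have hd : Disjoint (↑({s(u, x), s(v, y)} : Finset (Sym2 (Fin n))) : Set (Sym2 (Fin n)))
          G.1.edgeSet := by simp [h1, h2]
      rw [if_pos ⟨hs, hd⟩, ← symmDiff_union_eq hs hd]
      congr 2
      ext e
      simp only [coe_insert, coe_singleton, Set.mem_union, Set.mem_insert_iff,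
        Set.mem_singleton_iff, or_assoc, or_left_comm, or_comm]
  have hdeg : ∀ i, ((toggleGraph u v x y G.1).neighborSet i).ncard = d i := fun i => by
    rw [← key]; exact (switchResult_ncard G.1 hm i).trans (G.2 i)
  refine Subtype.ext ?_
  rw [switchReal_val hm, flip4, dif_pos ⟨h, hc, hdeg⟩]
  exact key

/-- Each choice of the chain comes from at most 8 cross switches. -/
theorem card_quadChoice_fibre (G : Realization d)
    (m : Finset (Fin n) × Finset (Sym2 (Fin n)) × Finset (Sym2 (Fin n))) :
    ((univ.filter fun q : Fin n × Fin n × Fin n × Fin n =>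
      Distinct4 q.1 q.2.1 q.2.2.1 q.2.2.2 ∧ CrossMatched q.1 q.2.1 q.2.2.1 q.2.2.2 G).filter
        (fun q => quadChoice G q = m)).card ≤ 8 := by
  rcases (((univ.filter fun q : Fin n × Fin n × Fin n × Fin n =>
      Distinct4 q.1 q.2.1 q.2.2.1 q.2.2.2 ∧ CrossMatched q.1 q.2.1 q.2.2.1 q.2.2.2 G).filter
        (fun q => quadChoice G q = m))).eq_empty_or_nonempty with he | ⟨q₀, hq₀⟩
  · rw [he]; simp
  simp only [mem_filter, mem_univ, true_and] at hq₀
  have hS : m.1.card = 4 := by
    rw [← hq₀.2]
    exact (mem_switchChoices.1 (quadChoice_mem G hq₀.1.1)).1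
  refine (card_le_card_of_injOn (fun q => (q.1, decide (G.1.Adj q.1 q.2.2.1)))
    (t := m.1 ×ˢ (univ : Finset Bool)) ?_ ?_).trans (by rw [card_product, hS]; simp)
  · intro q hq
    simp only [mem_coe, mem_filter, mem_univ, true_and] at hq
    simp only [mem_coe, mem_product, mem_univ, and_true]
    rw [← hq.2, quadChoice]
    split_ifs <;> simp
  · rintro ⟨u, v, x, y⟩ hq ⟨u', v', x', y'⟩ hq' he
    simp only [mem_coe, mem_filter, mem_univ, true_and] at hq hq'
    simp only [Prod.mk.injEq, decide_eq_decide] at he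
    obtain ⟨rfl, he⟩ := he
    obtain ⟨⟨⟨huv, hux, huy, hvx, hvy, hxy⟩, -⟩, hm⟩ := hq
    obtain ⟨⟨⟨huv', hux', huy', hvx', hvy', hxy'⟩, -⟩, hm'⟩ := hq'
    rw [← hm'] at hm
    unfold quadChoice at hm
    have step : ∀ {p r p' r' : Fin n}, u ≠ v' → u ≠ r' →
        ({s(u, p), s(v, r)} : Finset (Sym2 (Fin n))) = {s(u, p'), s(v', r')} → p = p' := by
      intro p r p' r' h1 h2 h
      have h3 : s(u, p) ∈ ({s(u, p'), s(v', r')} : Finset (Sym2 (Fin n))) :=
        h ▸ mem_insert_self _ _
      simp only [mem_insert, mem_singleton] at h3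
      rcases h3 with h3 | h3
      · exact Sym2.congr_right.1 h3
      · rcases Sym2.eq_iff.1 h3 with ⟨h4, -⟩ | ⟨h4, -⟩
        · exact absurd h4 h1
        · exact absurd h4 h2
    have last : x = x' → y = y' →
        ({s(u, x), s(v, y)} : Finset (Sym2 (Fin n))) = {s(u, x'), s(v', y')} → v = v' := by
      intro hx hy h
      have h3 : s(v, y) ∈ ({s(u, x'), s(v', y')} : Finset (Sym2 (Fin n))) :=
        h ▸ mem_insert.2 (Or.inr (mem_singleton_self _))
      simp only [mem_insert, mem_singleton, Sym2.eq_iff, ← hx, ← hy] at h3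
      rcases h3 with (⟨h4, -⟩ | ⟨h4, -⟩) | (⟨h4, -⟩ | ⟨h4, -⟩)
      · exact absurd h4.symm huv
      · exact absurd h4 hvx
      · exact h4
      · exact absurd h4 hvy
    simp only at hm
    by_cases ha : G.1.Adj u x
    · rw [if_pos ha, if_pos (he.1 ha)] at hm
      simp only [Prod.mk.injEq] at hm
      have hx := step huv' huy' hm.2.1
      have hy := step huv' hux' hm.2.2
      simp [hx, hy, last hx hy hm.2.1]
    · rw [if_neg ha, if_neg (fun h => ha (he.2 h))] at hm
      simp only [Prod.mk.injEq] at hm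
      have hy := step huv' hux' hm.2.1
      have hx := step huv' huy' hm.2.2
      simp [hx, hy, last hx hy hm.2.2]

/-- Each switch of the chain arises from 8 ordered quadruples. -/
theorem energy_le_dirichlet (hn : 4 ≤ n) (f : Realization d → ℝ) :
    (1 / 8) * ∑ u, ∑ v, ∑ x, ∑ y, (if Distinct4 u v x y then swEnergy u v x y f else 0) ≤
      (24 * (n.choose 4 : ℝ)) *
        ((1 / 2) * ∑ G, ∑ H, switchChain d G H * (f G - f H) ^ 2) := by
  have hM : ((switchChoices n).card : ℝ) = 6 * (n.choose 4 : ℝ) := by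
    rw [card_switchChoices hn]; push_cast; ring
  have hc : (0:ℝ) < n.choose 4 := Nat.cast_pos.2 (Nat.choose_pos hn)
  have hD : ∀ G : Realization d, ∑ H, switchChain d G H * (f G - f H) ^ 2
      = (1 / 2) * ((∑ m ∈ switchChoices n, (f G - f (switchReal G m)) ^ 2)
          / (6 * (n.choose 4 : ℝ))) := by
    intro G
    simp only [switchChain, Matrix.of_apply, add_mul, sum_add_distrib, mul_assoc, ← mul_sum,
      ite_mul, one_mul, zero_mul, sum_ite_eq, mem_univ, if_true, sub_self, div_mul_eq_mul_div,
      ← sum_div]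
    rw [sum_switch_card_mul G fun H => (f G - f H) ^ 2, hM]
    ring
  have hL : ∑ u, ∑ v, ∑ x, ∑ y, (if Distinct4 u v x y then swEnergy u v x y f else 0)
      = ∑ G : Realization d, ∑ q ∈ univ.filter (fun q : Fin n × Fin n × Fin n × Fin n =>
          Distinct4 q.1 q.2.1 q.2.2.1 q.2.2.2 ∧ CrossMatched q.1 q.2.1 q.2.2.1 q.2.2.2 G),
          (f G - f (flip4 q.1 q.2.1 q.2.2.1 q.2.2.2 G)) ^ 2 := by
    simp only [sum_filter]
    conv_rhs => rw [sum_comm, Fintype.sum_prod_type]
    refine sum_congr rfl fun u _ => ?_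
    rw [Fintype.sum_prod_type]
    refine sum_congr rfl fun v _ => ?_
    rw [Fintype.sum_prod_type]
    refine sum_congr rfl fun x _ => sum_congr rfl fun y _ => ?_
    by_cases h : Distinct4 u v x y <;> simp [h, swEnergy]
  have hG : ∀ G : Realization d, ∑ q ∈ univ.filter (fun q : Fin n × Fin n × Fin n × Fin n =>
          Distinct4 q.1 q.2.1 q.2.2.1 q.2.2.2 ∧ CrossMatched q.1 q.2.1 q.2.2.1 q.2.2.2 G),
          (f G - f (flip4 q.1 q.2.1 q.2.2.1 q.2.2.2 G)) ^ 2
      ≤ 8 * ∑ m ∈ switchChoices n, (f G - f (switchReal G m)) ^ 2 := by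
    intro G
    rw [mul_sum, ← sum_fiberwise_of_maps_to (t := switchChoices n) (g := quadChoice G)
      (fun q hq => quadChoice_mem G (mem_filter.1 hq).2.1)]
    refine sum_le_sum fun m _ => ?_
    rw [sum_congr rfl (g := fun _ => (f G - f (switchReal G m)) ^ 2) fun q hq => by
      obtain ⟨hq1, hq2⟩ := mem_filter.1 hq
      rw [← hq2, switchReal_quadChoice G (mem_filter.1 hq1).2.1 (mem_filter.1 hq1).2.2],
      sum_const, nsmul_eq_mul]
    exact mul_le_mul_of_nonneg_right (by exact_mod_cast card_quadChoice_fibre G m) (sq_nonneg _)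
  rw [hL]
  simp only [hD, ← mul_sum, ← sum_div]
  refine (mul_le_mul_of_nonneg_left (sum_le_sum fun G _ => hG G) (by norm_num)).trans (le_of_eq ?_)
  rw [← mul_sum]
  field_simp
  ring

end Vale.Agent.P335
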