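import Mathlib
import Vale.Agent.P335.Defs
import Vale.Agent.P335.Basic

/-! Switches connect all realisations of a degree sequence. -/

namespace Vale.Agent.P335

open Finset
open scoped Classical

variable {n : ℕ} {d : Fin n → ℕ}

/-- Two realisations agree on all pairs touching the complement of `U`. -/
private def AgreeOff (U : Finset (Fin n)) (G H : Realization d) : Prop :=
  ∀ i j, i ∉ U → adjN G i j = adjN H i j

/-- Neighbours of `w` inside `U`. -/
private noncomputable def nbrIn (U : Finset (Fin n)) (G : Realization d) (w : Fin n) :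
    Finset (Fin n) :=
  U.filter (fun j => G.1.Adj w j)

private theorem mem_nbrIn {U : Finset (Fin n)} {G : Realization d} {w j : Fin n} :
    j ∈ nbrIn U G w ↔ j ∈ U ∧ G.1.Adj w j := by
  simp [nbrIn]

private theorem card_nbrIn_add (U : Finset (Fin n)) (G : Realization d) (w : Fin n) :
    (nbrIn U G w).card + ∑ j ∈ Uᶜ, adjN G w j = d w := by
  rw [← sum_adjN G w, ← Finset.sum_add_sum_compl U]
  congr 1
  simp only [nbrIn, adjN, Finset.card_filter]

private theorem card_nbrIn_eq {U : Finset (Fin n)} {G H : Realization d} (h : AgreeOff U G H)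
    (w : Fin n) : (nbrIn U G w).card = (nbrIn U H w).card := by
  have hG := card_nbrIn_add U G w
  have hH := card_nbrIn_add U H w
  have : ∑ j ∈ Uᶜ, adjN G w j = ∑ j ∈ Uᶜ, adjN H w j := by
    refine Finset.sum_congr rfl (fun j hj => ?_)
    rw [adjN_comm G, adjN_comm H]
    exact h j w (Finset.mem_compl.1 hj)
  omega

/-- By switches the neighbourhood of `v` in `U` can be moved onto any set `T` of top degrees. -/
private theorem move_nbrs (f : Realization d → ℝ)
    (h : ∀ (u v x y : Fin n) (G : Realization d), Distinct4 u v x y →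
      CrossMatched u v x y G → f (flip4 u v x y G) = f G)
    {U T : Finset (Fin n)} {v : Fin n} (hv : v ∈ U) (hT : T ⊆ U.erase v)
    (G₀ : Realization d) (hcard : T.card = (nbrIn U G₀ v).card)
    (htop : ∀ z ∈ T, ∀ w ∈ U.erase v, w ∉ T → (nbrIn U G₀ w).card ≤ (nbrIn U G₀ z).card) :
    ∀ k, ∀ G : Realization d, AgreeOff U G G₀ → (T \ nbrIn U G v).card = k →
      ∃ G', AgreeOff U G' G₀ ∧ f G' = f G ∧ nbrIn U G' v = T := by
  intro k
  induction k with
  | zero =>
    intro G hG hk
    refine ⟨G, hG, rfl, ?_⟩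
    have hsub : T ⊆ nbrIn U G v := by
      rw [Finset.card_eq_zero, Finset.sdiff_eq_empty_iff_subset] at hk
      exact hk
    exact (Finset.eq_of_subset_of_card_le hsub
      (by rw [hcard, card_nbrIn_eq hG v])).symm
  | succ k ih =>
    intro G hG hk
    obtain ⟨z, hz⟩ : (T \ nbrIn U G v).Nonempty := by
      rw [← Finset.card_pos]; omega
    rw [Finset.mem_sdiff] at hz
    obtain ⟨w, hw⟩ : (nbrIn U G v \ T).Nonempty := by
      rw [← Finset.card_pos]
      have e1 := Finset.card_sdiff_add_card_inter T (nbrIn U G v)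
      have e2 := Finset.card_sdiff_add_card_inter (nbrIn U G v) T
      have e3 := card_nbrIn_eq hG v
      rw [Finset.inter_comm] at e2
      omega
    rw [Finset.mem_sdiff, mem_nbrIn] at hw
    obtain ⟨⟨hwU, hvw⟩, hwT⟩ := hw
    have hzU' : z ∈ U ∧ z ≠ v := by
      have := hT hz.1
      rw [Finset.mem_erase] at this
      exact ⟨this.2, this.1⟩
    obtain ⟨hzU, hzv⟩ := hzU'
    have hvz : ¬ G.1.Adj v z := fun hh => hz.2 (mem_nbrIn.2 ⟨hzU, hh⟩)
    have hwv : w ≠ v := hvw.ne.symm
    have hwz : w ≠ z := fun e => hwT (e ▸ hz.1)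
    have hle : (nbrIn U G w).card ≤ (nbrIn U G z).card := by
      rw [card_nbrIn_eq hG w, card_nbrIn_eq hG z]
      exact htop z hz.1 w (Finset.mem_erase.2 ⟨hwv, hwU⟩) hwT
    obtain ⟨t, ht, htw⟩ : ∃ t ∈ nbrIn U G z \ nbrIn U G w, t ≠ w := by
      have e1 := Finset.card_sdiff_add_card_inter (nbrIn U G z) (nbrIn U G w)
      have e2 := Finset.card_sdiff_add_card_inter (nbrIn U G w) (nbrIn U G z)
      rw [Finset.inter_comm] at e2
      have hvmem : v ∈ nbrIn U G w \ nbrIn U G z :=
        Finset.mem_sdiff.2 ⟨mem_nbrIn.2 ⟨hv, hvw.symm⟩, fun hh => hvz (mem_nbrIn.1 hh).2.symm⟩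
      by_contra hne
      push Not at hne
      have hsub : nbrIn U G z \ nbrIn U G w ⊆ {w} :=
        fun t ht => Finset.mem_singleton.2 (hne t ht)
      have hle1 := Finset.card_le_card hsub
      rw [Finset.card_singleton] at hle1
      have hpos : 1 ≤ (nbrIn U G w \ nbrIn U G z).card := Finset.card_pos.2 ⟨v, hvmem⟩
      have hwmem : w ∈ nbrIn U G z \ nbrIn U G w := by
        obtain ⟨t, ht⟩ : (nbrIn U G z \ nbrIn U G w).Nonempty := by
          rw [← Finset.card_pos]; omega
        exact hne t ht ▸ ht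
      have hzw : G.1.Adj z w := (mem_nbrIn.1 (Finset.mem_sdiff.1 hwmem).1).2
      have hsub2 : ({v, z} : Finset (Fin n)) ⊆ nbrIn U G w \ nbrIn U G z := by
        intro a ha
        rw [Finset.mem_insert, Finset.mem_singleton] at ha
        rcases ha with rfl | rfl
        · exact hvmem
        · exact Finset.mem_sdiff.2
            ⟨mem_nbrIn.2 ⟨hzU, hzw.symm⟩, fun hh => G.1.irrefl (mem_nbrIn.1 hh).2⟩
      have h2 := Finset.card_le_card hsub2
      rw [Finset.card_pair hzv.symm] at h2
      omega
    rw [Finset.mem_sdiff, mem_nbrIn] at ht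
    obtain ⟨⟨htU, hzt⟩, htwn⟩ := ht
    have hwt : ¬ G.1.Adj w t := fun hh => htwn (mem_nbrIn.2 ⟨htU, hh⟩)
    have htv : t ≠ v := fun e => hvz (e ▸ hzt).symm
    have hd : Distinct4 v t w z :=
      ⟨htv.symm, hwv.symm, hzv.symm, htw, hzt.ne.symm, hwz⟩
    have hC : CrossMatched v t w z G :=
      Or.inl ⟨hvw, hzt.symm, hvz, fun hh => hwt hh.symm⟩
    have hG1 : AgreeOff U (flip4 v t w z G) G₀ := by
      intro i j hi
      rw [flip4_adjN hd G hC, if_neg, hG i j hi]
      rintro (⟨h1 | h1, _⟩ | ⟨h1 | h1, _⟩) <;> exact hi (by subst h1; assumption)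
    have hN : T \ nbrIn U (flip4 v t w z G) v = (T \ nbrIn U G v).erase z := by
      ext j
      simp only [Finset.mem_sdiff, Finset.mem_erase, mem_nbrIn]
      rw [← adjN_eq_one_iff, ← adjN_eq_one_iff G, flip4_adjN hd G hC]
      by_cases hjz : j = z
      · subst hjz
        rw [if_pos (Or.inl ⟨Or.inl rfl, Or.inr rfl⟩), (adjN_eq_zero_iff G v j).2 hvz]
        simp [hzU]
      · by_cases hjw : j = w
        · subst hjw
          simp [hwT]
        · rw [if_neg]
          · simp [hjz]
          · rintro (⟨_, h2 | h2⟩ | ⟨h1 | h1, _⟩)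
            · exact hjw h2
            · exact hjz h2
            · exact hwv h1.symm
            · exact hzv h1.symm
    obtain ⟨G', hG', hf, hn⟩ := ih _ hG1 (by
      rw [hN, Finset.card_erase_of_mem (Finset.mem_sdiff.2 hz), hk]; omega)
    exact ⟨G', hG', hf.trans (h v t w z G hd hC), hn⟩

/-- A set of given size inside `A` collecting the largest values of `e`. -/
private theorem exists_top_set (A : Finset (Fin n)) (e : Fin n → ℕ) {m : ℕ} (hm : m ≤ A.card) :
    ∃ T ⊆ A, T.card = m ∧ ∀ z ∈ T, ∀ w ∈ A, w ∉ T → e w ≤ e z := by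
  obtain ⟨T, hT, hmax⟩ := Finset.exists_max_image (A.powersetCard m) (fun T => ∑ i ∈ T, e i)
    (Finset.powersetCard_nonempty.2 hm)
  rw [Finset.mem_powersetCard] at hT
  refine ⟨T, hT.1, hT.2, fun z hz w hwA hwT => ?_⟩
  have hwT' : w ∉ T.erase z := fun hh => hwT (Finset.mem_of_mem_erase hh)
  have hle := hmax (insert w (T.erase z)) (by
    rw [Finset.mem_powersetCard]
    refine ⟨Finset.insert_subset hwA ((Finset.erase_subset _ _).trans hT.1), ?_⟩
    rw [Finset.card_insert_of_notMem hwT', Finset.card_erase_of_mem hz, hT.2]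
    have : 0 < m := hT.2 ▸ Finset.card_pos.2 ⟨z, hz⟩
    omega)
  rw [Finset.sum_insert hwT', ← Finset.add_sum_erase T e hz] at hle
  omega

private theorem connected_aux (f : Realization d → ℝ)
    (h : ∀ (u v x y : Fin n) (G : Realization d), Distinct4 u v x y →
      CrossMatched u v x y G → f (flip4 u v x y G) = f G) :
    ∀ U : Finset (Fin n), ∀ G H : Realization d, AgreeOff U G H → f G = f H := by
  intro U
  induction U using Finset.strongInduction with
  | _ U ih =>
    intro G H hGH
    rcases U.eq_empty_or_nonempty with rfl | ⟨v, hv⟩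
    · rw [realization_ext (fun i j => hGH i j (Finset.notMem_empty i))]
    · have hsub : nbrIn U G v ⊆ U.erase v := by
        intro j hj
        rw [mem_nbrIn] at hj
        exact Finset.mem_erase.2 ⟨hj.2.ne.symm, hj.1⟩
      obtain ⟨T, hT, hTc, htop⟩ :=
        exists_top_set (U.erase v) (fun w => (nbrIn U G w).card) (Finset.card_le_card hsub)
      obtain ⟨G', hG', hfG, hnG⟩ :=
        move_nbrs f h hv hT G hTc htop _ G (fun _ _ _ => rfl) rfl
      obtain ⟨H', hH', hfH, hnH⟩ :=
        move_nbrs f h hv hT G hTc htop _ H (fun i j hi => (hGH i j hi).symm) rfl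
      rw [← hfG, ← hfH]
      refine ih (U.erase v) (Finset.erase_ssubset hv) G' H' (fun i j hi => ?_)
      by_cases hiU : i ∈ U
      · have hiv : i = v := by
          by_contra hne
          exact hi (Finset.mem_erase.2 ⟨hne, hiU⟩)
        subst hiv
        by_cases hjU : j ∈ U
        · have e : G'.1.Adj i j ↔ H'.1.Adj i j := by
            have := congrArg (fun s : Finset (Fin n) => j ∈ s) (hnG.trans hnH.symm)
            simpa [mem_nbrIn, hjU] using this
          simp [adjN, e]
        · rw [adjN_comm G', adjN_comm H', hG' j i hjU, hH' j i hjU]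
      · rw [hG' i j hiU, hH' i j hiU]

theorem switch_connected (f : Realization d → ℝ)
    (h : ∀ (u v x y : Fin n) (G : Realization d), Distinct4 u v x y →
      CrossMatched u v x y G → f (flip4 u v x y G) = f G) :
    ∀ G H, f G = f H :=
  fun G H => connected_aux f h univ G H (fun i _ hi => absurd (Finset.mem_univ i) hi)

end Vale.Agent.P335
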