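import Mathlib
import Vale.Agent.P335.AvgLemmas

/-! Composition of fibre averages for keys that are independent over a common coarser key. -/

namespace Vale.Agent.P335

open Finset
open scoped Classical

variable {Ω : Type*} [Fintype Ω]

theorem dp_cls_congr {κ κ' : Type*} {key : Ω → κ} {key' : Ω → κ'}
    (h : ∀ G H, key G = key H ↔ key' G = key' H) (G : Ω) : cls key G = cls key' G :=
  Finset.ext fun H => by simp [cls, h]

theorem dp_avg_congr {κ κ' : Type*} {key : Ω → κ} {key' : Ω → κ'}
    (h : ∀ G H, key G = key H ↔ key' G = key' H) (f : Ω → ℝ) : avg key f = avg key' f := by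
  funext G
  simp only [avg, dp_cls_congr h]

/-- If within each fibre of `r` the fibres of `p` meet those of `q` in a size independent of the
`q`-fibre, then averaging over `q` and then over `p` is averaging over `r`. -/
theorem dp_avg_avg_eq {κp κq κr : Type*} (p : Ω → κp) (q : Ω → κq) (r : Ω → κr)
    (hp : ∀ G H, p G = p H → r G = r H) (hq : ∀ G H, q G = q H → r G = r H)
    (hN : ∀ G K K', r G = r K → r G = r K' →
      (cls p G ∩ cls q K).card = (cls p G ∩ cls q K').card)
    (f : Ω → ℝ) : avg p (avg q f) = avg r f := by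
  -- the fibres of `q` inside one fibre of `r` have equal size
  have hqK : ∀ K, ((cls q K).card : ℝ) =
      ∑ H ∈ cls r K, ((cls p H ∩ cls q K).card : ℝ) / ((cls p H).card : ℝ) := by
    intro K
    have e : ∀ H, ((cls p H ∩ cls q K).card : ℝ) / ((cls p H).card : ℝ) =
        ∑ L ∈ cls q K, if p L = p H then (1 : ℝ) / ((cls p L).card : ℝ) else 0 := by
      intro H
      rw [Finset.inter_comm, show cls q K ∩ cls p H = (cls q K).filter (fun L => p L = p H) from
        Finset.ext fun L => by simp [cls], ← Finset.sum_filter, Finset.card_eq_sum_ones,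
        Nat.cast_sum, Finset.sum_div]
      refine Finset.sum_congr rfl fun L hL => ?_
      simp only [Finset.mem_filter] at hL
      rw [show cls p L = cls p H from Finset.ext fun M => by simp [cls, hL.2]]
      simp
    simp only [e]
    rw [Finset.sum_comm, Finset.card_eq_sum_ones, Nat.cast_sum]
    refine Finset.sum_congr rfl fun L hL => ?_
    have hfil : (cls r K).filter (fun H => p L = p H) = cls p L := by
      ext H
      simp only [cls, Finset.mem_filter, Finset.mem_univ, true_and]
      refine ⟨fun h => h.2.symm, fun h => ⟨?_, h.symm⟩⟩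
      rw [hp H L h, hq L K (mem_cls.1 hL)]
    rw [← Finset.sum_filter, hfil, Finset.sum_const, nsmul_eq_mul,
      mul_one_div_cancel (cls_card_pos p L).ne']
    norm_num
  have hconst : ∀ K K', r K = r K' → ((cls q K).card : ℝ) = ((cls q K').card : ℝ) := by
    intro K K' h
    rw [hqK K, hqK K', show cls r K = cls r K' from Finset.ext fun M => by simp [cls, h]]
    refine Finset.sum_congr rfl fun H hH => ?_
    rw [hN H K K' ((mem_cls.1 hH).trans h.symm) (mem_cls.1 hH)]
  funext G
  -- double counting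
  have hprod : ∀ K ∈ cls r G, ((cls p G ∩ cls q K).card : ℝ) * ((cls r G).card : ℝ) =
      ((cls p G).card : ℝ) * ((cls q K).card : ℝ) := by
    intro K hK
    have hK' := mem_cls.1 hK
    have h1 : ((cls p G ∩ cls q K).card : ℝ) * ((cls r G).card : ℝ) =
        ∑ H ∈ cls r G, ∑ L ∈ cls p G, if q H = q L then (1 : ℝ) else 0 := by
      rw [mul_comm, ← nsmul_eq_mul, ← Finset.sum_const]
      refine Finset.sum_congr rfl fun H hH => ?_
      rw [hN G K H hK'.symm (mem_cls.1 hH).symm, Finset.sum_boole]
      congr 2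
      ext L
      simp [cls, eq_comm]
    rw [h1, Finset.sum_comm, ← nsmul_eq_mul, ← Finset.sum_const]
    refine Finset.sum_congr rfl fun L hL => ?_
    have hLr : r L = r G := hp L G (mem_cls.1 hL)
    rw [hconst K L (hK'.trans hLr.symm), Finset.sum_boole]
    congr 2
    ext H
    simp only [cls, Finset.mem_filter, Finset.mem_univ, true_and]
    exact ⟨fun h => h.2, fun h => ⟨(hq H L h).trans hLr, h⟩⟩
  have hinner : avg p (avg q f) G = (∑ K ∈ cls r G,
      ((cls p G ∩ cls q K).card : ℝ) * f K / ((cls q K).card : ℝ)) / ((cls p G).card : ℝ) := by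
    rw [avg]
    congr 1
    have e1 : ∀ H ∈ cls p G, avg q f H = ∑ K ∈ cls r G,
        if q K = q H then f K / ((cls q K).card : ℝ) else 0 := by
      intro H hH
      rw [avg, Finset.sum_div, ← Finset.sum_filter]
      have hfil : (cls r G).filter (fun K => q K = q H) = cls q H := by
        ext K
        simp only [cls, Finset.mem_filter, Finset.mem_univ, true_and]
        exact ⟨fun h => h.2, fun h => ⟨(hq K H h).trans (hp H G (mem_cls.1 hH)), h⟩⟩
      rw [hfil]
      refine Finset.sum_congr rfl fun K hK => ?_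
      rw [show cls q K = cls q H from Finset.ext fun M => by simp [cls, mem_cls.1 hK]]
    rw [Finset.sum_congr rfl e1, Finset.sum_comm]
    refine Finset.sum_congr rfl fun K _ => ?_
    rw [← Finset.sum_filter, Finset.sum_const, nsmul_eq_mul]
    rw [show (cls p G).filter (fun H => q K = q H) = cls p G ∩ cls q K from
      Finset.ext fun H => by simp [cls, eq_comm]]
    ring
  rw [hinner, avg, Finset.sum_div, Finset.sum_div]
  refine Finset.sum_congr rfl fun K hK => ?_
  have hq0 := (cls_card_pos q K).ne'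
  have hr0 := (cls_card_pos r G).ne'
  have hp0 := (cls_card_pos p G).ne'
  field_simp
  linear_combination (f K) * hprod K hK

/-- Averaging contracts the square norm. -/
theorem dp_ip_avg_le {κ : Type*} (key : Ω → κ) (f : Ω → ℝ) :
    ip (avg key f) (avg key f) ≤ ip f f := by
  have h1 : ip (avg key f) (avg key f) = ip f (avg key f) := by rw [ip_avg_comm, avg_avg]
  have h2 := ip_self_nonneg (dev key f)
  simp only [ip, dev, sub_mul, mul_sub, Finset.sum_sub_distrib] at h1 h2 ⊢
  have h3 : ∑ x, avg key f x * f x = ∑ x, f x * avg key f x :=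
    Finset.sum_congr rfl fun x _ => mul_comm _ _
  linarith

theorem dp_avg_sub {κ : Type*} (key : Ω → κ) (f g : Ω → ℝ) :
    avg key (f - g) = avg key f - avg key g := by
  funext x
  simp [avg, Finset.sum_sub_distrib, sub_div]

theorem dp_ip_sub_sub (f g f' g' : Ω → ℝ) :
    ip (f - g) (f' - g') = ip f f' - ip f g' - ip g f' + ip g g' := by
  simp only [ip, Pi.sub_apply, sub_mul, mul_sub, Finset.sum_sub_distrib]
  ring

theorem dp_product_avg {κz κa κc κr : Type*} (z : Ω → κz) (a : Ω → κa) (c : Ω → κc) (r : Ω → κr)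
    (hzr : ∀ G H, z G = z H → r G = r H)
    (hinj : ∀ G H, z G = z H → a G = a H → c G = c H → G = H)
    (hprod : ∀ G H, r G = r H → ∃ K, z K = z G ∧ a K = a G ∧ c K = c H) (f : Ω → ℝ) :
    avg (fun G => (z G, c G)) (avg (fun G => (z G, a G)) f) = avg z f ∧
      avg z (avg (fun G => (r G, c G)) f) = avg r f := by
  constructor
  · refine dp_avg_avg_eq _ _ _ (fun G H e => (Prod.mk.inj e).1) (fun G H e => (Prod.mk.inj e).1)
      (fun G K K' hK hK' => ?_) f
    have key : ∀ K, z G = z K →
        (cls (fun G => (z G, c G)) G ∩ cls (fun G => (z G, a G)) K).card = 1 := by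
      intro K hK
      obtain ⟨L, l1, l2, l3⟩ := hprod K G (hzr K G hK.symm)
      refine Finset.card_eq_one.2 ⟨L, Finset.ext fun M => ?_⟩
      simp only [Finset.mem_inter, mem_cls, Finset.mem_singleton, Prod.mk.injEq]
      constructor
      · rintro ⟨⟨m1, m3⟩, -, m2⟩
        exact hinj M L (m1.trans (hK.trans l1.symm)) (m2.trans l2.symm) (m3.trans l3.symm)
      · rintro rfl
        exact ⟨⟨l1.trans hK.symm, l3⟩, l1, l2⟩
    rw [key K hK, key K' hK']
  · refine dp_avg_avg_eq z _ _ hzr (fun G H e => (Prod.mk.inj e).1)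
      (fun G K K' hK hK' => ?_) f
    have key : ∀ K, r G = r K →
        (cls z G ∩ cls (fun G => (r G, c G)) K).card = ((cls z G).image a).card := by
      intro K hK
      refine Finset.card_bij (fun M _ => a M)
        (fun M hM => Finset.mem_image_of_mem _ (Finset.mem_inter.1 hM).1) ?_ ?_
      · intro M hM M' hM' hMM'
        simp only [Finset.mem_inter, mem_cls, Prod.mk.injEq] at hM hM'
        exact hinj M M' (hM.1.trans hM'.1.symm) hMM' (hM.2.2.trans hM'.2.2.symm)
      · intro b hb
        obtain ⟨M, hM, rfl⟩ := Finset.mem_image.1 hb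
        rw [mem_cls] at hM
        obtain ⟨L, l1, l2, l3⟩ := hprod M K ((hzr M G hM).trans hK)
        refine ⟨L, ?_, l2⟩
        simp only [Finset.mem_inter, mem_cls, Prod.mk.injEq]
        exact ⟨l1.trans hM, (hzr L G (l1.trans hM)).trans hK, l3⟩
    rw [key K hK, key K' hK']

theorem dp_ip_avg_self {κ : Type*} (key : Ω → κ) (f : Ω → ℝ) :
    ip f (avg key f) = ip (avg key f) (avg key f) := by
  rw [ip_avg_comm, avg_avg]

/-- A function is determined by its inner products. -/
theorem dp_ext_ip {g g' : Ω → ℝ} (h : ∀ t, ip g t = ip g' t) : g = g' := by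
  funext x
  simpa [ip] using h (fun y => if y = x then 1 else 0)

/-- Abstract reduction of two fluctuations to the common part: `za`, `zc` are independent over
`z`, `k₁` is coarser than `zc` and independent of `z` over `r₁`, symmetrically for `k₂`. -/
theorem dp_reduce {κz κa κc κ1 κ2 κr κs : Type*} (z : Ω → κz) (za : Ω → κa) (zc : Ω → κc)
    (k1 : Ω → κ1) (k2 : Ω → κ2) (r1 : Ω → κr) (r2 : Ω → κs)
    (hac : ∀ g, avg zc (avg za g) = avg z g)
    (h1 : ∀ g, avg zc (avg k1 g) = avg k1 g) (h2 : ∀ g, avg za (avg k2 g) = avg k2 g)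
    (hr1 : ∀ g, avg z (avg k1 g) = avg r1 g) (hr2 : ∀ g, avg z (avg k2 g) = avg r2 g)
    (f : Ω → ℝ) :
    ip (avg z f - avg r1 f) (avg z f - avg r2 f) ≤ ip (dev k1 f) (dev k2 f) := by
  set h := avg z f with hh
  set f1 := avg zc f with hf1
  set f2 := avg za f with hf2
  have e1 : dev k1 f = f - avg k1 f := rfl
  have e2 : dev k2 f = f - avg k2 f := rfl
  have hk : ip (avg k1 f) (avg k2 f) = ip (avg r1 f) (avg r2 f) := by
    calc ip (avg k1 f) (avg k2 f) = ip (avg zc (avg k1 f)) (avg za (avg k2 f)) := by rw [h1, h2]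
      _ = ip (avg k1 f) (avg zc (avg za (avg k2 f))) := ip_avg_comm _ _ _
      _ = ip (avg k1 f) (avg z (avg k2 f)) := by rw [hac]
      _ = ip (avg k1 f) (avg z (avg z (avg k2 f))) := by rw [avg_avg]
      _ = ip (avg z (avg k1 f)) (avg z (avg k2 f)) := (ip_avg_comm _ _ _).symm
      _ = ip (avg r1 f) (avg r2 f) := by rw [hr1, hr2]
  have h12 : ip f1 f2 = ip h h := by
    rw [hf1, ip_avg_comm, hf2, hac, ← hh, dp_ip_avg_self]
  -- the two coarse projections of `h`
  have hh1 : ip f (avg r1 f) = ip h (avg r1 f) := by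
    rw [hh, ip_avg_comm, ← hr1, avg_avg]
  have hh2 : ip f (avg r2 f) = ip h (avg r2 f) := by
    rw [hh, ip_avg_comm, ← hr2, avg_avg]
  -- contraction of `f1 - h` by `k1`, of `f2 - h` by `k2`
  have hzc : avg zc h = h := by
    rw [hh, ← hac f, avg_avg]
  have hza : avg za h = h := by
    have hca : ∀ g, avg za (avg zc g) = avg z g := by
      intro g
      funext x
      have e : ∀ g', ip (avg za (avg zc g)) g' = ip (avg z g) g' := fun g' => by
        rw [ip_avg_comm za, ip_avg_comm zc, hac, ← ip_avg_comm]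
      have := e (fun y => if y = x then 1 else 0)
      simpa [ip] using this
    rw [hh, ← hca f, avg_avg]
  have hc1 : ip (avg k1 f) (avg k1 f) - ip (avg r1 f) (avg r1 f) ≤ ip f1 f1 - ip h h := by
    have hle := dp_ip_avg_le k1 (f1 - h)
    have a1 : avg k1 f1 = avg k1 f := by
      funext x
      have e : ∀ g', ip (avg k1 f1) g' = ip (avg k1 f) g' := fun g' => by
        rw [ip_avg_comm, hf1, ip_avg_comm, h1, ← ip_avg_comm]
      simpa [ip] using e (fun y => if y = x then 1 else 0)
    have a2 : avg k1 h = avg r1 f := by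
      funext x
      have e : ∀ g', ip (avg k1 h) g' = ip (avg r1 f) g' := fun g' => by
        rw [ip_avg_comm, hh, ip_avg_comm, hr1, ← ip_avg_comm]
      simpa [ip] using e (fun y => if y = x then 1 else 0)
    rw [dp_avg_sub, a1, a2, dp_ip_sub_sub, dp_ip_sub_sub] at hle
    have b1 : ip f1 h = ip h h := by
      rw [hf1, ip_avg_comm, hzc, hh, dp_ip_avg_self]
    have b2 : ip (avg k1 f) (avg r1 f) = ip (avg r1 f) (avg r1 f) := by
      rw [← hr1, dp_ip_avg_self z (avg k1 f)]
    rw [ip_comm h f1, b1, ip_comm (avg r1 f) (avg k1 f), b2] at hle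
    linarith
  have hc2 : ip (avg k2 f) (avg k2 f) - ip (avg r2 f) (avg r2 f) ≤ ip f2 f2 - ip h h := by
    have hle := dp_ip_avg_le k2 (f2 - h)
    have a1 : avg k2 f2 = avg k2 f := by
      funext x
      have e : ∀ g', ip (avg k2 f2) g' = ip (avg k2 f) g' := fun g' => by
        rw [ip_avg_comm, hf2, ip_avg_comm, h2, ← ip_avg_comm]
      simpa [ip] using e (fun y => if y = x then 1 else 0)
    have a2 : avg k2 h = avg r2 f := by
      funext x
      have e : ∀ g', ip (avg k2 h) g' = ip (avg r2 f) g' := fun g' => by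
        rw [ip_avg_comm, hh, ip_avg_comm, hr2, ← ip_avg_comm]
      simpa [ip] using e (fun y => if y = x then 1 else 0)
    rw [dp_avg_sub, a1, a2, dp_ip_sub_sub, dp_ip_sub_sub] at hle
    have b1 : ip f2 h = ip h h := by
      rw [hf2, ip_avg_comm, hza, hh, dp_ip_avg_self]
    have b2 : ip (avg k2 f) (avg r2 f) = ip (avg r2 f) (avg r2 f) := by
      rw [← hr2, dp_ip_avg_self z (avg k2 f)]
    rw [ip_comm h f2, b1, ip_comm (avg r2 f) (avg k2 f), b2] at hle
    linarith
  -- Bessel
  have hbes : ip f1 f1 + ip f2 f2 ≤ ip f f + ip h h := by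
    have hnn := ip_self_nonneg (f - f1 - (f2 - h))
    rw [dp_ip_sub_sub, dp_ip_sub_sub, dp_ip_sub_sub, dp_ip_sub_sub, dp_ip_sub_sub] at hnn
    have c1 : ip f f1 = ip f1 f1 := (dp_ip_avg_self zc f)
    have c2 : ip f f2 = ip f2 f2 := (dp_ip_avg_self za f)
    have c3 : ip f h = ip h h := (dp_ip_avg_self z f)
    have c4 : ip f1 h = ip h h := by rw [hf1, ip_avg_comm, hzc, hh, dp_ip_avg_self]
    have c5 : ip f2 h = ip h h := by rw [hf2, ip_avg_comm, hza, hh, dp_ip_avg_self]
    rw [ip_comm f1 f, ip_comm f2 f, ip_comm h f, ip_comm f2 f1, ip_comm h f1, ip_comm h f2,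
      c1, c2, c3, c4, c5, h12] at hnn
    linarith
  rw [e1, e2, dp_ip_sub_sub, dp_ip_sub_sub, ip_comm (avg k1 f) f, ip_comm (avg r1 f) h, ← hh1,
    ← hh2, hk, (dp_ip_avg_self k1 f), (dp_ip_avg_self k2 f), (dp_ip_avg_self r1 f), (dp_ip_avg_self r2 f)]
  linarith

end Vale.Agent.P335
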