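import Mathlib
import Vale.Agent.P335.Defs
import Vale.Agent.P335.Basic
import Vale.Agent.P335.DisjointPairAux

/-! The product structure of the fibres of two disjoint vertex pairs. -/

namespace Vale.Agent.P335

open Finset
open scoped Classical

variable {n : ℕ} {d : Fin n → ℕ}

/-- Number of edges between `{u, v}` and `{x, y}`. -/
noncomputable def dpTot (u v x y : Fin n) (G : Realization d) : ℕ :=
  adjN G u x + adjN G u y + adjN G v x + adjN G v y

/-- Is `i` outside the four vertices? -/
def DpOut (u v x y i : Fin n) : Prop := i ≠ u ∧ i ≠ v ∧ i ≠ x ∧ i ≠ y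

/-- What the two pair keys have in common. -/
noncomputable def dpBase (u v x y : Fin n) (G : Realization d) :
    (Fin n → Fin n → ℕ) × ℕ × ℕ × (Fin n → ℕ) × (Fin n → ℕ) × ℕ :=
  (fun i j => if DpOut u v x y i ∧ DpOut u v x y j then adjN G i j else 0,
    adjN G u v, adjN G x y,
    fun w => if DpOut u v x y w then adjN G u w + adjN G v w else 0,
    fun w => if DpOut u v x y w then adjN G x w + adjN G y w else 0,
    dpTot u v x y G)

/-- The common part, with the block when it has two edges. -/
noncomputable def dpZ (u v x y : Fin n) (G : Realization d) :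
    ((Fin n → Fin n → ℕ) × ℕ × ℕ × (Fin n → ℕ) × (Fin n → ℕ) × ℕ) × Option (ℕ × ℕ × ℕ × ℕ) :=
  (dpBase u v x y G, if dpTot u v x y G = 2
    then some (adjN G u x, adjN G u y, adjN G v x, adjN G v y) else none)

/-- The common part, with the degree of `x` in the block when the block has two edges. -/
noncomputable def dpR (u v x y : Fin n) (G : Realization d) :
    ((Fin n → Fin n → ℕ) × ℕ × ℕ × (Fin n → ℕ) × (Fin n → ℕ) × ℕ) × Option ℕ :=
  (dpBase u v x y G, if dpTot u v x y G = 2 then some (adjN G u x + adjN G v x) else none)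

/-- The outside row of `u` and its degree in the block. -/
noncomputable def dpSide (u v x y : Fin n) (G : Realization d) : (Fin n → ℕ) × ℕ :=
  (fun w => if DpOut u v x y w then adjN G u w else 0, adjN G u x + adjN G u y)

theorem dpBase_eq_iff {u v x y : Fin n} {G H : Realization d} :
    dpBase u v x y G = dpBase u v x y H ↔
      (∀ i j, DpOut u v x y i → DpOut u v x y j → adjN G i j = adjN H i j) ∧
      adjN G u v = adjN H u v ∧ adjN G x y = adjN H x y ∧
      (∀ w, DpOut u v x y w → adjN G u w + adjN G v w = adjN H u w + adjN H v w ∧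
        adjN G x w + adjN G y w = adjN H x w + adjN H y w) ∧
      dpTot u v x y G = dpTot u v x y H := by
  simp only [dpBase, Prod.mk.injEq, funext_iff]
  constructor
  · rintro ⟨h1, h2, h3, h4, h5, h6⟩
    exact ⟨fun i j hi hj => by simpa [hi, hj] using h1 i j, h2, h3,
      fun w hw => ⟨by simpa [hw] using h4 w, by simpa [hw] using h5 w⟩, h6⟩
  · rintro ⟨h1, h2, h3, h4, h6⟩
    refine ⟨fun i j => ?_, h2, h3, fun w => ?_, fun w => ?_, h6⟩
    · split_ifs with hh
      · exact h1 i j hh.1 hh.2
      · rfl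
    · split_ifs with hh
      · exact (h4 w hh).1
      · rfl
    · split_ifs with hh
      · exact (h4 w hh).2
      · rfl

theorem dpSide_eq_iff {u v x y : Fin n} {G H : Realization d} :
    dpSide u v x y G = dpSide u v x y H ↔
      (∀ w, DpOut u v x y w → adjN G u w = adjN H u w) ∧
      adjN G u x + adjN G u y = adjN H u x + adjN H u y := by
  simp only [dpSide, Prod.mk.injEq, funext_iff]
  refine and_congr ⟨fun h w hw => by simpa [hw] using h w, fun h w => ?_⟩ Iff.rfl
  split_ifs with hh
  · exact h w hh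
  · rfl

theorem dpOut_swap {u v x y i : Fin n} : DpOut x y u v i ↔ DpOut u v x y i := by
  unfold DpOut; tauto

theorem dpTot_swap (u v x y : Fin n) (G : Realization d) :
    dpTot x y u v G = dpTot u v x y G := by
  simp only [dpTot, adjN_comm G x, adjN_comm G y]
  omega

theorem dpBase_swap_iff {u v x y : Fin n} {G H : Realization d} :
    dpBase x y u v G = dpBase x y u v H ↔ dpBase u v x y G = dpBase u v x y H := by
  simp only [dpBase_eq_iff, dpOut_swap, dpTot_swap]
  constructor <;>
    exact fun ⟨h1, h2, h3, h4, h5⟩ => ⟨h1, h3, h2, fun w hw => (h4 w hw).symm, h5⟩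

theorem dpZ_eq_iff {u v x y : Fin n} {G H : Realization d} :
    dpZ u v x y G = dpZ u v x y H ↔ dpBase u v x y G = dpBase u v x y H ∧
      (dpTot u v x y G = 2 → adjN G u x = adjN H u x ∧ adjN G u y = adjN H u y ∧
        adjN G v x = adjN H v x ∧ adjN G v y = adjN H v y) := by
  simp only [dpZ, Prod.mk.injEq]
  refine and_congr_right fun hb => ?_
  rw [← (dpBase_eq_iff.1 hb).2.2.2.2]
  by_cases hT : dpTot u v x y G = 2 <;> simp [hT]

theorem dpR_eq_iff {u v x y : Fin n} {G H : Realization d} :
    dpR u v x y G = dpR u v x y H ↔ dpBase u v x y G = dpBase u v x y H ∧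
      (dpTot u v x y G = 2 →
        adjN G u x + adjN G v x = adjN H u x + adjN H v x) := by
  simp only [dpR, Prod.mk.injEq]
  refine and_congr_right fun hb => ?_
  rw [← (dpBase_eq_iff.1 hb).2.2.2.2]
  by_cases hT : dpTot u v x y G = 2 <;> simp [hT]

theorem dpR_of_dpZ {u v x y : Fin n} {G H : Realization d}
    (h : dpZ u v x y G = dpZ u v x y H) : dpR u v x y G = dpR u v x y H := by
  rw [dpZ_eq_iff] at h
  exact dpR_eq_iff.2 ⟨h.1, fun hT => by rw [(h.2 hT).1, (h.2 hT).2.2.1]⟩

theorem dpZ_swap_iff {u v x y : Fin n} {G H : Realization d} :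
    dpZ x y u v G = dpZ x y u v H ↔ dpZ u v x y G = dpZ u v x y H := by
  simp only [dpZ_eq_iff, dpBase_swap_iff, dpTot_swap, adjN_comm _ x, adjN_comm _ y]
  constructor <;>
    exact fun ⟨h1, h2⟩ => ⟨h1, fun hT => ⟨(h2 hT).1, (h2 hT).2.2.1, (h2 hT).2.1, (h2 hT).2.2.2⟩⟩

/-- Any four margins admit a 0-1 block, unless they sum to two. -/
theorem dp_exists_block (r r' c c' : ℕ) (hr : r ≤ 2) (hr' : r' ≤ 2) (hc : c ≤ 2) (hc' : c' ≤ 2)
    (h : r + r' = c + c') (h2 : r + r' ≠ 2) :
    ∃ p q s t : Bool, p.toNat + q.toNat = r ∧ s.toNat + t.toNat = r' ∧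
      p.toNat + s.toNat = c ∧ q.toNat + t.toNat = c' := by
  interval_cases r <;> interval_cases r' <;> interval_cases c <;> interval_cases c' <;>
    first | omega | decide

/-- Off two edges, the block is determined by its margins. -/
theorem dp_block_unique {p q s t p' q' s' t' : ℕ} (hp : p ≤ 1) (hq : q ≤ 1) (hs : s ≤ 1)
    (ht : t ≤ 1) (hp' : p' ≤ 1) (hq' : q' ≤ 1) (hs' : s' ≤ 1) (ht' : t' ≤ 1)
    (hr : p + q = p' + q') (hc : p + s = p' + s') (hT : p + q + s + t = p' + q' + s' + t')
    (h2 : p + q + s + t ≠ 2) : p = p' ∧ q = q' ∧ s = s' ∧ t = t' := by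
  omega

theorem dp_eq_of_keys {u v x y : Fin n} (h : Distinct4 u v x y) {G H : Realization d}
    (hz : dpZ u v x y G = dpZ u v x y H) (ha : dpSide u v x y G = dpSide u v x y H)
    (hc : dpSide x y u v G = dpSide x y u v H) : G = H := by
  rw [dpZ_eq_iff, dpBase_eq_iff] at hz
  rw [dpSide_eq_iff] at ha hc
  obtain ⟨⟨hout, huv, hxy, hs, hT⟩, hblk⟩ := hz
  obtain ⟨ha1, ha2⟩ := ha
  obtain ⟨hc1, hc2⟩ := hc
  simp only [dpOut_swap] at hc1
  rw [adjN_comm G x u, adjN_comm G x v, adjN_comm H x u, adjN_comm H x v] at hc2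
  have hb : adjN G u x = adjN H u x ∧ adjN G u y = adjN H u y ∧
      adjN G v x = adjN H v x ∧ adjN G v y = adjN H v y := by
    by_cases h2 : dpTot u v x y G = 2
    · exact hblk h2
    · exact dp_block_unique (adjN_le_one ..) (adjN_le_one ..) (adjN_le_one ..) (adjN_le_one ..)
        (adjN_le_one ..) (adjN_le_one ..) (adjN_le_one ..) (adjN_le_one ..) ha2 hc2 hT h2
  obtain ⟨hux, huy, hvx, hvy⟩ := hb
  have hrow : ∀ w, DpOut u v x y w → adjN G u w = adjN H u w ∧ adjN G v w = adjN H v w ∧
      adjN G x w = adjN H x w ∧ adjN G y w = adjN H y w := fun w hw => by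
    have := hs w hw
    have := ha1 w hw
    have := hc1 w hw
    omega
  refine realization_ext fun i j => ?_
  obtain ⟨n1, n2, n3, n4, n5, n6⟩ := h
  by_cases hi : DpOut u v x y i
  · by_cases hj : DpOut u v x y j
    · exact hout i j hi hj
    · rw [adjN_comm G i j, adjN_comm H i j]
      have := hrow i hi
      simp only [DpOut, not_and_or, not_not] at hj
      rcases hj with rfl | rfl | rfl | rfl
      exacts [this.1, this.2.1, this.2.2.1, this.2.2.2]
  · simp only [DpOut, not_and_or, not_not] at hi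
    by_cases hj : DpOut u v x y j
    · have := hrow j hj
      rcases hi with rfl | rfl | rfl | rfl
      exacts [this.1, this.2.1, this.2.2.1, this.2.2.2]
    · simp only [DpOut, not_and_or, not_not] at hj
      have e : ∀ a b, adjN G a b = adjN H a b → adjN G b a = adjN H b a := fun a b hab => by
        rw [adjN_comm G b a, adjN_comm H b a, hab]
      rcases hi with rfl | rfl | rfl | rfl <;> rcases hj with rfl | rfl | rfl | rfl <;>
        first
        | exact (adjN_self G _).trans (adjN_self H _).symm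
        | assumption
        | exact e _ _ (by assumption)

/-- Gluing the stars of `u, v` from `G`, those of `x, y` from `H`, and a given block. -/
theorem dp_glue {u v x y : Fin n} (h : Distinct4 u v x y) (G H : Realization d)
    (hb : dpBase u v x y G = dpBase u v x y H) (p q s t : Bool)
    (hu : p.toNat + q.toNat = adjN G u x + adjN G u y)
    (hv : s.toNat + t.toNat = adjN G v x + adjN G v y)
    (hx : p.toNat + s.toNat = adjN H u x + adjN H v x)
    (hy : q.toNat + t.toNat = adjN H u y + adjN H v y) :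
    ∃ K : Realization d, dpBase u v x y K = dpBase u v x y G ∧
      adjN K u x = p.toNat ∧ adjN K u y = q.toNat ∧ adjN K v x = s.toNat ∧
      adjN K v y = t.toNat ∧ dpSide u v x y K = dpSide u v x y G ∧
      dpSide x y u v K = dpSide x y u v H := by
  rw [dpBase_eq_iff] at hb
  obtain ⟨hout, huv, hxy, hs, hT⟩ := hb
  obtain ⟨n1, n2, n3, n4, n5, n6⟩ := h
  set bb : Fin n → Fin n → Bool := fun i j =>
    if i = u then (if j = x then p else q) else (if j = x then s else t) with hbb
  set R : Fin n → Fin n → Prop := fun i j =>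
    if (i = u ∨ i = v) ∧ (j = x ∨ j = y) then bb i j = true
    else if (i = x ∨ i = y) ∧ (j = u ∨ j = v) then bb j i = true
    else if i = u ∨ i = v ∨ j = u ∨ j = v then G.1.Adj i j else H.1.Adj i j with hR
  have hsymm : ∀ i j, R i j → R j i := by
    intro i j
    simp only [hR, G.1.adj_comm i j, H.1.adj_comm i j]
    split_ifs <;> first | exact id | (exfalso; grind)
  let K0 : SimpleGraph (Fin n) :=
    { Adj := fun i j => i ≠ j ∧ R i j
      symm := ⟨fun i j hij => ⟨hij.1.symm, hsymm i j hij.2⟩⟩
      loopless := ⟨fun i hi => hi.1 rfl⟩ }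
  set A : Fin n → Fin n → ℕ := fun i j => if K0.Adj i j then 1 else 0 with hA
  have hAB : ∀ i j, (i = u ∨ i = v) → (j = x ∨ j = y) → A i j = (bb i j).toNat := by
    intro i j hi hj
    have hne : i ≠ j := by grind
    simp only [hA, K0, hne, ne_eq, not_false_eq_true, true_and, hR, hi, hj, and_self, if_true]
    cases bb i j <;> simp
  have hBA : ∀ i j, (i = x ∨ i = y) → (j = u ∨ j = v) → A i j = (bb j i).toNat := by
    intro i j hi hj
    rw [← hAB j i hj hi]
    simp only [hA, K0.adj_comm i j]
  have hG : ∀ i j, ¬((i = u ∨ i = v) ∧ (j = x ∨ j = y)) → ¬((i = x ∨ i = y) ∧ (j = u ∨ j = v)) →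
      (i = u ∨ i = v ∨ j = u ∨ j = v) → A i j = adjN G i j := by
    intro i j h1 h2 h3
    simp only [hA, adjN, K0, hR, if_neg h1, if_neg h2, if_pos h3]
    by_cases hh : G.1.Adj i j
    · simp [hh, hh.ne]
    · simp [hh]
  have hH : ∀ i j, ¬(i = u ∨ i = v ∨ j = u ∨ j = v) → A i j = adjN H i j := by
    intro i j h3
    have h1 : ¬((i = u ∨ i = v) ∧ (j = x ∨ j = y)) := by tauto
    have h2 : ¬((i = x ∨ i = y) ∧ (j = u ∨ j = v)) := by tauto
    simp only [hA, adjN, K0, hR, if_neg h1, if_neg h2, if_neg h3]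
    by_cases hh : H.1.Adj i j
    · simp [hh, hh.ne]
    · simp [hh]
  have hsum : ∀ (F F' : Fin n → ℕ) (a b : Fin n), a ≠ b → F a + F b = F' a + F' b →
      (∀ j, j ≠ a → j ≠ b → F j = F' j) → ∑ j, F j = ∑ j, F' j := by
    intro F F' a b hab h1 h2
    rw [← Finset.sum_add_sum_compl ({a, b} : Finset (Fin n)) F,
      ← Finset.sum_add_sum_compl ({a, b} : Finset (Fin n)) F', Finset.sum_pair hab,
      Finset.sum_pair hab, h1]
    congr 1
    refine Finset.sum_congr rfl fun j hj => ?_
    simp only [Finset.mem_compl, Finset.mem_insert, Finset.mem_singleton, not_or] at hj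
    exact h2 j hj.1 hj.2
  have bu : bb u x = p ∧ bb u y = q ∧ bb v x = s ∧ bb v y = t := by
    simp [hbb, n1.symm, n6.symm]
  have hdeg : ∀ i, (K0.neighborSet i).ncard = d i := by
    intro i
    have e : (K0.neighborSet i).ncard = ∑ j, A i j := by
      simp only [hA]
      rw [Finset.sum_boole, Set.ncard_eq_toFinset_card', Nat.cast_id]
      congr 1
      ext j
      simp
    rw [e]
    by_cases hiA : i = u ∨ i = v
    · rw [← sum_adjN G i]
      refine hsum _ _ x y n6 ?_ fun j hj hj' => hG i j (by tauto) (by grind) (by tauto)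
      rw [hAB i x hiA (Or.inl rfl), hAB i y hiA (Or.inr rfl)]
      rcases hiA with rfl | rfl
      · rw [bu.1, bu.2.1, hu]
      · rw [bu.2.2.1, bu.2.2.2, hv]
    by_cases hiB : i = x ∨ i = y
    · rw [← sum_adjN H i]
      refine hsum _ _ u v n1 ?_ fun j hj hj' => hH i j (by grind)
      rw [hBA i u hiB (Or.inl rfl), hBA i v hiB (Or.inr rfl)]
      rcases hiB with rfl | rfl
      · rw [bu.1, bu.2.2.1, hx, adjN_comm H i u, adjN_comm H i v]
      · rw [bu.2.1, bu.2.2.2, hy, adjN_comm H i u, adjN_comm H i v]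
    · rw [← sum_adjN H i]
      have hi : DpOut u v x y i := by unfold DpOut; tauto
      refine hsum _ _ u v n1 ?_ fun j hj hj' => hH i j (by tauto)
      rw [hG i u (by tauto) (by tauto) (by tauto), hG i v (by tauto) (by tauto) (by tauto),
        adjN_comm G i u, adjN_comm G i v, adjN_comm H i u, adjN_comm H i v]
      exact (hs i hi).1
  have hK : ∀ i j, adjN (⟨K0, hdeg⟩ : Realization d) i j = A i j := fun i j => by
    simp only [adjN, hA]
    by_cases hij : K0.Adj i j <;> simp [hij]
  refine ⟨⟨K0, hdeg⟩, ?_, ?_, ?_, ?_, ?_, ?_, ?_⟩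
  · rw [dpBase_eq_iff]
    simp only [hK, dpTot]
    refine ⟨fun i j hi hj => ?_, ?_, ?_, fun w hw => ⟨?_, ?_⟩, ?_⟩
    · rw [hH i j (by unfold DpOut at hi hj; tauto), ← hout i j hi hj]
    · exact hG u v (by grind) (by grind) (by tauto)
    · rw [hH x y (by grind), ← hxy]
    · unfold DpOut at hw
      rw [hG u w (by tauto) (by grind) (by tauto), hG v w (by tauto) (by grind) (by tauto)]
    · rw [hH x w (by unfold DpOut at hw; grind), hH y w (by unfold DpOut at hw; grind),
        ← (hs w hw).2]
    · rw [hAB u x (by tauto) (by tauto), hAB u y (by tauto) (by tauto), hAB v x (by tauto) (by tauto),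
        hAB v y (by tauto) (by tauto), bu.1, bu.2.1, bu.2.2.1, bu.2.2.2]
      omega
  · rw [hK, hAB u x (by tauto) (by tauto), bu.1]
  · rw [hK, hAB u y (by tauto) (by tauto), bu.2.1]
  · rw [hK, hAB v x (by tauto) (by tauto), bu.2.2.1]
  · rw [hK, hAB v y (by tauto) (by tauto), bu.2.2.2]
  · rw [dpSide_eq_iff]
    simp only [hK]
    refine ⟨fun w hw => ?_, ?_⟩
    · unfold DpOut at hw
      exact hG u w (by tauto) (by grind) (by tauto)
    · rw [hAB u x (by tauto) (by tauto), hAB u y (by tauto) (by tauto), bu.1, bu.2.1, hu]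
  · rw [dpSide_eq_iff]
    simp only [hK]
    refine ⟨fun w hw => ?_, ?_⟩
    · rw [dpOut_swap] at hw
      unfold DpOut at hw
      exact hH x w (by grind)
    · rw [hBA x u (by tauto) (by tauto), hBA x v (by tauto) (by tauto), bu.1, bu.2.2.1, hx,
        adjN_comm H x u, adjN_comm H x v]

theorem dp_bool_adjN (G : Realization d) (i j : Fin n) : ∃ b : Bool, b.toNat = adjN G i j :=
  ⟨decide (G.1.Adj i j), by by_cases h : G.1.Adj i j <;> simp [adjN, h]⟩

/-- Equal common parts: the stars can be combined. -/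
theorem dp_prod {u v x y : Fin n} (h : Distinct4 u v x y) (G H : Realization d)
    (hr : dpR u v x y G = dpR u v x y H) :
    ∃ K : Realization d, dpZ u v x y K = dpZ u v x y G ∧
      dpSide u v x y K = dpSide u v x y G ∧ dpSide x y u v K = dpSide x y u v H := by
  rw [dpR_eq_iff] at hr
  obtain ⟨hb, hcx⟩ := hr
  have hT := (dpBase_eq_iff.1 hb).2.2.2.2
  have hle := fun (K : Realization d) i j => adjN_le_one K i j
  have blocks : ∃ p q s t : Bool, p.toNat + q.toNat = adjN G u x + adjN G u y ∧
      s.toNat + t.toNat = adjN G v x + adjN G v y ∧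
      p.toNat + s.toNat = adjN H u x + adjN H v x ∧
      q.toNat + t.toNat = adjN H u y + adjN H v y ∧
      (dpTot u v x y G = 2 → p.toNat = adjN G u x ∧ q.toNat = adjN G u y ∧
        s.toNat = adjN G v x ∧ t.toNat = adjN G v y) := by
    by_cases h2 : dpTot u v x y G = 2
    · obtain ⟨p, hp⟩ := dp_bool_adjN G u x
      obtain ⟨q, hq⟩ := dp_bool_adjN G u y
      obtain ⟨s, hs⟩ := dp_bool_adjN G v x
      obtain ⟨t, ht⟩ := dp_bool_adjN G v y
      have := hcx h2
      simp only [dpTot] at hT h2
      exact ⟨p, q, s, t, by omega, by omega, by omega, by omega, fun _ => ⟨hp, hq, hs, ht⟩⟩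
    · have hT' := hT
      have h2' := h2
      simp only [dpTot] at hT' h2'
      have := hle G u x; have := hle G u y; have := hle G v x; have := hle G v y
      have := hle H u x; have := hle H u y; have := hle H v x; have := hle H v y
      obtain ⟨p, q, s, t, e1, e2, e3, e4⟩ := dp_exists_block (adjN G u x + adjN G u y)
        (adjN G v x + adjN G v y) (adjN H u x + adjN H v x) (adjN H u y + adjN H v y)
        (by omega) (by omega) (by omega) (by omega) (by omega) (by omega)
      exact ⟨p, q, s, t, e1, e2, e3, e4, fun hh => absurd hh h2⟩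
  obtain ⟨p, q, s, t, e1, e2, e3, e4, e5⟩ := blocks
  obtain ⟨K, k1, k2, k3, k4, k5, k6, k7⟩ := dp_glue h G H hb p q s t e1 e2 e3 e4
  refine ⟨K, dpZ_eq_iff.2 ⟨k1, fun hK => ?_⟩, k6, k7⟩
  rw [k2, k3, k4, k5]
  exact e5 ((dpBase_eq_iff.1 k1).2.2.2.2 ▸ hK)

/-- The key of the pair `(u, v)` is the common part and the star of `x`. -/
theorem dp_pairKey_iff {u v x y : Fin n} (h : Distinct4 u v x y) (G H : Realization d) :
    pairKey u v G = pairKey u v H ↔
      dpR u v x y G = dpR u v x y H ∧ dpSide x y u v G = dpSide x y u v H := by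
  obtain ⟨n1, n2, n3, n4, n5, n6⟩ := h
  rw [pairKey_eq_iff n1, dpR_eq_iff, dpBase_eq_iff, dpSide_eq_iff]
  simp only [dpOut_swap, dpTot, adjN_comm G x u, adjN_comm G x v, adjN_comm H x u,
    adjN_comm H x v]
  constructor
  · rintro ⟨h1, h2, h3⟩
    have hx := h3 x n2.symm n4.symm
    have hy := h3 y n3.symm n5.symm
    refine ⟨⟨⟨fun i j hi hj => h1 i j hi.1 hi.2.1 hj.1 hj.2.1, h2,
      h1 x y n2.symm n4.symm n3.symm n5.symm,
      fun w hw => ⟨h3 w hw.1 hw.2.1, ?_⟩, by omega⟩, fun _ => hx⟩,
      fun w hw => h1 x w n2.symm n4.symm hw.1 hw.2.1, hx⟩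
    rw [h1 x w n2.symm n4.symm hw.1 hw.2.1, h1 y w n3.symm n5.symm hw.1 hw.2.1]
  · rintro ⟨⟨⟨hout, huv, hxy, hs, hT⟩, -⟩, hrow, hx⟩
    have hrowy : ∀ w, DpOut u v x y w → adjN G y w = adjN H y w := fun w hw => by
      have := (hs w hw).2
      have := hrow w hw
      omega
    refine ⟨fun i j hi hi' hj hj' => ?_, huv, fun w hw hw' => ?_⟩
    · have e : ∀ a b, adjN G a b = adjN H a b → adjN G b a = adjN H b a := fun a b hab => by
        rw [adjN_comm G b a, adjN_comm H b a, hab]
      by_cases hi2 : i = x ∨ i = y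
      · by_cases hj2 : j = x ∨ j = y
        · rcases hi2 with rfl | rfl <;> rcases hj2 with rfl | rfl <;>
            first
            | exact (adjN_self G _).trans (adjN_self H _).symm
            | assumption
            | exact e _ _ (by assumption)
        · have hjo : DpOut u v x y j := by unfold DpOut; tauto
          rcases hi2 with rfl | rfl
          exacts [hrow j hjo, hrowy j hjo]
      · have hio : DpOut u v x y i := by unfold DpOut; tauto
        by_cases hj2 : j = x ∨ j = y
        · rcases hj2 with rfl | rfl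
          exacts [e _ _ (hrow i hio), e _ _ (hrowy i hio)]
        · exact hout i j hio (by unfold DpOut; tauto)
    · by_cases hw2 : w = x ∨ w = y
      · rcases hw2 with rfl | rfl
        · exact hx
        · omega
      · exact (hs w (by unfold DpOut; tauto)).1

end Vale.Agent.P335
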