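import Mathlib
import Vale.Agent.P335.Defs
import Vale.Agent.P335.Basic
import Vale.Agent.P335.AvgLemmas
import Vale.Agent.P335.DisjointPairAux
import Vale.Agent.P335.DisjointPairKeys

/-! The contribution of two disjoint vertex pairs. -/

namespace Vale.Agent.P335

open Finset
open scoped Classical

variable {n : ℕ} {d : Fin n → ℕ}

theorem dp_cm_iff {u v x y : Fin n} (G : Realization d) :
    CrossMatched u v x y G ↔ dpTot u v x y G = 2 ∧ adjN G u x + adjN G v x = 1 ∧
      adjN G u x + adjN G u y = 1 := by
  simp only [CrossMatched, dpTot, adjN]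
  by_cases h1 : G.1.Adj u x <;> by_cases h2 : G.1.Adj u y <;> by_cases h3 : G.1.Adj v x <;>
    by_cases h4 : G.1.Adj v y <;> simp [h1, h2, h3, h4]

theorem dp_cm_of_dpZ {u v x y : Fin n} {G H : Realization d}
    (hz : dpZ u v x y G = dpZ u v x y H) :
    CrossMatched u v x y G ↔ CrossMatched u v x y H := by
  obtain ⟨hb, hblk⟩ := dpZ_eq_iff.1 hz
  have hT := (dpBase_eq_iff.1 hb).2.2.2.2
  rw [dp_cm_iff, dp_cm_iff, ← hT]
  constructor <;> rintro ⟨h1, h2, h3⟩ <;> obtain ⟨e1, e2, e3, -⟩ := hblk h1 <;>
    exact ⟨h1, by omega, by omega⟩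

/-- The two halves of a fibre of the common part are independent. -/
theorem dp_avg_sides {u v x y : Fin n} (h : Distinct4 u v x y) (g : Realization d → ℝ) :
    avg (fun G => (dpZ u v x y G, dpSide x y u v G))
      (avg (fun G => (dpZ u v x y G, dpSide u v x y G)) g) = avg (dpZ u v x y) g := by
  exact (dp_product_avg (dpZ u v x y) (dpSide u v x y) (dpSide x y u v) (dpR u v x y)
    (fun _ _ e => dpR_of_dpZ e) (fun _ _ e1 e2 e3 => dp_eq_of_keys h e1 e2 e3)
    (dp_prod h) g).1

/-- Averaging over the fibres of the pair key, possibly refined by a function of the common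
part, and then over the common part. -/
theorem dp_avg_half {u v x y : Fin n} (h : Distinct4 u v x y) {κ : Type*}
    (e : Realization d → κ) (he : ∀ G H, dpZ u v x y G = dpZ u v x y H → e G = e H)
    (g : Realization d → ℝ) :
    avg (dpZ u v x y) (avg (fun G => (pairKey u v G, e G)) g) =
      avg (fun G => (dpR u v x y G, e G)) g := by
  have hk : ∀ G H : Realization d, (pairKey u v G, e G) = (pairKey u v H, e H) ↔
      ((dpR u v x y G, e G), dpSide x y u v G) = ((dpR u v x y H, e H), dpSide x y u v H) := by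
    intro G H
    simp only [Prod.mk.injEq, dp_pairKey_iff h]
    tauto
  rw [dp_avg_congr hk]
  exact (dp_product_avg (dpZ u v x y) (dpSide u v x y) (dpSide x y u v)
    (fun G => (dpR u v x y G, e G))
    (fun G H e' => Prod.ext (dpR_of_dpZ e') (he G H e'))
    (fun _ _ e1 e2 e3 => dp_eq_of_keys h e1 e2 e3)
    (fun G H e' => dp_prod h G H (Prod.mk.inj e').1) g).2

theorem dp_avg_half_plain {u v x y : Fin n} (h : Distinct4 u v x y) (g : Realization d → ℝ) :
    avg (dpZ u v x y) (avg (pairKey u v) g) = avg (dpR u v x y) g := by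
  have := dp_avg_half h (fun _ => ()) (fun _ _ _ => rfl) g
  rw [dp_avg_congr (key := fun G => (pairKey u v G, ())) (key' := pairKey u v) (by simp),
    dp_avg_congr (key := fun G => (dpR u v x y G, ())) (key' := dpR u v x y) (by simp)] at this
  exact this

theorem dp_avg_side_key {u v x y : Fin n} (h : Distinct4 u v x y) (g : Realization d → ℝ) :
    avg (fun G => (dpZ u v x y G, dpSide x y u v G)) (avg (pairKey u v) g) =
      avg (pairKey u v) g := by
  refine avg_of_invariant _ _ fun G H e => avg_congr g ?_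
  rw [Prod.mk.injEq] at e
  exact (dp_pairKey_iff h G H).2 ⟨dpR_of_dpZ e.1, e.2⟩

/-- An average over a finer key does not change an average over a coarser one. -/
theorem dp_avg_fine {κ κ' : Type*} (fine : Realization d → κ) (coarse : Realization d → κ')
    (hfc : ∀ G H, fine G = fine H → coarse G = coarse H) (g : Realization d → ℝ) :
    avg coarse (avg fine g) = avg coarse g := by
  refine dp_ext_ip fun t => ?_
  rw [ip_avg_comm, ip_avg_comm,
    avg_of_invariant fine (avg coarse t) (fun G H e => avg_congr t (hfc G H e)), ← ip_avg_comm]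

theorem dp_flip_adj {u v x y : Fin n} (h : Distinct4 u v x y) {G : Realization d}
    (hG : CrossMatched u v x y G) :
    dpBase u v x y (flip4 u v x y G) = dpBase u v x y G ∧
    adjN (flip4 u v x y G) u x = 1 - adjN G u x ∧ adjN (flip4 u v x y G) u y = 1 - adjN G u y ∧
    adjN (flip4 u v x y G) v x = 1 - adjN G v x ∧
    adjN (flip4 u v x y G) v y = 1 - adjN G v y := by
  have hfl := flip4_adjN h G hG
  obtain ⟨n1, n2, n3, n4, n5, n6⟩ := h
  have hin : adjN (flip4 u v x y G) u x = 1 - adjN G u x ∧
      adjN (flip4 u v x y G) u y = 1 - adjN G u y ∧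
      adjN (flip4 u v x y G) v x = 1 - adjN G v x ∧
      adjN (flip4 u v x y G) v y = 1 - adjN G v y := by
    refine ⟨?_, ?_, ?_, ?_⟩ <;> rw [hfl, if_pos] <;> tauto
  refine ⟨?_, hin⟩
  rw [dpBase_eq_iff]
  refine ⟨fun i j hi hj => ?_, ?_, ?_, fun w hw => ⟨?_, ?_⟩, ?_⟩
  · rw [hfl, if_neg]; unfold DpOut at hi; tauto
  · rw [hfl, if_neg]; grind
  · rw [hfl, if_neg]; grind
  · unfold DpOut at hw
    rw [hfl, if_neg (by grind), hfl, if_neg (by grind)]
  · unfold DpOut at hw
    rw [hfl, if_neg (by grind), hfl, if_neg (by grind)]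
  · have := (dp_cm_iff G).1 hG
    have := adjN_le_one G u x; have := adjN_le_one G u y
    have := adjN_le_one G v x; have := adjN_le_one G v y
    simp only [dpTot] at *
    omega

/-- The common part is preserved by the flip, up to the flip. -/
theorem dp_avgZ_flip {u v x y : Fin n} (h : Distinct4 u v x y) (g : Realization d → ℝ)
    (hg : ∀ G, g (flip4 u v x y G) = g G) (G : Realization d) :
    avg (dpZ u v x y) g (flip4 u v x y G) = avg (dpZ u v x y) g G := by
  by_cases hG : CrossMatched u v x y G
  swap
  · rw [flip4_of_not G hG]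
  have hz : ∀ A B : Realization d, CrossMatched u v x y A →
      dpZ u v x y A = dpZ u v x y B →
      dpZ u v x y (flip4 u v x y A) = dpZ u v x y (flip4 u v x y B) := by
    intro A B hA hAB
    have hB := (dp_cm_of_dpZ hAB).1 hA
    obtain ⟨hb, hblk⟩ := dpZ_eq_iff.1 hAB
    obtain ⟨a0, a1, a2, a3, a4⟩ := dp_flip_adj h hA
    obtain ⟨b0, b1, b2, b3, b4⟩ := dp_flip_adj h hB
    refine dpZ_eq_iff.2 ⟨(a0.trans hb).trans b0.symm, fun _ => ?_⟩
    obtain ⟨e1, e2, e3, e4⟩ := hblk ((dp_cm_iff A).1 hA).1
    rw [a1, a2, a3, a4, b1, b2, b3, b4, e1, e2, e3, e4]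
    exact ⟨rfl, rfl, rfl, rfl⟩
  have hG' := (crossMatched_flip4 h G).2 hG
  have hmem : ∀ M ∈ cls (dpZ u v x y) G, flip4 u v x y M ∈ cls (dpZ u v x y) (flip4 u v x y G) :=
    fun M hM => mem_cls.2 (hz M G ((dp_cm_of_dpZ (mem_cls.1 hM)).2 hG) (mem_cls.1 hM))
  have hmem' : ∀ M ∈ cls (dpZ u v x y) (flip4 u v x y G),
      flip4 u v x y M ∈ cls (dpZ u v x y) G := fun M hM => mem_cls.2 (by
    have := hz M _ ((dp_cm_of_dpZ (mem_cls.1 hM)).2 hG') (mem_cls.1 hM)
    rwa [flip4_flip4 h] at this)
  simp only [avg]
  congr 1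
  · exact Finset.sum_nbij' (flip4 u v x y) (flip4 u v x y) hmem' hmem
      (fun M _ => flip4_flip4 h M) (fun M _ => flip4_flip4 h M) (fun M _ => (hg M).symm)
  · exact congrArg Nat.cast (Finset.card_nbij' (flip4 u v x y) (flip4 u v x y) hmem' hmem
      (fun M _ => flip4_flip4 h M) (fun M _ => flip4_flip4 h M))

/-- Off the cross matched graphs the pair key determines the common part, and on them
the fluctuation of the common part is controlled by `psi`. -/
theorem dp_half_bound {u v x y : Fin n} (h : Distinct4 u v x y) (g : Realization d → ℝ)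
    (hg : ∀ G, g (flip4 u v x y G) = g G) :
    (∀ G, ¬(dpTot u v x y G = 2 ∧ adjN G u x + adjN G v x = 1) →
      avg (dpZ u v x y) g G - avg (dpR u v x y) g G = 0) ∧
    (∑ G, if CrossMatched u v x y G
      then (avg (dpZ u v x y) g G - avg (dpR u v x y) g G) ^ 2 else 0) ≤ psi u v x y g := by
  refine ⟨fun G hG => ?_, ?_⟩
  · have hcls : cls (dpR u v x y) G = cls (dpZ u v x y) G := by
      ext H
      simp only [mem_cls]
      refine ⟨fun hr => ?_, dpR_of_dpZ⟩
      obtain ⟨hb, hcx⟩ := dpR_eq_iff.1 hr
      refine dpZ_eq_iff.2 ⟨hb, fun h2 => ?_⟩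
      have := hcx h2
      have hT := (dpBase_eq_iff.1 hb).2.2.2.2
      have := adjN_le_one G u x; have := adjN_le_one G u y
      have := adjN_le_one G v x; have := adjN_le_one G v y
      have := adjN_le_one H u x; have := adjN_le_one H u y
      have := adjN_le_one H v x; have := adjN_le_one H v y
      simp only [dpTot] at *
      omega
    simp only [avg, hcls, sub_self]
  set e : Realization d → Bool := fun G => decide (CrossMatched u v x y G) with he
  have hez : ∀ G H, dpZ u v x y G = dpZ u v x y H → e G = e H := fun G H hh => by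
    simp [he, dp_cm_of_dpZ hh]
  set g1 : Realization d → ℝ :=
    avg (fun G => (pairKey u v G, e G)) g - avg (pairKey u v) g with hg1
  set F : Realization d → ℝ := fun G => if CrossMatched u v x y G then g1 G else 0 with hF
  have hPF : ∀ G, avg (dpZ u v x y) F G = if CrossMatched u v x y G
      then avg (dpZ u v x y) g1 G else 0 := by
    intro G
    simp only [avg]
    split_ifs with hG
    · congr 1
      exact Finset.sum_congr rfl fun M hM => if_pos ((dp_cm_of_dpZ (mem_cls.1 hM)).2 hG)
    · rw [Finset.sum_eq_zero fun M hM => if_neg (fun hM' => hG ((dp_cm_of_dpZ (mem_cls.1 hM)).1 hM')),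
        zero_div]
  have hq : ∀ G, CrossMatched u v x y G → avg (dpZ u v x y) g1 G =
      avg (dpZ u v x y) g G - avg (dpR u v x y) g G := by
    intro G hG
    rw [hg1, dp_avg_sub, dp_avg_half h e hez, dp_avg_half_plain h, Pi.sub_apply]
    congr 1
    rw [← dp_avg_fine (dpZ u v x y) (fun G => (dpR u v x y G, e G))
      (fun A B hAB => Prod.ext (dpR_of_dpZ hAB) (hez A B hAB)) g]
    have hconst : ∀ M ∈ cls (fun G => (dpR u v x y G, e G)) G,
        avg (dpZ u v x y) g M = avg (dpZ u v x y) g G := by
      intro M hM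
      rw [mem_cls, Prod.mk.injEq] at hM
      have hM' : CrossMatched u v x y M := by simpa [he, hG] using hM.2
      obtain ⟨hb, hcx⟩ := dpR_eq_iff.1 hM.1
      obtain ⟨f0, f1, f2, f3, f4⟩ := dp_flip_adj h hG
      have c1 := (dp_cm_iff G).1 hG
      have c2 := (dp_cm_iff M).1 hM'
      have := adjN_le_one G u x; have := adjN_le_one G u y
      have := adjN_le_one G v x; have := adjN_le_one G v y
      have := adjN_le_one M u x; have := adjN_le_one M u y
      have := adjN_le_one M v x; have := adjN_le_one M v y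
      simp only [dpTot] at c1 c2
      by_cases hs : adjN M u x = adjN G u x
      · exact avg_congr g (dpZ_eq_iff.2 ⟨hb, fun _ => by omega⟩)
      · rw [← dp_avgZ_flip h g hg G]
        exact avg_congr g (dpZ_eq_iff.2 ⟨hb.trans f0.symm, fun _ => by omega⟩)
    conv_lhs => rw [avg]
    rw [Finset.sum_congr rfl hconst, Finset.sum_const, nsmul_eq_mul,
      mul_div_cancel_left₀ _ (cls_card_pos _ G).ne']
  have hle := dp_ip_avg_le (dpZ u v x y) F
  have eL : ip (avg (dpZ u v x y) F) (avg (dpZ u v x y) F) = ∑ G, if CrossMatched u v x y G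
      then (avg (dpZ u v x y) g G - avg (dpR u v x y) g G) ^ 2 else 0 := by
    refine Finset.sum_congr rfl fun G _ => ?_
    rw [hPF G]
    split_ifs with hG
    · rw [hq G hG, sq]
    · ring
  have eR : ip F F = psi u v x y g := by
    refine Finset.sum_congr rfl fun G _ => ?_
    by_cases hG : CrossMatched u v x y G
    · simp only [hF, if_pos hG, hg1, Pi.sub_apply, he, sq]
    · simp [hF, hG]
  rw [← eL, ← eR]
  exact hle

/-- The inequality for functions invariant under the flip. -/
theorem dp_symmetric {u v x y : Fin n} (h : Distinct4 u v x y) (g : Realization d → ℝ)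
    (hg : ∀ G, g (flip4 u v x y G) = g G) :
    -psi u v x y g - psi x y u v g ≤ 2 * ip (Q u v g) (Q x y g) := by
  have h' := distinct4_swap h
  have hza : ∀ G H : Realization d,
      (dpZ x y u v G, dpSide u v x y G) = (dpZ x y u v H, dpSide u v x y H) ↔
      (dpZ u v x y G, dpSide u v x y G) = (dpZ u v x y H, dpSide u v x y H) := fun G H => by
    simp only [Prod.mk.injEq, dpZ_swap_iff]
  have hzz : avg (dpZ x y u v) = avg (dpZ u v x y : Realization d → _) :=
    funext fun t => dp_avg_congr (fun G H => dpZ_swap_iff) t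
  have hred := dp_reduce (dpZ u v x y) (fun G => (dpZ u v x y G, dpSide u v x y G))
    (fun G => (dpZ u v x y G, dpSide x y u v G)) (pairKey u v) (pairKey x y)
    (dpR u v x y) (dpR x y u v) (dp_avg_sides h) (dp_avg_side_key h)
    (fun t => by
      have := dp_avg_side_key h' t
      rwa [dp_avg_congr hza] at this)
    (dp_avg_half_plain h)
    (fun t => by
      have := dp_avg_half_plain h' t
      rwa [hzz] at this) g
  obtain ⟨a1, b1⟩ := dp_half_bound h g hg
  obtain ⟨a2, b2⟩ := dp_half_bound h' g (fun G => by rw [flip4_comm, hg])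
  rw [hzz] at a2 b2
  simp only [dpTot_swap, crossMatched_comm u v x y] at a2 b2
  set q1 : Realization d → ℝ := avg (dpZ u v x y) g - avg (dpR u v x y) g with hq1
  set q2 : Realization d → ℝ := avg (dpZ u v x y) g - avg (dpR x y u v) g with hq2
  have hpt : ∀ G, -((if CrossMatched u v x y G then q1 G ^ 2 else 0) +
      (if CrossMatched u v x y G then q2 G ^ 2 else 0)) ≤ 2 * (q1 G * q2 G) := by
    intro G
    by_cases hG : CrossMatched u v x y G
    · rw [if_pos hG, if_pos hG]
      nlinarith [sq_nonneg (q1 G + q2 G)]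
    · rw [if_neg hG, if_neg hG]
      have : q1 G = 0 ∨ q2 G = 0 := by
        by_contra hne
        simp only [not_or, hq1, hq2, Pi.sub_apply] at hne
        have c1 := not_not.1 (mt (a1 G) hne.1)
        have c2 := not_not.1 (mt (a2 G) hne.2)
        rw [adjN_comm G x u, adjN_comm G y u] at c2
        exact hG ((dp_cm_iff G).2 ⟨c1.1, c1.2, c2.2⟩)
      rcases this with h0 | h0 <;> simp [h0]
  have hs := Finset.sum_le_sum (s := univ) fun G _ => hpt G
  rw [Finset.sum_neg_distrib, Finset.sum_add_distrib, ← Finset.mul_sum] at hs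
  have : ip q1 q2 ≤ ip (Q u v g) (Q x y g) := hred
  simp only [hq1, hq2, Pi.sub_apply, ip] at hs this
  simp only [ip]
  linarith

theorem dp_avg_flip {κ : Type*} {u v x y : Fin n} (h : Distinct4 u v x y)
    (key : Realization d → κ) (hk : ∀ G, key (flip4 u v x y G) = key G) (f : Realization d → ℝ) :
    avg key (fun G => f (flip4 u v x y G)) = avg key f := by
  funext G
  simp only [avg]
  congr 1
  exact Finset.sum_nbij' (flip4 u v x y) (flip4 u v x y)
    (fun M hM => mem_cls.2 ((hk M).trans (mem_cls.1 hM)))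
    (fun M hM => mem_cls.2 ((hk M).trans (mem_cls.1 hM)))
    (fun M _ => flip4_flip4 h M) (fun M _ => flip4_flip4 h M) (fun M _ => rfl)

theorem disjoint_pair {u v x y : Fin n} (h : Distinct4 u v x y) (f : Realization d → ℝ) :
    (1 / 2) * swEnergy u v x y f - psi u v x y f - psi x y u v f
      ≤ 2 * ip (Q u v f) (Q x y f) := by
  set fs : Realization d → ℝ := fun G => (f G + f (flip4 u v x y G)) / 2 with hfs
  set fa : Realization d → ℝ := fun G => (f G - f (flip4 u v x y G)) / 2 with hfa
  have hsplit : f = fa + fs := by funext G; simp only [hfa, hfs, Pi.add_apply]; ring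
  have hinv : ∀ G, fs (flip4 u v x y G) = fs G := fun G => by
    simp only [hfs, flip4_flip4 h]; ring
  have hanti : ∀ G, fa (flip4 u v x y G) = -fa G := fun G => by
    simp only [hfa, flip4_flip4 h]; ring
  have havg : ∀ {κ : Type} (key : Realization d → κ), (∀ G, key (flip4 u v x y G) = key G) →
      avg key fa = 0 ∧ avg key fs = avg key f := by
    intro κ key hk
    have e := fun G => congrFun (dp_avg_flip h key hk f) G
    constructor <;> funext G <;> have := e G <;>
      simp only [avg, hfa, hfs, ← Finset.sum_div, Finset.sum_sub_distrib, Finset.sum_add_distrib,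
        Pi.zero_apply] at * <;>
      rw [div_div, mul_comm, ← div_div]
    · rw [sub_div, this]; simp
    · rw [add_div, this]; ring
  have hk1 : ∀ G : Realization d, pairKey u v (flip4 u v x y G) = pairKey u v G :=
    fun G => (pairKey_flip4 h G).1
  have hk2 : ∀ G : Realization d, pairKey x y (flip4 u v x y G) = pairKey x y G :=
    fun G => (pairKey_flip4 h G).2
  have hQ : ∀ a b : Fin n, (∀ G : Realization d, pairKey a b (flip4 u v x y G) = pairKey a b G) →
      Q a b f = fa + Q a b fs ∧ ∀ G, Q a b fs (flip4 u v x y G) = Q a b fs G := by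
    intro a b hk
    refine ⟨?_, fun G => ?_⟩
    · funext G
      simp only [Q, dev, Pi.add_apply]
      rw [congrFun (havg _ hk).2 G]
      simp only [hfa, hfs]
      ring
    · simp only [Q, dev, hinv, avg_congr fs (hk G)]
  have horth : ∀ g : Realization d → ℝ, (∀ G, g (flip4 u v x y G) = g G) → ip fa g = 0 := by
    intro g hgi
    have e : ∑ G, fa G * g G = ∑ G, fa (flip4 u v x y G) * g (flip4 u v x y G) :=
      (Finset.sum_nbij' (flip4 u v x y) (flip4 u v x y) (by simp) (by simp)
        (fun M _ => flip4_flip4 h M) (fun M _ => flip4_flip4 h M)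
        (fun M _ => rfl)).symm
    simp only [hanti, hgi, neg_mul, Finset.sum_neg_distrib] at e
    simp only [ip]
    linarith
  have hsw : swEnergy u v x y f = 4 * ip fa fa := by
    simp only [swEnergy, ip, Finset.mul_sum, hfa]
    refine Finset.sum_congr rfl fun G _ => ?_
    by_cases hG : CrossMatched u v x y G
    · rw [if_pos hG]; ring
    · rw [if_neg hG, flip4_of_not G hG]; ring
  have hcm : ∀ G : Realization d,
      decide (CrossMatched u v x y (flip4 u v x y G)) = decide (CrossMatched u v x y G) :=
    fun G => by simp [crossMatched_flip4 h G]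
  have hpsi1 : psi u v x y f = psi u v x y fs := by
    simp only [psi, (havg _ hk1).2,
      (havg (fun H => (pairKey u v H, decide (CrossMatched u v x y H)))
        (fun G => Prod.ext (hk1 G) (hcm G))).2]
  have hpsi2 : psi x y u v f = psi x y u v fs := by
    simp only [psi, (havg _ hk2).2,
      (havg (fun H => (pairKey x y H, decide (CrossMatched x y u v H)))
        (fun G => Prod.ext (hk2 G) (by simp [crossMatched_comm u v x y, crossMatched_flip4 h G]))).2]
  obtain ⟨e1, i1⟩ := hQ u v hk1
  obtain ⟨e2, i2⟩ := hQ x y hk2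
  have hip : ip (Q u v f) (Q x y f) = ip fa fa + ip (Q u v fs) (Q x y fs) := by
    have o1 := horth _ i1
    have o2 := horth _ i2
    rw [ip_comm] at o1
    rw [e1, e2]
    simp only [ip, Pi.add_apply, add_mul, mul_add, Finset.sum_add_distrib] at o1 o2 ⊢
    linarith
  have := dp_symmetric h fs hinv
  rw [hip, hpsi1, hpsi2, hsw]
  linarith

end Vale.Agent.P335
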