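import Mathlib

/-! Up and down operators on the slices of the cube (auxiliary facts for `slice_ineq`). -/

namespace Vale.Agent.P335.JohnsonAux

open Finset
open scoped Classical

variable {α : Type*} [Fintype α] [DecidableEq α]

/-- The slice of `j`-element sets. -/
abbrev lev (α : Type*) [Fintype α] (j : ℕ) : Finset (Finset α) :=
  (univ : Finset α).powersetCard j

theorem mem_lev {j : ℕ} {S : Finset α} : S ∈ lev α j ↔ S.card = j := by simp

/-- Sum of `φ` over the sets one larger. -/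
noncomputable def upOp (φ : Finset α → ℝ) (T : Finset α) : ℝ := ∑ y ∈ Tᶜ, φ (insert y T)

/-- Sum of `ψ` over the sets one smaller. -/
noncomputable def downOp (ψ : Finset α → ℝ) (S : Finset α) : ℝ := ∑ x ∈ S, ψ (S.erase x)

/-- The additive function with weights `c`. -/
noncomputable def lin (c : α → ℝ) (S : Finset α) : ℝ := ∑ i ∈ S, c i

theorem adjoint (j : ℕ) (ψ φ : Finset α → ℝ) :
    ∑ S ∈ lev α (j + 1), downOp ψ S * φ S = ∑ T ∈ lev α j, ψ T * upOp φ T := by
  simp only [downOp, upOp, sum_mul, mul_sum]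
  rw [sum_sigma', sum_sigma']
  refine sum_nbij' (fun p => ⟨p.1.erase p.2, p.2⟩) (fun p => ⟨insert p.2 p.1, p.2⟩) ?_ ?_ ?_ ?_ ?_
  · rintro ⟨S, x⟩ hp
    simp only [mem_coe, mem_sigma, mem_powersetCard_univ, mem_compl] at hp ⊢
    exact ⟨by rw [card_erase_of_mem hp.2]; omega, notMem_erase _ _⟩
  · rintro ⟨T, y⟩ hp
    simp only [mem_coe, mem_sigma, mem_powersetCard_univ, mem_compl] at hp ⊢
    exact ⟨by rw [card_insert_of_notMem hp.2]; omega, mem_insert_self _ _⟩
  · rintro ⟨S, x⟩ hp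
    simp only [mem_coe, mem_sigma] at hp
    simp [insert_erase hp.2]
  · rintro ⟨T, y⟩ hp
    simp only [mem_coe, mem_sigma, mem_compl] at hp
    simp [erase_insert hp.2]
  · rintro ⟨S, x⟩ hp
    simp only [mem_sigma] at hp
    simp [insert_erase hp.2]

theorem down_up (φ : Finset α → ℝ) (S : Finset α) :
    downOp (upOp φ) S = (S.card : ℝ) * φ S + ∑ x ∈ S, ∑ y ∈ Sᶜ, φ (insert y (S.erase x)) := by
  simp only [downOp, upOp]
  rw [show (S.card : ℝ) * φ S = ∑ _x ∈ S, φ S by simp, ← sum_add_distrib]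
  refine sum_congr rfl fun x hx => ?_
  rw [compl_erase, sum_insert (by simp [hx]), insert_erase hx]

theorem up_down (ψ : Finset α → ℝ) (T : Finset α) :
    upOp (downOp ψ) T = ((Fintype.card α : ℝ) - T.card) * ψ T
      + ∑ x ∈ T, ∑ y ∈ Tᶜ, ψ (insert y (T.erase x)) := by
  simp only [downOp, upOp]
  rw [sum_comm (s := T)]
  have hc : ((Fintype.card α : ℝ) - T.card) * ψ T = ∑ _y ∈ Tᶜ, ψ T := by
    rw [sum_const, nsmul_eq_mul, card_compl, Nat.cast_sub (card_le_univ T)]
  rw [hc, ← sum_add_distrib]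
  refine sum_congr rfl fun y hy => ?_
  have hy' : y ∉ T := mem_compl.1 hy
  rw [sum_insert hy', erase_insert hy']
  congr 1
  refine sum_congr rfl fun x hx => ?_
  rw [erase_insert_of_ne (fun h : y = x => hy' (h ▸ hx))]

theorem sum_down_sq (j : ℕ) (ψ : Finset α → ℝ) :
    ∑ S ∈ lev α (j + 1 + 1), downOp ψ S ^ 2
      = ∑ T ∈ lev α j, upOp ψ T ^ 2
        + ((Fintype.card α : ℝ) - 2 * (j + 1 : ℕ)) * ∑ T ∈ lev α (j + 1), ψ T ^ 2 := by
  simp only [pow_two]
  rw [adjoint (j + 1) ψ (downOp ψ), ← adjoint j (upOp ψ) ψ, mul_sum, ← sum_add_distrib]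
  refine sum_congr rfl fun T hT => ?_
  rw [up_down, down_up, mem_lev.1 hT]
  push_cast
  ring

theorem sum_up_sq (a : ℕ) (φ : Finset α → ℝ) :
    ∑ T ∈ lev α a, upOp φ T ^ 2 = ∑ S ∈ lev α (a + 1), φ S * downOp (upOp φ) S := by
  simp only [pow_two]
  rw [← adjoint a (upOp φ) φ]
  exact sum_congr rfl fun _ _ => mul_comm _ _

theorem upOp_const (T : Finset α) :
    upOp (fun _ => (1 : ℝ)) T = (Fintype.card α : ℝ) - T.card := by
  simp [upOp, card_compl, Nat.cast_sub (card_le_univ T)]

/-- The switch energy of the slice as a quadratic form. -/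
theorem energy_eq (a : ℕ) (g : Finset α → ℝ) :
    ∑ S ∈ lev α (a + 1), ∑ x ∈ S, ∑ y ∈ Sᶜ, (g S - g (insert y (S.erase x))) ^ 2
      = 2 * (((a : ℝ) + 1) * ((Fintype.card α : ℝ) - a) * ∑ S ∈ lev α (a + 1), g S ^ 2
          - ∑ T ∈ lev α a, upOp g T ^ 2) := by
  set K : ℝ := (Fintype.card α : ℝ) with hK
  set g2 : Finset α → ℝ := fun S => g S ^ 2 with hg2
  have h2 : ∑ S ∈ lev α (a + 1), downOp (upOp g2) S
      = ((a : ℝ) + 1) * (K - a) * ∑ S ∈ lev α (a + 1), g S ^ 2 := by
    have h := adjoint a (upOp g2) (fun _ => (1 : ℝ))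
    simp only [mul_one, upOp_const] at h
    rw [h]
    have h3 : ∑ T ∈ lev α a, upOp g2 T * (K - (T.card : ℝ))
        = (K - a) * ∑ T ∈ lev α a, (1 : ℝ) * upOp g2 T := by
      rw [mul_sum]
      refine sum_congr rfl fun T hT => ?_
      rw [mem_lev.1 hT]; ring
    rw [h3, ← adjoint a (fun _ => (1 : ℝ)) g2]
    simp only [downOp, sum_const, nsmul_eq_mul, mul_one, mul_sum]
    refine sum_congr rfl fun S hS => ?_
    rw [mem_lev.1 hS, hg2]; push_cast; ring
  have hpt : ∀ S ∈ lev α (a + 1), ∑ x ∈ S, ∑ y ∈ Sᶜ, (g S - g (insert y (S.erase x))) ^ 2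
      = ((a : ℝ) + 1) * (K - a) * g S ^ 2 - 2 * (g S * downOp (upOp g) S)
        + downOp (upOp g2) S := by
    intro S hS
    have hc : S.card = a + 1 := mem_lev.1 hS
    have hle : a + 1 ≤ Fintype.card α := hc ▸ card_le_univ S
    rw [down_up, down_up, hc]
    simp only [sub_sq, sum_add_distrib, sum_sub_distrib, sum_const, nsmul_eq_mul, hc, card_compl,
      mul_assoc, ← mul_sum, hg2]
    rw [Nat.cast_sub hle, hK]
    push_cast
    ring
  rw [sum_congr rfl hpt, sum_add_distrib, sum_sub_distrib, h2, ← mul_sum, ← mul_sum,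
    ← sum_up_sq a g]
  ring

/-! ### Functions with vanishing singleton sums -/

/-- All sums over the sets through a given point vanish at level `j`. -/
def Free (j : ℕ) (φ : Finset α → ℝ) : Prop :=
  ∀ i : α, ∑ S ∈ lev α j, (if i ∈ S then φ S else 0) = 0

theorem sum_lin_mul (j : ℕ) (c : α → ℝ) (φ : Finset α → ℝ) :
    ∑ S ∈ lev α j, lin c S * φ S = ∑ i, c i * ∑ S ∈ lev α j, (if i ∈ S then φ S else 0) := by
  simp only [mul_sum, lin, sum_mul]
  rw [sum_comm]
  refine sum_congr rfl fun S _ => ?_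
  simp only [mul_ite, mul_zero, sum_ite_mem, univ_inter]

theorem sum_lin_mul_eq_zero {j : ℕ} {c : α → ℝ} {φ : Finset α → ℝ} (h : Free j φ) :
    ∑ S ∈ lev α j, lin c S * φ S = 0 := by
  simp [sum_lin_mul, h _]

theorem Free.upOp {j : ℕ} {φ : Finset α → ℝ} (h : Free (j + 1) φ) :
    Free j (upOp φ) := by
  intro i
  have hd : ∀ S ∈ lev α (j + 1), downOp (fun T => if i ∈ T then (1 : ℝ) else 0) S * φ S
      = (j : ℝ) * (if i ∈ S then φ S else 0) := by
    intro S hS
    by_cases hi : i ∈ S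
    · rw [if_pos hi, downOp, sum_boole]
      have : S.filter (fun x => i ∈ S.erase x) = S.erase i := by
        ext x; simp [hi]; tauto
      rw [this, card_erase_of_mem hi, mem_lev.1 hS, Nat.add_sub_cancel]
    · rw [if_neg hi, mul_zero, downOp, sum_eq_zero (fun x _ => if_neg (by simp [hi])), zero_mul]
  have := adjoint j (fun T => if i ∈ T then (1 : ℝ) else 0) φ
  rw [sum_congr rfl hd, ← mul_sum, h i, mul_zero] at this
  exact (sum_congr rfl fun T _ => by split <;> simp).trans this.symm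

/-- The basic contraction: `|up φ|² ≤ j (K - j - 3) |φ|²` for free `φ` on `(j+2)`-sets. -/
theorem up_bound : ∀ (j : ℕ), j + 2 + 1 ≤ Fintype.card α → ∀ φ : Finset α → ℝ, Free (j + 2) φ →
    ∑ T ∈ lev α (j + 1), upOp φ T ^ 2
      ≤ (j : ℝ) * ((Fintype.card α : ℝ) - j - 3) * ∑ S ∈ lev α (j + 2), φ S ^ 2 := by
  intro j
  induction j with
  | zero =>
    intro _ φ h
    have h1 : ∀ T ∈ lev α 1, upOp φ T = 0 := by
      intro T hT
      obtain ⟨i, rfl⟩ := card_eq_one.1 (mem_lev.1 hT)
      rw [← h i]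
      simp only [JohnsonAux.upOp, ← sum_filter]
      refine sum_nbij (fun y => insert y {i}) ?_ ?_ ?_ (fun _ _ => rfl)
      · intro y hy
        simp at hy ⊢
        rw [card_insert_of_notMem (by simpa using hy)]; simp
      · intro y hy y' hy' he
        simp at hy hy'
        have : y ∈ insert y' ({i} : Finset α) := by
          simp only at he
          rw [← he]; simp
        simp at this
        tauto
      · intro S hS
        simp at hS
        obtain ⟨p, q, hpq, rfl⟩ := card_eq_two.1 hS.1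
        simp only [Finset.mem_insert, Finset.mem_singleton] at hS
        rcases hS.2 with rfl | rfl
        · exact ⟨q, by simpa using hpq.symm, by simp [pair_comm]⟩
        · exact ⟨p, by simpa using hpq, rfl⟩
    rw [sum_eq_zero (fun T hT => by rw [h1 T hT]; ring)]
    simp
  | succ j ih =>
    intro hj φ h
    set ψ := upOp φ with hψ
    have hψf : Free (j + 2) ψ := h.upOp
    have h1 := ih (by omega) ψ hψf
    have h2 := sum_down_sq (j + 1) ψ
    have h3 : ∑ S ∈ lev α (j + 2 + 1), downOp ψ S ^ 2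
        ≤ ((j : ℝ) + 1) * ((Fintype.card α : ℝ) - (j + 1) - 3)
          * ∑ T ∈ lev α (j + 2), ψ T ^ 2 := by
      rw [show j + 2 + 1 = j + 1 + 1 + 1 from rfl, h2]
      push_cast at h1 ⊢
      nlinarith [h1]
    have h4 : ∑ T ∈ lev α (j + 2), ψ T ^ 2
        = ∑ S ∈ lev α (j + 2 + 1), downOp ψ S * φ S := by
      rw [adjoint]; exact sum_congr rfl fun T _ => by rw [hψ]; ring
    have h5 := sum_mul_sq_le_sq_mul_sq (lev α (j + 2 + 1)) (downOp ψ) φ
    rw [← h4] at h5
    have hc : 0 ≤ ((j : ℝ) + 1) * ((Fintype.card α : ℝ) - (j + 1) - 3) := by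
      have : ((j : ℝ) + 4) ≤ Fintype.card α := by
        exact_mod_cast (show j + 4 ≤ Fintype.card α by omega)
      nlinarith
    have hX : (0:ℝ) ≤ ∑ T ∈ lev α (j + 2), ψ T ^ 2 := sum_nonneg fun _ _ => sq_nonneg _
    have hF : (0:ℝ) ≤ ∑ S ∈ lev α (j + 2 + 1), φ S ^ 2 := sum_nonneg fun _ _ => sq_nonneg _
    push_cast
    show ∑ T ∈ lev α (j + 2), ψ T ^ 2 ≤ _ * ∑ S ∈ lev α (j + 2 + 1), φ S ^ 2
    rcases hX.eq_or_lt with h0 | h0
    · rw [← h0]; positivity
    · nlinarith [h5, h3, mul_le_mul_of_nonneg_right h3 hF]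

theorem iter_bound : ∀ (m : ℕ), m + 4 ≤ Fintype.card α → ∀ φ : Finset α → ℝ, Free (m + 2) φ →
    ∑ T ∈ lev α 2, (upOp^[m] φ) T ^ 2
      ≤ (m.factorial : ℝ) * ((Fintype.card α - 4).descFactorial m : ℝ)
        * ∑ S ∈ lev α (m + 2), φ S ^ 2 := by
  intro m
  induction m with
  | zero => intro _ φ _; simp
  | succ m ih =>
    intro hm φ h
    have hu : Free (m + 2) (upOp φ) := h.upOp
    have h1 := ih (by omega) (upOp φ) hu
    have h2 := up_bound (m + 1) (by omega) φ h
    rw [Function.iterate_succ_apply]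
    have hc : ((Fintype.card α - 4 - m : ℕ) : ℝ) = (Fintype.card α : ℝ) - (m + 1) - 3 := by
      rw [show Fintype.card α - 4 - m = Fintype.card α - (4 + m) by omega,
        Nat.cast_sub (by omega)]
      push_cast; ring
    have h0 : (0:ℝ) ≤ (m.factorial : ℝ) * ((Fintype.card α - 4).descFactorial m : ℝ) := by
      positivity
    refine h1.trans ?_
    rw [Nat.factorial_succ, Nat.descFactorial_succ]
    push_cast
    rw [hc]
    push_cast at h2
    calc (m.factorial : ℝ) * ((Fintype.card α - 4).descFactorial m : ℝ)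
          * ∑ S ∈ lev α (m + 2), upOp φ S ^ 2
        ≤ (m.factorial : ℝ) * ((Fintype.card α - 4).descFactorial m : ℝ)
          * (((m : ℝ) + 1) * ((Fintype.card α : ℝ) - (m + 1) - 3)
            * ∑ S ∈ lev α (m + 1 + 2), φ S ^ 2) := mul_le_mul_of_nonneg_left h2 h0
      _ = _ := by ring

/-- Sum of `φ` over the `k`-sets containing `T`. -/
noncomputable def supSum (k : ℕ) (φ : Finset α → ℝ) (T : Finset α) : ℝ :=
  ∑ S ∈ lev α k, if T ⊆ S then φ S else 0

theorem iterate_eq : ∀ (m : ℕ) (φ : Finset α → ℝ) (T : Finset α),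
    (upOp^[m] φ) T = (m.factorial : ℝ) * supSum (T.card + m) φ T := by
  intro m
  induction m with
  | zero =>
    intro φ T
    simp only [Function.iterate_zero, id, Nat.factorial_zero, Nat.cast_one, one_mul, add_zero,
      supSum]
    rw [sum_eq_single T]
    · simp
    · intro S hS hne
      rw [if_neg fun h => hne (eq_of_subset_of_card_le h (by rw [mem_lev.1 hS])).symm]
    · simp
  | succ m ih =>
    intro φ T
    rw [Function.iterate_succ_apply, ih]
    have hd : ∀ S ∈ lev α (T.card + m + 1),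
        downOp (fun S' => if T ⊆ S' then (1 : ℝ) else 0) S * φ S
          = ((m : ℝ) + 1) * (if T ⊆ S then φ S else 0) := by
      intro S hS
      by_cases hTS : T ⊆ S
      · rw [if_pos hTS, downOp, sum_boole]
        have : S.filter (fun x => T ⊆ S.erase x) = S \ T := by
          ext x; simp [subset_erase, hTS]
        rw [this, card_sdiff_of_subset hTS, mem_lev.1 hS,
          show T.card + m + 1 - T.card = m + 1 by omega]
        push_cast; rfl
      · rw [if_neg hTS, mul_zero, downOp, sum_eq_zero, zero_mul]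
        intro x _
        rw [if_neg fun h => hTS (h.trans (erase_subset _ _))]
    have h := adjoint (T.card + m) (fun S' => if T ⊆ S' then (1 : ℝ) else 0) φ
    rw [sum_congr rfl hd, ← mul_sum] at h
    have h' : supSum (T.card + m) (upOp φ) T
        = ((m : ℝ) + 1) * supSum (T.card + (m + 1)) φ T := by
      simp only [supSum, ← add_assoc]
      rw [h]
      exact sum_congr rfl fun S _ => by split <;> simp
    rw [h', Nat.factorial_succ]
    push_cast; ring

theorem pair_bound (m : ℕ) (hm : m + 4 ≤ Fintype.card α) (φ : Finset α → ℝ) (h : Free (m + 2) φ) :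
    ∑ T ∈ lev α 2, supSum (m + 2) φ T ^ 2
      ≤ ((Fintype.card α - 4).choose m : ℝ) * ∑ S ∈ lev α (m + 2), φ S ^ 2 := by
  have hb := iter_bound m hm φ h
  have he : ∑ T ∈ lev α 2, (upOp^[m] φ) T ^ 2
      = (m.factorial : ℝ) ^ 2 * ∑ T ∈ lev α 2, supSum (m + 2) φ T ^ 2 := by
    rw [mul_sum]
    refine sum_congr rfl fun T hT => ?_
    rw [iterate_eq, mem_lev.1 hT, add_comm 2 m]; ring
  rw [he, Nat.descFactorial_eq_factorial_mul_choose] at hb
  push_cast at hb
  have hp : (0:ℝ) < (m.factorial : ℝ) ^ 2 := by positivity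
  refine le_of_mul_le_mul_left (hb.trans (le_of_eq ?_)) hp
  ring

end Vale.Agent.P335.JohnsonAux
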