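import Mathlib
import Vale.Agent.P335.JohnsonAux

/-! An inequality on a slice of the cube (Johnson scheme). -/

namespace Vale.Agent.P335

open Finset
open scoped Classical

variable {α : Type*} [Fintype α] [DecidableEq α]

/-- The members of the slice containing exactly one of `x`, `y`. -/
noncomputable def splitSets (a : ℕ) (x y : α) : Finset (Finset α) :=
  ((univ : Finset α).powersetCard a).filter (fun S => Xor' (x ∈ S) (y ∈ S))

/-- Mean of `g` over a finite family. -/
noncomputable def meanOn (s : Finset (Finset α)) (g : Finset α → ℝ) : ℝ :=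
  (∑ S ∈ s, g S) / (s.card : ℝ)

open JohnsonAux in
private theorem slice_card (a : ℕ) (A B : Finset α) (hAB : Disjoint A B) :
    ((lev α a).filter (fun S => A ⊆ S ∧ Disjoint B S)).card
      = if A.card ≤ a then (Fintype.card α - A.card - B.card).choose (a - A.card) else 0 := by
  split
  case isTrue hA =>
    have hc : ((A ∪ B)ᶜ).card = Fintype.card α - A.card - B.card := by
      rw [card_compl, card_union_of_disjoint hAB, Nat.sub_add_eq]
    rw [← hc, ← card_powersetCard]
    refine card_nbij' (fun S => S \ A) (fun U => A ∪ U) ?_ ?_ ?_ ?_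
    · intro S hS
      simp only [mem_coe, mem_filter, mem_lev] at hS
      simp only [mem_coe, mem_powersetCard]
      refine ⟨?_, by rw [card_sdiff_of_subset hS.2.1, hS.1]⟩
      intro x hx
      simp only [mem_sdiff] at hx
      simp only [mem_compl, mem_union, not_or]
      exact ⟨hx.2, fun hb => disjoint_left.1 hS.2.2 hb hx.1⟩
    · intro U hU
      simp only [mem_coe, mem_powersetCard] at hU
      have hd : Disjoint A U := disjoint_left.2 fun x hx hu => by
        have := hU.1 hu; simp [hx] at this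
      simp only [mem_coe, mem_filter, mem_lev]
      refine ⟨by rw [card_union_of_disjoint hd, hU.2]; omega, subset_union_left,
        disjoint_left.2 fun x hb hx => ?_⟩
      rcases mem_union.1 hx with h | h
      · exact disjoint_left.1 hAB h hb
      · have := hU.1 h; simp [hb] at this
    · intro S hS
      simp only [mem_coe, mem_filter] at hS
      simp [hS.2.1]
    · intro U hU
      simp only [mem_coe, mem_powersetCard] at hU
      ext x
      simp only [mem_sdiff, mem_union]
      constructor
      · tauto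
      · intro hx
        exact ⟨Or.inr hx, fun hA => by have := hU.1 hx; simp [hA] at this⟩
  case isFalse hA =>
    rw [card_eq_zero, filter_eq_empty_iff]
    intro S hS h
    exact hA ((card_le_card h.1).trans (mem_lev.1 hS).le)

open JohnsonAux in
/-- The number of members through the points of `A`. -/
private noncomputable def cnt (a : ℕ) (A : Finset α) : ℝ :=
  (((lev α a).filter (fun S => A ⊆ S)).card : ℝ)

open JohnsonAux in
private theorem cnt_split (a : ℕ) (A : Finset α) (z : α) :
    cnt a A = cnt a (insert z A)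
      + (((lev α a).filter (fun S => A ⊆ S ∧ Disjoint {z} S)).card : ℝ) := by
  simp only [cnt]
  rw [← Nat.cast_add]
  congr 1
  rw [← card_filter_add_card_filter_not (s := (lev α a).filter (fun S => A ⊆ S))
    (fun S => z ∈ S), filter_filter, filter_filter]
  congr 2 <;> ext S <;> simp [insert_subset_iff] <;> tauto

open JohnsonAux in
private theorem cnt_eq (a : ℕ) (A : Finset α) :
    cnt a A = ((if A.card ≤ a then (Fintype.card α - A.card).choose (a - A.card) else 0 : ℕ) : ℝ) := by
  have h := slice_card a A ∅ (disjoint_empty_right A)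
  simp only [disjoint_empty_left, and_true, card_empty, Nat.sub_zero] at h
  rw [cnt, h]

open JohnsonAux in
private theorem supSum_one (a : ℕ) (A : Finset α) :
    supSum a (fun _ => (1 : ℝ)) A = cnt a A := by
  simp only [supSum, cnt, sum_boole]

open JohnsonAux in
private theorem supSum_lin (a : ℕ) (c : α → ℝ) (A : Finset α) :
    supSum a (lin c) A = ∑ i, c i * cnt a (insert i A) := by
  simp only [← supSum_one, supSum, mul_sum]
  rw [sum_comm]
  refine sum_congr rfl fun S _ => ?_
  by_cases h : A ⊆ S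
  · simp [h, insert_subset_iff, lin, sum_ite_mem]
  · simp [h, insert_subset_iff]

open JohnsonAux in
private theorem supSum_singleton (a : ℕ) (φ : Finset α → ℝ) (i : α) :
    supSum a φ {i} = ∑ S ∈ lev α a, (if i ∈ S then φ S else 0) := by
  simp [supSum]

open JohnsonAux in
private theorem sum_supSum_singleton (a : ℕ) (φ : Finset α → ℝ) :
    ∑ i, supSum a φ {i} = (a : ℝ) * ∑ S ∈ lev α a, φ S := by
  simp only [supSum_singleton, mul_sum]
  rw [sum_comm]
  refine sum_congr rfl fun S hS => ?_
  rw [sum_ite_mem, univ_inter, sum_const, nsmul_eq_mul, mem_lev.1 hS]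

open JohnsonAux in
private theorem sum_supSum_pair (a : ℕ) (φ : Finset α → ℝ) (x : α) :
    ∑ y, supSum a φ {x, y} = (a : ℝ) * supSum a φ {x} := by
  simp only [supSum, mul_sum]
  rw [sum_comm]
  refine sum_congr rfl fun S hS => ?_
  by_cases hx : x ∈ S
  · simp [insert_subset_iff, hx, sum_ite_mem, mem_lev.1 hS]
  · simp [insert_subset_iff, hx]

open JohnsonAux in
private theorem sum_pairs (φ : Finset α → ℝ) :
    ∑ x, ∑ y ∈ ({x} : Finset α)ᶜ, φ {x, y} = 2 * ∑ T ∈ lev α 2, φ T := by
  have h := adjoint 1 (fun _ => (1 : ℝ)) φ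
  simp only [downOp, sum_const, nsmul_eq_mul, mul_one, one_mul] at h
  rw [mul_sum]
  have h' : ∑ T ∈ lev α 2, (2 : ℝ) * φ T = ∑ T ∈ lev α 1, upOp φ T := by
    rw [← h]
    exact sum_congr rfl fun T hT => by rw [mem_lev.1 hT]; norm_num
  rw [h']
  simp only [lev, powersetCard_one, sum_map, upOp, Function.Embedding.coeFn_mk]
  exact sum_congr rfl fun x _ => sum_congr rfl fun y _ => by rw [pair_comm]

private theorem sum_offDiag_univ (F : α → α → ℝ) :
    ∑ p ∈ (univ : Finset α).offDiag, F p.1 p.2 = ∑ x, ∑ y, F x y - ∑ x, F x x := by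
  have h : ∑ p ∈ (univ : Finset α) ×ˢ (univ : Finset α), F p.1 p.2
      = ∑ p ∈ (univ : Finset α).diag, F p.1 p.2 + ∑ p ∈ (univ : Finset α).offDiag, F p.1 p.2 := by
    rw [← sum_union (disjoint_diag_offDiag _), diag_union_offDiag]
  rw [sum_product, sum_diag] at h
  linarith

open JohnsonAux in
private theorem sum_split (a : ℕ) (φ : Finset α → ℝ) (x y : α) :
    ∑ S ∈ splitSets a x y, φ S = supSum a φ {x} + supSum a φ {y} - 2 * supSum a φ {x, y} := by
  simp only [splitSets, sum_filter, supSum, mul_sum, ← sum_add_distrib, ← sum_sub_distrib]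
  refine sum_congr rfl fun S _ => ?_
  by_cases hx : x ∈ S <;> by_cases hy : y ∈ S <;>
    simp [hx, hy, Xor', xor_def, insert_subset_iff] <;> ring

open JohnsonAux in
private theorem top_free_eq_zero {a : ℕ} (ha : 0 < a) (hK : a + 1 = Fintype.card α)
    {φ : Finset α → ℝ} (h : Free a φ) : ∀ S ∈ lev α a, φ S = 0 := by
  have htot : ∑ S ∈ lev α a, φ S = 0 := by
    have h1 := sum_supSum_singleton a φ
    simp only [supSum_singleton, h _, sum_const_zero] at h1
    have : (0:ℝ) < a := Nat.cast_pos.2 ha
    nlinarith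
  intro S hS
  have hc : Sᶜ.card = 1 := by rw [card_compl, mem_lev.1 hS]; omega
  obtain ⟨z, hz⟩ := card_eq_one.1 hc
  have hzS : z ∉ S := by rw [← mem_compl, hz]; simp
  have h2 : ∑ U ∈ lev α a, (φ U - if z ∈ U then φ U else 0) = φ S := by
    rw [sum_eq_single S]
    · simp [hzS]
    · intro U hU hne
      have : z ∈ U := by
        by_contra hzU
        apply hne
        refine eq_of_subset_of_card_le (fun w hw => ?_) (by rw [mem_lev.1 hU, mem_lev.1 hS])
        by_contra hwS
        have : w ∈ Sᶜ := mem_compl.2 hwS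
        rw [hz, mem_singleton] at this
        exact hzU (this ▸ hw)
      simp [this]
    · intro h; exact absurd hS h
  rw [sum_sub_distrib, htot, h z] at h2
  linarith

open JohnsonAux in
/-- `slice_ineq` for a function of mean zero, on slices other than the two end ones. -/
private theorem slice_core (m : ℕ) (hm : m + 2 ≤ Fintype.card α) (g : Finset α → ℝ)
    (hg : ∑ S ∈ lev α (m + 1), g S = 0) :
    (∑ S ∈ lev α (m + 1), g S ^ 2)
      + (1 / 2) * ∑ p ∈ (univ : Finset α).offDiag,
          (∑ S ∈ splitSets (m + 1) p.1 p.2, g S) ^ 2 / ((splitSets (m + 1) p.1 p.2).card : ℝ)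
    ≤ (1 / 4) * ∑ S ∈ lev α (m + 1), ∑ x ∈ S, ∑ y ∈ Sᶜ,
        (g S - g (insert y (S.erase x))) ^ 2 := by
  set K := Fintype.card α with hKdef
  set M : ℝ := ((K - 2).choose m : ℝ) with hM
  set P : ℝ := ((if 2 ≤ m + 1 then (K - 3).choose (m - 1) else 0 : ℕ) : ℝ) with hP
  set n2 : ℝ := ((if 2 ≤ m + 1 then (K - 2).choose (m + 1 - 2) else 0 : ℕ) : ℝ) with hn2
  have hMpos : 0 < M := Nat.cast_pos.2 (Nat.choose_pos (by omega))
  have hMcnt : ∀ i j : α, i ≠ j → cnt (m + 1) {i} = cnt (m + 1) {j, i} + M := by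
    intro i j hij
    rw [cnt_split (m + 1) {i} j, slice_card _ _ _ (by simpa using hij)]
    simp [hM, Nat.sub_sub]
    rfl
  have hpair : ∀ i j : α, i ≠ j → cnt (m + 1) ({i, j} : Finset α) = n2 := by
    intro i j hij
    rw [cnt_eq, card_pair hij]
  have htrip : ∀ i x y : α, x ≠ y → i ≠ x → i ≠ y →
      cnt (m + 1) ({i, x, y} : Finset α) = n2 - P := by
    intro i x y hxy hix hiy
    have h := cnt_split (m + 1) ({x, y} : Finset α) i
    rw [hpair x y hxy, slice_card _ _ _ (by simp [hix, hiy]), card_pair hxy,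
      card_singleton] at h
    rw [hP]
    have e : (K - 2 - 1).choose (m + 1 - 2) = (K - 3).choose (m - 1) := by
      congr 1
    rw [e] at h
    linarith
  have hPM : 0 ≤ P ∧ P ≤ M := by
    refine ⟨Nat.cast_nonneg _, ?_⟩
    rw [hP, hM]
    refine Nat.cast_le.2 ?_
    split
    · obtain ⟨k, rfl⟩ : ∃ k, m = k + 1 := ⟨m - 1, by omega⟩
      rw [show K - 2 = (K - 3) + 1 by omega, Nat.choose_succ_succ]
      simp
    · exact Nat.zero_le _
  -- the linear part
  set c : α → ℝ := fun i => supSum (m + 1) g {i} / M with hc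
  have hc0 : ∑ i, c i = 0 := by
    simp only [hc, ← sum_div, sum_supSum_singleton, hg, mul_zero, zero_div]
  set r : Finset α → ℝ := fun S => g S - lin c S with hr
  have hl1 : ∀ i, supSum (m + 1) (lin c) {i} = M * c i := by
    intro i
    rw [supSum_lin, ← add_sum_erase _ _ (mem_univ i), insert_eq_of_mem (mem_singleton_self i)]
    have : ∀ j ∈ univ.erase i, c j * cnt (m + 1) (insert j ({i} : Finset α))
        = c j * (cnt (m + 1) {i} - M) := by
      intro j hj
      rw [hMcnt i j (ne_of_mem_erase hj).symm, add_sub_cancel_right]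
    rw [sum_congr rfl this, ← sum_mul, sum_erase_eq_sub (mem_univ i), hc0]
    ring
  have hl2 : ∀ x y : α, x ≠ y → supSum (m + 1) (lin c) {x, y} = P * (c x + c y) := by
    intro x y hxy
    have : ∀ i, c i * cnt (m + 1) (insert i ({x, y} : Finset α))
        = c i * (n2 - P) + (if i = x then c i * P else 0) + (if i = y then c i * P else 0) := by
      intro i
      by_cases hix : i = x
      · subst hix
        simp [hxy, hpair i y hxy]; ring
      · by_cases hiy : i = y
        · subst hiy
          rw [insert_eq_of_mem (by simp), hpair x i hxy]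
          simp [hix]; ring
        · simp [hix, hiy, htrip i x y hxy hix hiy]
    rw [supSum_lin, sum_congr rfl fun i _ => this i]
    simp only [sum_add_distrib, sum_ite_eq', mem_univ, if_true, ← sum_mul, hc0]
    ring
  have hfree : Free (m + 1) r := by
    intro i
    rw [← supSum_singleton]
    have : supSum (m + 1) r {i} = supSum (m + 1) g {i} - supSum (m + 1) (lin c) {i} := by
      simp only [supSum, hr, ← sum_sub_distrib]
      exact sum_congr rfl fun S _ => by split <;> simp
    rw [this, hl1, hc]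
    field_simp
    ring
  -- norms
  set X : ℝ := ∑ S ∈ lev α (m + 1), lin c S ^ 2 with hX
  set Y : ℝ := ∑ S ∈ lev α (m + 1), r S ^ 2 with hY
  have hXc : X = M * ∑ i, c i ^ 2 := by
    simp only [hX, pow_two, sum_lin_mul, ← supSum_singleton, hl1, mul_sum]
    exact sum_congr rfl fun i _ => by ring
  have hgeq : ∀ S, g S = lin c S + r S := fun S => by simp [hr]
  have hnorm : ∑ S ∈ lev α (m + 1), g S ^ 2 = X + Y := by
    have e : ∀ S, g S ^ 2 = lin c S ^ 2 + r S ^ 2 + 2 * (lin c S * r S) := fun S => by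
      rw [hgeq S]; ring
    simp only [e, sum_add_distrib, ← mul_sum, sum_lin_mul_eq_zero hfree]
    ring
  -- the energy
  have hupl : ∀ T ∈ lev α m, upOp (lin c) T = ((K : ℝ) - m - 1) * lin c T := by
    intro T hT
    have hle : m ≤ K := by omega
    have e : ∀ y ∈ Tᶜ, lin c (insert y T) = c y + lin c T := fun y hy => by
      simp [lin, sum_insert (mem_compl.1 hy)]
    have e2 : ∑ y ∈ Tᶜ, c y = - lin c T := by
      have := sum_add_sum_compl T c
      rw [hc0] at this
      simp only [lin]; linarith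
    rw [upOp, sum_congr rfl e, sum_add_distrib, e2, sum_const, nsmul_eq_mul, card_compl,
      mem_lev.1 hT, Nat.cast_sub hle]
    ring
  have hup2 : ∑ T ∈ lev α m, upOp g T ^ 2
      = ((K : ℝ) - m - 1) * m * X + ∑ T ∈ lev α m, upOp r T ^ 2 := by
    have e : ∀ T ∈ lev α m, upOp g T ^ 2
        = ((K : ℝ) - m - 1) * (lin c T * upOp (lin c) T) + upOp r T ^ 2
          + 2 * ((K : ℝ) - m - 1) * (lin c T * upOp r T) := by
      intro T hT
      have : upOp g T = upOp (lin c) T + upOp r T := by
        simp only [upOp, ← sum_add_distrib, ← hgeq]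
      rw [this, hupl T hT]; ring
    rw [sum_congr rfl e, sum_add_distrib, sum_add_distrib, ← mul_sum, ← mul_sum,
      sum_lin_mul_eq_zero hfree.upOp, ← adjoint m (lin c) (lin c)]
    have ed : ∀ S ∈ lev α (m + 1), downOp (lin c) S * lin c S = (m : ℝ) * lin c S ^ 2 := by
      intro S hS
      have : downOp (lin c) S = (m : ℝ) * lin c S := by
        simp only [downOp, lin]
        rw [sum_congr rfl fun x hx => sum_erase_eq_sub (f := c) hx, sum_sub_distrib, sum_const,
          nsmul_eq_mul, mem_lev.1 hS]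
        push_cast; ring
      rw [this]; ring
    rw [sum_congr rfl ed, ← mul_sum, ← hX]
    ring
  have hKr : (m : ℝ) + 2 ≤ K := by exact_mod_cast hm
  -- facts on the free part
  have hY0 : 0 ≤ Y := sum_nonneg fun _ _ => sq_nonneg _
  have hzero : (m = 0 ∨ m + 2 = K) → ∀ S ∈ lev α (m + 1), r S = 0 := by
    intro h S hS
    rcases h with rfl | h
    · obtain ⟨i, rfl⟩ := card_eq_one.1 (mem_lev.1 hS)
      rw [← hfree i, sum_eq_single ({i} : Finset α)]
      · simp
      · intro U hU hne
        rw [if_neg fun h => hne (eq_of_subset_of_card_le (singleton_subset_iff.2 h)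
          (by simp [mem_lev.1 hU])).symm]
      · intro h; exact absurd hS h
    · exact top_free_eq_zero (Nat.succ_pos m) (by omega) hfree S hS
  have hup : ∑ T ∈ lev α m, upOp r T ^ 2
      ≤ (((m : ℝ) + 1) * ((K : ℝ) - m) - (2 * K - 2)) * Y := by
    rcases Nat.eq_zero_or_pos m with rfl | hpos
    · have hz := hzero (Or.inl rfl)
      have hYz : Y = 0 := sum_eq_zero fun S hS => by rw [hz S hS]; ring
      rw [hYz, mul_zero, sum_eq_zero]
      intro T hT
      have : upOp r T = 0 := sum_eq_zero fun y hy => hz _ (mem_lev.2 (by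
        rw [card_insert_of_notMem (mem_compl.1 hy), mem_lev.1 hT]))
      rw [this]; ring
    · obtain ⟨j, rfl⟩ : ∃ j, m = j + 1 := ⟨m - 1, by omega⟩
      refine (up_bound j (by omega) r hfree).trans (le_of_eq ?_)
      rw [← hKdef, hY]; push_cast; ring
  set R2 : ℝ := ∑ T ∈ lev α 2, supSum (m + 1) r T ^ 2 with hR2
  have hR : 2 * R2 ≤ ((K : ℝ) - 2) * M * Y := by
    have hnn : 0 ≤ ((K : ℝ) - 2) * M * Y := by
      have : (0:ℝ) ≤ (K : ℝ) - 2 := by linarith [Nat.cast_nonneg (α := ℝ) m]
      positivity
    by_cases hcase : m = 0 ∨ m + 2 = K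
    · have : R2 = 0 := sum_eq_zero fun T _ => by
        rw [show supSum (m + 1) r T = 0 from sum_eq_zero fun S hS => by
          rw [hzero hcase S hS, ite_self]]
        ring
      linarith
    · push Not at hcase
      obtain ⟨j, rfl⟩ : ∃ j, m = j + 1 := ⟨m - 1, by omega⟩
      have h1 := pair_bound j (by omega) r hfree
      have h2 : ((K - 4).choose j : ℝ) ≤ M := by
        rw [hM]
        refine Nat.cast_le.2 ?_
        calc (K - 4).choose j ≤ (K - 3).choose j := Nat.choose_le_choose _ (by omega)
          _ ≤ (K - 2).choose (j + 1) := by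
            rw [show K - 2 = (K - 3) + 1 by omega, Nat.choose_succ_succ]; simp
      have h3 : (2:ℝ) ≤ (K : ℝ) - 2 := by
        have : 4 ≤ K := by omega
        have : (4:ℝ) ≤ K := by exact_mod_cast this
        linarith
      rw [← hKdef] at h1
      calc 2 * R2 ≤ 2 * (((K - 4).choose j : ℝ) * Y) := by linarith
        _ ≤ 2 * (M * Y) := by
          have := mul_le_mul_of_nonneg_right h2 hY0; linarith
        _ ≤ ((K : ℝ) - 2) * M * Y := by
          rw [mul_assoc]; exact mul_le_mul_of_nonneg_right h3 (by positivity)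
  -- the split sets
  have hone : ∀ x y : α, x ≠ y → ((splitSets (m + 1) x y).card : ℝ) = 2 * M := by
    intro x y hxy
    have := sum_split (m + 1) (fun _ => (1 : ℝ)) x y
    simp only [sum_const, nsmul_eq_mul, mul_one, supSum_one] at this
    have h1 := hMcnt x y hxy
    have h2 := hMcnt y x hxy.symm
    rw [pair_comm y x] at h1
    linarith
  have hq : ∀ x y : α, x ≠ y → ∑ S ∈ splitSets (m + 1) x y, g S
      = (M - 2 * P) * (c x + c y) - 2 * supSum (m + 1) r {x, y} := by
    intro x y hxy
    have hsum : ∀ A, supSum (m + 1) g A = supSum (m + 1) (lin c) A + supSum (m + 1) r A := by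
      intro A
      simp only [supSum, ← sum_add_distrib]
      exact sum_congr rfl fun S _ => by split <;> simp [hgeq]
    have hz : ∀ i, supSum (m + 1) r {i} = 0 := fun i => by rw [supSum_singleton]; exact hfree i
    rw [sum_split, hsum, hsum, hsum, hl1, hl1, hl2 x y hxy, hz, hz]
    ring
  have hB : ∑ p ∈ (univ : Finset α).offDiag,
        (∑ S ∈ splitSets (m + 1) p.1 p.2, g S) ^ 2 / ((splitSets (m + 1) p.1 p.2).card : ℝ)
      = ((M - 2 * P) ^ 2 * (2 * K - 4) * (∑ i, c i ^ 2) + 8 * R2) / (2 * M) := by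
    have e : ∀ p ∈ (univ : Finset α).offDiag,
        (∑ S ∈ splitSets (m + 1) p.1 p.2, g S) ^ 2 / ((splitSets (m + 1) p.1 p.2).card : ℝ)
        = ((M - 2 * P) * (c p.1 + c p.2) - 2 * supSum (m + 1) r {p.1, p.2}) ^ 2 / (2 * M) := by
      intro p hp
      have hne := (mem_offDiag.1 hp).2.2
      rw [hq _ _ hne, hone _ _ hne]
    rw [sum_congr rfl e, ← sum_div]
    congr 1
    have hz : ∀ i, supSum (m + 1) r {i} = 0 := fun i => by rw [supSum_singleton]; exact hfree i
    have hd : ∀ x : α, supSum (m + 1) r {x, x} = 0 := fun x => by simpa using hz x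
    have hrow : ∀ x, ∑ y, supSum (m + 1) r {x, y} = 0 := fun x => by
      rw [sum_supSum_pair, hz, mul_zero]
    have hcol : ∀ y, ∑ x, supSum (m + 1) r {x, y} = 0 := fun y => by
      rw [sum_congr rfl fun x _ => by rw [pair_comm], hrow]
    have hsq : ∑ x, ∑ y, supSum (m + 1) r {x, y} ^ 2 = 2 * R2 := by
      rw [hR2, ← sum_pairs (fun T => supSum (m + 1) r T ^ 2)]
      refine sum_congr rfl fun x _ => ?_
      rw [compl_singleton, sum_erase]
      rw [hd]; ring
    rw [sum_offDiag_univ (fun x y => ((M - 2 * P) * (c x + c y)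
      - 2 * supSum (m + 1) r {x, y}) ^ 2)]
    have e2 : ∀ x y : α, ((M - 2 * P) * (c x + c y) - 2 * supSum (m + 1) r {x, y}) ^ 2
        = (M - 2 * P) ^ 2 * c x ^ 2 + (M - 2 * P) ^ 2 * c y ^ 2
          + 2 * (M - 2 * P) ^ 2 * (c x * c y)
          - 4 * (M - 2 * P) * (c x * supSum (m + 1) r {x, y})
          - 4 * (M - 2 * P) * (c y * supSum (m + 1) r {x, y})
          + 4 * supSum (m + 1) r {x, y} ^ 2 := fun x y => by ring
    have h5 : ∑ x, ∑ y, c y * supSum (m + 1) r {x, y} = 0 := by
      rw [sum_comm]; exact sum_eq_zero fun y _ => by rw [← mul_sum, hcol, mul_zero]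
    have hdiag : ∑ x, ((M - 2 * P) * (c x + c x) - 2 * supSum (m + 1) r {x, x}) ^ 2
        = 4 * (M - 2 * P) ^ 2 * ∑ x, c x ^ 2 := by
      rw [mul_sum]
      exact sum_congr rfl fun x _ => by rw [hd]; ring
    rw [hdiag]
    simp only [e2, sum_add_distrib, sum_sub_distrib, ← mul_sum, hrow, hsq, h5, hc0,
      sum_const, nsmul_eq_mul, mul_zero, card_univ, ← hKdef]
    ring
  rw [energy_eq m g, hnorm, hup2, ← hKdef, hB]
  have hC2 : 0 ≤ ∑ i, c i ^ 2 := sum_nonneg fun _ _ => sq_nonneg _
  have hPsq : (M - 2 * P) ^ 2 ≤ M ^ 2 := by nlinarith [hPM.1, hPM.2]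
  have hB' : (1 / 2) * (((M - 2 * P) ^ 2 * (2 * K - 4) * (∑ i, c i ^ 2) + 8 * R2) / (2 * M))
      ≤ ((K : ℝ) / 2 - 1) * X + ((K : ℝ) - 2) * Y := by
    rw [← mul_div_assoc, div_le_iff₀ (by positivity), hXc]
    have h2K : 0 ≤ (2 * (K : ℝ) - 4) := by linarith [Nat.cast_nonneg (α := ℝ) m]
    nlinarith [mul_le_mul_of_nonneg_right hPsq (mul_nonneg h2K hC2), hR]
  nlinarith [hB', hup]

/-- Variance plus the split-set term is at most a quarter of the switch energy. -/
theorem slice_ineq (a : ℕ) (g : Finset α → ℝ) :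
    (∑ S ∈ (univ : Finset α).powersetCard a,
        (g S - meanOn ((univ : Finset α).powersetCard a) g) ^ 2)
      + (1 / 2) * ∑ p ∈ (univ : Finset α).offDiag, ((splitSets a p.1 p.2).card : ℝ) *
          (meanOn (splitSets a p.1 p.2) g - meanOn ((univ : Finset α).powersetCard a) g) ^ 2
    ≤ (1 / 4) * ∑ S ∈ (univ : Finset α).powersetCard a, ∑ x ∈ S, ∑ y ∈ Sᶜ,
        (g S - g (insert y (S.erase x))) ^ 2 := by
  set Ω := (univ : Finset α).powersetCard a with hΩ
  set μ := meanOn Ω g with hμ
  by_cases hmid : 0 < a ∧ a < Fintype.card α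
  · obtain ⟨m, rfl⟩ : ∃ m, a = m + 1 := ⟨a - 1, by omega⟩
    have hne : (Ω.card : ℝ) ≠ 0 := by
      rw [hΩ, card_powersetCard, card_univ, Nat.cast_ne_zero]
      exact (Nat.choose_pos hmid.2.le).ne'
    have hg0 : ∑ S ∈ JohnsonAux.lev α (m + 1), (g S - μ) = 0 := by
      show ∑ S ∈ Ω, (g S - μ) = 0
      rw [sum_sub_distrib, sum_const, nsmul_eq_mul, hμ, meanOn, mul_div_cancel₀ _ hne, sub_self]
    have h := slice_core m (by omega) (fun S => g S - μ) hg0
    simp only [sub_sub_sub_cancel_right] at h
    refine le_of_eq_of_le ?_ h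
    congr 2
    refine sum_congr rfl fun p _ => ?_
    rcases Nat.eq_zero_or_pos (splitSets (m + 1) p.1 p.2).card with h0 | h0
    · simp [h0]
    · have hp : ((splitSets (m + 1) p.1 p.2).card : ℝ) ≠ 0 := Nat.cast_ne_zero.2 h0.ne'
      rw [sum_sub_distrib, sum_const, nsmul_eq_mul, meanOn]
      field_simp
  · have hsub : ∀ S ∈ Ω, ∀ T ∈ Ω, S = T := by
      intro S hS T hT
      simp only [hΩ, mem_powersetCard_univ] at hS hT
      rcases Nat.eq_zero_or_pos a with rfl | ha
      · rw [card_eq_zero.1 hS, card_eq_zero.1 hT]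
      · have hK : Fintype.card α ≤ a := by omega
        rw [eq_univ_of_card S (by linarith [card_le_univ S]),
          eq_univ_of_card T (by linarith [card_le_univ T])]
    have hvar : ∑ S ∈ Ω, (g S - μ) ^ 2 = 0 := by
      refine sum_eq_zero fun S hS => ?_
      have : μ = g S := by
        have e : ∑ T ∈ Ω, g T = ∑ _T ∈ Ω, g S := sum_congr rfl fun T hT => by rw [hsub T hT S hS]
        rw [hμ, meanOn, e, sum_const, nsmul_eq_mul,
          mul_div_cancel_left₀ _ (Nat.cast_ne_zero.2 (card_ne_zero.2 ⟨S, hS⟩))]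
      rw [this]; ring
    have hD : ∀ p : α × α, splitSets a p.1 p.2 = ∅ := by
      intro p
      rw [splitSets, filter_eq_empty_iff]
      intro S hS
      simp only [mem_powersetCard_univ] at hS
      rcases Nat.eq_zero_or_pos a with rfl | ha
      · rw [card_eq_zero.1 hS]; simp [Xor']
      · have hK : Fintype.card α ≤ a := by omega
        rw [eq_univ_of_card S (by linarith [card_le_univ S])]; simp [Xor']
    rw [hvar]
    simp only [hD, card_empty, Nat.cast_zero, zero_mul, sum_const_zero, mul_zero, add_zero]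
    positivity

end Vale.Agent.P335
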