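import Mathlib

/-! From a Poincaré inequality to total variation convergence. -/

namespace Vale.Agent.P335

open Finset
open scoped Classical

/-- The quadratic form of a matrix. -/
def markovForm {Ω : Type*} [Fintype Ω] (P : Matrix Ω Ω ℝ) (f g : Ω → ℝ) : ℝ :=
  ∑ x, ∑ y, P x y * (f x * g y)

section

variable {Ω : Type*} [Fintype Ω] [DecidableEq Ω] {P : Matrix Ω Ω ℝ}

omit [DecidableEq Ω] in
lemma markovForm_self (hsym : ∀ x y, P x y = P y x) (hrow : ∀ x, ∑ y, P x y = 1) (f : Ω → ℝ) :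
    ∑ x, ∑ y, P x y * (f x - f y) ^ 2 = 2 * ∑ x, f x ^ 2 - 2 * markovForm P f f := by
  have hcol : ∀ y, ∑ x, P x y = 1 := fun y => by simp only [hsym _ y, hrow]
  have e : ∀ x y, P x y * (f x - f y) ^ 2
      = P x y * f x ^ 2 + P x y * f y ^ 2 - 2 * (P x y * (f x * f y)) := fun x y => by ring
  simp only [e, sum_sub_distrib, sum_add_distrib]
  rw [sum_comm (f := fun x y => P x y * f y ^ 2)]
  simp only [← sum_mul, hrow, hcol, one_mul, ← mul_sum, markovForm]
  ring

lemma markovForm_nonneg (hsym : ∀ x y, P x y = P y x) (hnn : ∀ x y, 0 ≤ P x y)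
    (hrow : ∀ x, ∑ y, P x y = 1) (hlazy : ∀ x, 1 / 2 ≤ P x x) (f : Ω → ℝ) :
    0 ≤ markovForm P f f := by
  have hcol : ∀ y, ∑ x, P x y = 1 := fun y => by simp only [hsym _ y, hrow]
  have key : 4 * markovForm P f f
      = ∑ x, ∑ y, (2 * P x y - if x = y then 1 else 0) * (f x + f y) ^ 2 + 2 * ∑ x, f x ^ 2
        - 2 * ∑ x, f x ^ 2 := by
    have e : ∀ x y, (2 * P x y - if x = y then 1 else 0) * (f x + f y) ^ 2
        = 2 * (P x y * f x ^ 2) + 2 * (P x y * f y ^ 2) + 4 * (P x y * (f x * f y))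
          - if x = y then (f x + f y) ^ 2 else 0 := fun x y => by
      split_ifs <;> ring
    simp only [e, sum_sub_distrib, sum_add_distrib, sum_ite_eq, mem_univ, if_true]
    rw [sum_comm (f := fun x y => 2 * (P x y * f y ^ 2))]
    simp only [← mul_sum, ← sum_mul, hrow, hcol, one_mul, markovForm]
    have : ∑ x, (f x + f x) ^ 2 = 4 * ∑ x, f x ^ 2 := by
      rw [mul_sum]; exact sum_congr rfl fun x _ => by ring
    rw [this]
    ring
  have h : 0 ≤ ∑ x, ∑ y, (2 * P x y - if x = y then 1 else 0) * (f x + f y) ^ 2 :=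
    sum_nonneg fun x _ => sum_nonneg fun y _ => mul_nonneg (by
      split_ifs with h
      · subst h; linarith [hlazy x]
      · linarith [hnn x y]) (sq_nonneg _)
  linarith

lemma markov_step (hsym : ∀ x y, P x y = P y x) (hnn : ∀ x y, 0 ≤ P x y)
    (hrow : ∀ x, ∑ y, P x y = 1) (hlazy : ∀ x, 1 / 2 ≤ P x x) {γ : ℝ}
    (hpo : ∀ f : Ω → ℝ, ∑ x, f x = 0 →
      γ * ∑ x, f x ^ 2 ≤ (1 / 2) * ∑ x, ∑ y, P x y * (f x - f y) ^ 2)
    {f : Ω → ℝ} (hf : ∑ x, f x = 0) :
    ∑ x, P.mulVec f x ^ 2 ≤ Real.exp (-(2 * γ)) * ∑ x, f x ^ 2 ∧ ∑ x, P.mulVec f x = 0 := by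
  have hcol : ∀ y, ∑ x, P x y = 1 := fun y => by simp only [hsym _ y, hrow]
  set g := P.mulVec f with hg
  have hg0 : ∑ x, g x = 0 := by
    simp only [hg, Matrix.mulVec, dotProduct]
    rw [sum_comm]
    simp only [← sum_mul, hcol, one_mul, hf]
  refine ⟨?_, hg0⟩
  have hb : ∀ u : Ω → ℝ, ∑ x, u x = 0 → markovForm P u u ≤ Real.exp (-γ) * ∑ x, u x ^ 2 := by
    intro u hu
    have h1 := hpo u hu
    rw [markovForm_self hsym hrow] at h1
    have h2 := mul_le_mul_of_nonneg_right (Real.add_one_le_exp (-γ))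
      (show 0 ≤ ∑ x, u x ^ 2 from sum_nonneg fun x _ => sq_nonneg _)
    linarith
  have hG : markovForm P g f = ∑ x, g x ^ 2 := by
    simp only [markovForm]
    refine sum_congr rfl fun x _ => ?_
    rw [show ∑ y, P x y * (g x * f y) = g x * ∑ y, P x y * f y by
      rw [mul_sum]; exact sum_congr rfl fun y _ => by ring, sq]
    rfl
  have hGs : markovForm P f g = markovForm P g f := by
    simp only [markovForm]
    rw [sum_comm]
    exact sum_congr rfl fun x _ => sum_congr rfl fun y _ => by rw [hsym y x]; ring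
  have hquad : ∀ s : ℝ, 0 ≤ markovForm P f f * (s * s) + (-2 * markovForm P g f) * s
      + markovForm P g g := fun s => by
    have h := markovForm_nonneg hsym hnn hrow hlazy (fun x => g x - s * f x)
    have e : markovForm P (fun x => g x - s * f x) (fun x => g x - s * f x)
        = markovForm P g g - s * markovForm P g f - s * markovForm P f g
          + s * s * markovForm P f f := by
      simp only [markovForm, mul_sum, ← sum_sub_distrib, ← sum_add_distrib]
      exact sum_congr rfl fun x _ => sum_congr rfl fun y _ => by ring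
    rw [e, hGs] at h
    linarith
  have hd := discrim_le_zero hquad
  rw [discrim, hG] at hd
  set G2 := ∑ x, g x ^ 2
  set F2 := ∑ x, f x ^ 2
  have hF0 : 0 ≤ F2 := sum_nonneg fun x _ => sq_nonneg _
  have hG0 : 0 ≤ G2 := sum_nonneg fun x _ => sq_nonneg _
  have h3 := mul_le_mul (hb f hf) (hb g hg0) (markovForm_nonneg hsym hnn hrow hlazy g)
    (mul_nonneg (Real.exp_pos _).le hF0)
  have h4 : G2 * G2 ≤ Real.exp (-(2 * γ)) * F2 * G2 := by
    rw [show -(2 * γ) = -γ + -γ by ring, Real.exp_add]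
    linarith
  rcases hG0.eq_or_lt with h0 | h0
  · rw [← h0]; exact mul_nonneg (Real.exp_pos _).le hF0
  · exact le_of_mul_le_mul_right h4 h0

end

theorem tv_of_poincare {Ω : Type*} [Fintype Ω] [DecidableEq Ω] (P : Matrix Ω Ω ℝ)
    (hsym : ∀ x y, P x y = P y x) (hnn : ∀ x y, 0 ≤ P x y) (hrow : ∀ x, ∑ y, P x y = 1)
    (hlazy : ∀ x, 1 / 2 ≤ P x x) {γ : ℝ} (hγ : 0 < γ)
    (hpo : ∀ f : Ω → ℝ, ∑ x, f x = 0 →
      γ * ∑ x, f x ^ 2 ≤ (1 / 2) * ∑ x, ∑ y, P x y * (f x - f y) ^ 2)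
    (t : ℕ) (ht : Real.log (Fintype.card Ω : ℝ) / 2 + 1 ≤ γ * t) (x : Ω) :
    (1 / 2) * ∑ y, |(P ^ t) x y - 1 / (Fintype.card Ω : ℝ)| ≤ 1 / 4 := by
  set N := (Fintype.card Ω : ℝ)
  have hN : 0 < N := Nat.cast_pos.2 (Fintype.card_pos_iff.2 ⟨x⟩)
  set f : Ω → ℝ := fun y => (if y = x then 1 else 0) - 1 / N
  have hf : ∑ y, f y = 0 := by
    simp only [f, sum_sub_distrib, sum_ite_eq', mem_univ, if_true, sum_const, card_univ,
      nsmul_eq_mul]
    rw [mul_one_div, div_self hN.ne', sub_self]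
  have hf2 : ∑ y, f y ^ 2 ≤ 1 := by
    have e : ∀ y, f y ^ 2 = (if y = x then 1 - 2 / N else 0) + (1 / N) ^ 2 := fun y => by
      simp only [f]; split_ifs <;> ring
    simp only [e, sum_add_distrib, sum_ite_eq', mem_univ, if_true, sum_const, card_univ,
      nsmul_eq_mul]
    have : N * (1 / N) ^ 2 = 1 / N := by field_simp
    rw [this]
    have : 0 ≤ 1 / N := by positivity
    linarith [show 2 / N = 2 * (1 / N) by ring]
  have hdec : ∀ s : ℕ, ∑ y, (P ^ s).mulVec f y ^ 2 ≤ Real.exp (-(2 * γ)) ^ s * ∑ y, f y ^ 2 ∧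
      ∑ y, (P ^ s).mulVec f y = 0 := by
    intro s
    induction s with
    | zero => simp [hf]
    | succ s ih =>
      rw [pow_succ', ← Matrix.mulVec_mulVec, pow_succ', mul_assoc]
      obtain ⟨h1, h2⟩ := markov_step hsym hnn hrow hlazy hpo ih.2
      exact ⟨h1.trans (mul_le_mul_of_nonneg_left ih.1 (Real.exp_pos _).le), h2⟩
  have hPs : ∀ a b, (P ^ t) a b = (P ^ t) b a := fun a b => by
    have h1 : P.transpose = P := Matrix.ext fun a b => hsym b a
    have h2 : (P ^ t).transpose = P ^ t := by rw [Matrix.transpose_pow, h1]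
    exact congrFun (congrFun h2 b) a
  have hrowt : ∀ a, ∑ b, (P ^ t) a b = 1 := fun a => by
    have h1 : P.mulVec (fun _ => (1:ℝ)) = fun _ => 1 := by
      funext y; simp [Matrix.mulVec, dotProduct, hrow]
    have h2 : ∀ s : ℕ, (P ^ s).mulVec (fun _ => (1:ℝ)) = fun _ => 1 := fun s => by
      induction s with
      | zero => simp
      | succ s ih => rw [pow_succ, ← Matrix.mulVec_mulVec, h1, ih]
    simpa [Matrix.mulVec, dotProduct] using congrFun (h2 t) a
  have hPf : ∀ y, (P ^ t).mulVec f y = (P ^ t) x y - 1 / N := fun y => by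
    simp only [Matrix.mulVec, dotProduct, f, mul_sub, mul_ite, mul_one, mul_zero, sum_sub_distrib,
      sum_ite_eq', mem_univ, if_true, ← sum_mul, hrowt, one_mul, hPs x y]
  have hd := (hdec t).1
  simp only [hPf] at hd
  have hcs := sum_mul_sq_le_sq_mul_sq (univ : Finset Ω) (fun y => |(P ^ t) x y - 1 / N|)
    (fun _ => 1)
  simp only [mul_one, one_pow, sum_const, card_univ, nsmul_eq_mul, sq_abs] at hcs
  have hexp : Real.exp (-(2 * γ)) ^ t * N ≤ 1 / 4 := by
    rw [← Real.exp_nat_mul]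
    have h1 : (t:ℝ) * -(2 * γ) ≤ -Real.log N + -2 := by linarith
    refine (mul_le_mul_of_nonneg_right (Real.exp_le_exp.2 h1) hN.le).trans ?_
    rw [Real.exp_add, Real.exp_neg, Real.exp_log hN, Real.exp_neg]
    have h2 : (4:ℝ) ≤ Real.exp 2 := by
      rw [show (2:ℝ) = 1 + 1 by norm_num, Real.exp_add]
      have := Real.add_one_le_exp (1:ℝ)
      exact le_trans (by norm_num) (mul_le_mul this this (by norm_num) (Real.exp_pos _).le)
    have h3 := inv_anti₀ (by norm_num : (0:ℝ) < 4) h2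
    field_simp at h3 ⊢
    linarith
  have hp := pow_nonneg (Real.exp_pos (-(2 * γ))).le t
  have h6 := mul_le_mul_of_nonneg_right (hd.trans (mul_le_of_le_one_right hp hf2)) hN.le
  have hsum : ∑ y, |(P ^ t) x y - 1 / N| ≤ 1 / 2 :=
    (abs_le_of_sq_le_sq' (hcs.trans (by linarith)) (by norm_num)).2
  linarith

end Vale.Agent.P335
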