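import Mathlib
import Vale.Agent.P335.Defs
import Vale.Agent.P335.Basic
import Vale.Agent.P335.AvgLemmas
import Vale.Agent.P335.Johnson

/-! The slice inequality on the fibres of one vertex pair. -/

namespace Vale.Agent.P335

open Finset
open scoped Classical

variable {n : ℕ} {d : Fin n → ℕ}

/-- The vertices adjacent to exactly one of `u`, `v`. -/
noncomputable def exclusiveSet (u v : Fin n) (G : Realization d) : Finset (Fin n) :=
  univ.filter (fun w => w ≠ u ∧ w ≠ v ∧ adjN G u w + adjN G v w = 1)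

/-- The exclusive vertices of the fibre of `G₀` that are adjacent to `u` in `H`. -/
noncomputable def sliceMap (u v : Fin n) (G₀ H : Realization d) :
    Finset {w // w ∈ exclusiveSet u v G₀} :=
  univ.filter (fun w => adjN H u w.1 = 1)

section fibre

variable {u v : Fin n} (huv : u ≠ v) (G₀ : Realization d)

theorem mem_exclusiveSet {w : Fin n} :
    w ∈ exclusiveSet u v G₀ ↔ w ≠ u ∧ w ≠ v ∧ adjN G₀ u w + adjN G₀ v w = 1 := by
  simp [exclusiveSet]

include huv in
theorem exclusive_sum {H : Realization d} (hH : H ∈ cls (pairKey u v) G₀)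
    {w : Fin n} (hw : w ∈ exclusiveSet u v G₀) : adjN H u w + adjN H v w = 1 := by
  obtain ⟨h1, h2, h3⟩ := (mem_exclusiveSet G₀).1 hw
  rw [mem_cls, pairKey_eq_iff huv] at hH
  rw [hH.2.2 w h1 h2, h3]

include huv in
theorem fibre_fixed_u {H : Realization d} (hH : H ∈ cls (pairKey u v) G₀) {w : Fin n}
    (hw : w ∉ exclusiveSet u v G₀) : adjN H u w = adjN G₀ u w := by
  rw [mem_cls, pairKey_eq_iff huv] at hH
  by_cases hwu : w = u
  · subst hwu; simp [adjN_self]
  by_cases hwv : w = v
  · subst hwv; exact hH.2.1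
  have h := hH.2.2 w hwu hwv
  have hne : adjN G₀ u w + adjN G₀ v w ≠ 1 := fun h' =>
    hw ((mem_exclusiveSet G₀).2 ⟨hwu, hwv, h'⟩)
  have := adjN_le_one G₀ u w
  have := adjN_le_one G₀ v w
  have := adjN_le_one H u w
  have := adjN_le_one H v w
  omega

include huv in
theorem sliceMap_inj {H K : Realization d} (hH : H ∈ cls (pairKey u v) G₀)
    (hK : K ∈ cls (pairKey u v) G₀) (h : sliceMap u v G₀ H = sliceMap u v G₀ K) : H = K := by
  have hu : ∀ w, adjN H u w = adjN K u w := by
    intro w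
    by_cases hw : w ∈ exclusiveSet u v G₀
    · have hiff := (Finset.ext_iff.1 h) ⟨w, hw⟩
      simp only [sliceMap, Finset.mem_filter, Finset.mem_univ, true_and] at hiff
      have := adjN_le_one H u w
      have := adjN_le_one K u w
      omega
    · rw [fibre_fixed_u huv G₀ hH hw, fibre_fixed_u huv G₀ hK hw]
  have hk : pairKey u v H = pairKey u v K := (mem_cls.1 hH).trans (mem_cls.1 hK).symm
  rw [pairKey_eq_iff huv] at hk
  have hv : ∀ w, adjN H v w = adjN K v w := by
    intro w
    by_cases hwu : w = u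
    · subst hwu; rw [adjN_comm H, adjN_comm K]; exact hu v
    by_cases hwv : w = v
    · subst hwv; simp [adjN_self]
    have := hk.2.2 w hwu hwv
    have := hu w
    omega
  refine realization_ext (fun i j => ?_)
  by_cases hiu : i = u
  · subst hiu; exact hu j
  by_cases hiv : i = v
  · subst hiv; exact hv j
  by_cases hju : j = u
  · subst hju; rw [adjN_comm H, adjN_comm K]; exact hu i
  by_cases hjv : j = v
  · subst hjv; rw [adjN_comm H, adjN_comm K]; exact hv i
  exact hk.1 i j hiu hiv hju hjv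

include huv in
theorem sliceMap_card {H : Realization d} (hH : H ∈ cls (pairKey u v) G₀) :
    (sliceMap u v G₀ H).card = (sliceMap u v G₀ G₀).card := by
  have key : ∀ K : Realization d, (sliceMap u v G₀ K).card =
      ∑ w ∈ exclusiveSet u v G₀, adjN K u w := by
    intro K
    rw [sliceMap, Finset.card_filter, ← Finset.sum_coe_sort (exclusiveSet u v G₀)]
    refine Finset.sum_congr rfl (fun w _ => ?_)
    have := adjN_le_one K u w.1
    split <;> omega
  rw [key, key]
  have e1 := Finset.sum_add_sum_compl (exclusiveSet u v G₀) (fun w => adjN H u w)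
  have e2 := Finset.sum_add_sum_compl (exclusiveSet u v G₀) (fun w => adjN G₀ u w)
  have e3 : ∑ w ∈ (exclusiveSet u v G₀)ᶜ, adjN H u w =
      ∑ w ∈ (exclusiveSet u v G₀)ᶜ, adjN G₀ u w :=
    Finset.sum_congr rfl (fun w hw => fibre_fixed_u huv G₀ hH (Finset.mem_compl.1 hw))
  rw [sum_adjN] at e1 e2
  omega

theorem distinct4_of_exclusive (huv : u ≠ v) {x y : Fin n} (hx : x ∈ exclusiveSet u v G₀)
    (hy : y ∈ exclusiveSet u v G₀) (hxy : x ≠ y) : Distinct4 u v x y := by
  rw [mem_exclusiveSet] at hx hy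
  exact ⟨huv, hx.1.symm, hy.1.symm, hx.2.1.symm, hy.2.1.symm, hxy⟩

include huv in
theorem crossMatched_iff {H : Realization d} (hH : H ∈ cls (pairKey u v) G₀)
    (x y : {w // w ∈ exclusiveSet u v G₀}) :
    CrossMatched u v x.1 y.1 H ↔
      Xor' (x ∈ sliceMap u v G₀ H) (y ∈ sliceMap u v G₀ H) := by
  have hx := exclusive_sum huv G₀ hH x.2
  have hy := exclusive_sum huv G₀ hH y.2
  simp only [sliceMap, Finset.mem_filter, Finset.mem_univ, true_and, CrossMatched, Xor',
    adjN] at hx hy ⊢
  by_cases a : H.1.Adj u x.1 <;> by_cases b : H.1.Adj u y.1 <;>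
    by_cases c : H.1.Adj v x.1 <;> by_cases e : H.1.Adj v y.1 <;>
    simp [a, b, c, e] at hx hy ⊢

include huv in
theorem flip4_mem {H : Realization d} (hH : H ∈ cls (pairKey u v) G₀) {x y : Fin n}
    (hd : Distinct4 u v x y) : flip4 u v x y H ∈ cls (pairKey u v) G₀ := by
  rw [mem_cls, (pairKey_flip4 hd H).1]
  exact mem_cls.1 hH

include huv in
theorem sliceMap_flip {H : Realization d} (hH : H ∈ cls (pairKey u v) G₀)
    {x y : {w // w ∈ exclusiveSet u v G₀}} (hx : x ∈ sliceMap u v G₀ H)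
    (hy : y ∉ sliceMap u v G₀ H) :
    sliceMap u v G₀ (flip4 u v x.1 y.1 H) = insert y ((sliceMap u v G₀ H).erase x) ∧
    sliceMap u v G₀ (flip4 u v y.1 x.1 H) = insert y ((sliceMap u v G₀ H).erase x) := by
  have hxy : x.1 ≠ y.1 := fun h => hy (Subtype.ext h ▸ hx)
  have hd := distinct4_of_exclusive G₀ huv x.2 y.2 hxy
  have hd' := distinct4_of_exclusive G₀ huv y.2 x.2 hxy.symm
  have hD : CrossMatched u v x.1 y.1 H :=
    (crossMatched_iff huv G₀ hH x y).2 (Or.inl ⟨hx, hy⟩)
  have hD' : CrossMatched u v y.1 x.1 H :=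
    (crossMatched_iff huv G₀ hH y x).2 (Or.inr ⟨hx, hy⟩)
  constructor <;>
  · ext w
    have hwu := ((mem_exclusiveSet G₀).1 w.2).1
    simp only [sliceMap, Finset.mem_filter, Finset.mem_univ, true_and, Finset.mem_insert,
      Finset.mem_erase, flip4_adjN hd H hD, flip4_adjN hd' H hD'] at hx hy ⊢
    have hle := adjN_le_one H u y.1
    by_cases hwx : w = x
    · subst hwx
      have hne : w ≠ y := fun h => hxy (congrArg Subtype.val h)
      simp [hne, hx]
    · by_cases hwy : w = y
      · subst hwy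
        simp only [true_or, and_self, or_true, if_true, iff_true]
        omega
      · have h1 : w.1 ≠ x.1 := fun h => hwx (Subtype.ext h)
        have h2 : w.1 ≠ y.1 := fun h => hwy (Subtype.ext h)
        simp [hwx, hwy, h1, h2, hd.2.1, hd.2.2.1]

include huv in
theorem sliceMap_surj (S : Finset {w // w ∈ exclusiveSet u v G₀})
    (hS : S.card = (sliceMap u v G₀ G₀).card) :
    ∃ H ∈ cls (pairKey u v) G₀, sliceMap u v G₀ H = S := by
  suffices h : ∀ (k : ℕ) (H : Realization d), H ∈ cls (pairKey u v) G₀ →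
      (sliceMap u v G₀ H \ S).card ≤ k → ∃ H ∈ cls (pairKey u v) G₀, sliceMap u v G₀ H = S from
    h _ G₀ (mem_cls.2 rfl) le_rfl
  intro k
  induction k with
  | zero =>
    intro H hH hk
    refine ⟨H, hH, Finset.eq_of_subset_of_card_le ?_ (by rw [sliceMap_card huv G₀ hH, hS])⟩
    rw [← Finset.sdiff_eq_empty_iff_subset]
    exact Finset.card_eq_zero.1 (Nat.le_zero.1 hk)
  | succ k ih =>
    intro H hH hk
    by_cases hsub : sliceMap u v G₀ H ⊆ S
    · exact ⟨H, hH, Finset.eq_of_subset_of_card_le hsub (by rw [sliceMap_card huv G₀ hH, hS])⟩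
    obtain ⟨x, hx, hxS⟩ := Finset.not_subset.1 hsub
    have hne : ¬ S ⊆ sliceMap u v G₀ H := by
      intro h
      exact hxS ((Finset.eq_of_subset_of_card_le h
        (by rw [sliceMap_card huv G₀ hH, hS])).symm ▸ hx)
    obtain ⟨y, hyS, hy⟩ := Finset.not_subset.1 hne
    have hxy : x.1 ≠ y.1 := fun h => hy (Subtype.ext h ▸ hx)
    refine ih (flip4 u v x.1 y.1 H)
      (flip4_mem huv G₀ hH (distinct4_of_exclusive G₀ huv x.2 y.2 hxy)) ?_
    rw [(sliceMap_flip huv G₀ hH hx hy).1]
    have hsd : insert y ((sliceMap u v G₀ H).erase x) \ S =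
        (sliceMap u v G₀ H \ S).erase x := by
      ext w
      simp only [Finset.mem_sdiff, Finset.mem_insert, Finset.mem_erase]
      constructor
      · rintro ⟨rfl | ⟨h1, h2⟩, h3⟩
        · exact absurd hyS h3
        · exact ⟨h1, h2, h3⟩
      · rintro ⟨h1, h2, h3⟩
        exact ⟨Or.inr ⟨h1, h2⟩, h3⟩
    rw [hsd, Finset.card_erase_of_mem (Finset.mem_sdiff.2 ⟨hx, hxS⟩)]
    omega

/-- The integrand of the right-hand side. -/
noncomputable def sliceTerm (u v x y : Fin n) (f : Realization d → ℝ) (H : Realization d) : ℝ :=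
  if Distinct4 u v x y ∧ CrossMatched u v x y H then
    (1 / 4) * (f H - f (flip4 u v x y H)) ^ 2
      - (avg (fun K => (pairKey u v K, decide (CrossMatched u v x y K))) f H
          - avg (pairKey u v) f H) ^ 2
  else 0

include huv in
theorem fibre_ineq (f : Realization d → ℝ) :
    ∑ H ∈ cls (pairKey u v) G₀, 2 * (Q u v f H) ^ 2 ≤
      ∑ H ∈ cls (pairKey u v) G₀, ∑ x, ∑ y, sliceTerm u v x y f H := by
  set C := cls (pairKey u v) G₀ with hC
  set α := {w // w ∈ exclusiveSet u v G₀}
  set a := (sliceMap u v G₀ G₀).card with ha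
  set g : Finset α → ℝ := fun S =>
    if h : ∃ H ∈ C, sliceMap u v G₀ H = S then f h.choose else 0 with hg
  have hgf : ∀ H ∈ C, g (sliceMap u v G₀ H) = f H := by
    intro H hH
    have h : ∃ K ∈ C, sliceMap u v G₀ K = sliceMap u v G₀ H := ⟨H, hH, rfl⟩
    simp only [hg, dif_pos h]
    exact congrArg f (sliceMap_inj huv G₀ h.choose_spec.1 hH h.choose_spec.2)
  have htr : ∀ (p : Finset α → Prop) (φ : Finset α → ℝ),
      ∑ H ∈ C.filter (fun H => p (sliceMap u v G₀ H)), φ (sliceMap u v G₀ H) =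
        ∑ S ∈ ((univ : Finset α).powersetCard a).filter p, φ S := by
    intro p φ
    refine Finset.sum_bij (fun H _ => sliceMap u v G₀ H) ?_ ?_ ?_ (fun _ _ => rfl)
    · intro H hH
      rw [Finset.mem_filter] at hH
      simp only [Finset.mem_filter, Finset.mem_powersetCard, Finset.subset_univ, true_and]
      exact ⟨sliceMap_card huv G₀ hH.1, hH.2⟩
    · intro H hH K hK h
      exact sliceMap_inj huv G₀ (Finset.mem_filter.1 hH).1 (Finset.mem_filter.1 hK).1 h
    · intro S hS
      simp only [Finset.mem_filter, Finset.mem_powersetCard, Finset.subset_univ, true_and] at hS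
      obtain ⟨H, hH, rfl⟩ := sliceMap_surj huv G₀ S hS.1
      exact ⟨H, Finset.mem_filter.2 ⟨hH, hS.2⟩, rfl⟩
  have htr' : ∀ (φ : Finset α → ℝ), ∑ H ∈ C, φ (sliceMap u v G₀ H) =
      ∑ S ∈ (univ : Finset α).powersetCard a, φ S := by
    intro φ
    simpa using htr (fun _ => True) φ
  have hmean : ∀ H ∈ C,
      avg (pairKey u v) f H = meanOn ((univ : Finset α).powersetCard a) g := by
    intro H hH
    have hcls : cls (pairKey u v) H = C := by
      ext K
      simp [hC, mem_cls, mem_cls.1 hH]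
    rw [avg, meanOn, hcls, ← htr' g, Finset.sum_congr rfl hgf]
    congr 1
    have := htr' (fun _ => (1:ℝ))
    simpa using this
  have hsplit : ∀ (x y : α), ∀ H ∈ C, CrossMatched u v x.1 y.1 H →
      avg (fun K => (pairKey u v K, decide (CrossMatched u v x.1 y.1 K))) f H =
        meanOn (splitSets a x y) g := by
    intro x y H hH hD
    have hcls : cls (fun K => (pairKey u v K, decide (CrossMatched u v x.1 y.1 K))) H =
        C.filter (fun K => Xor' (x ∈ sliceMap u v G₀ K) (y ∈ sliceMap u v G₀ K)) := by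
      ext K
      simp only [hC, mem_cls, Finset.mem_filter, Prod.mk.injEq, mem_cls.1 hH, decide_eq_decide,
        iff_true, hD]
      exact and_congr_right (fun hk => crossMatched_iff huv G₀ (mem_cls.2 hk) x y)
    rw [avg, hcls, meanOn, splitSets]
    have e1 := htr (fun S => Xor' (x ∈ S) (y ∈ S)) g
    have e2 := htr (fun S => Xor' (x ∈ S) (y ∈ S)) (fun _ => (1:ℝ))
    simp only [Finset.sum_const, nsmul_eq_mul, mul_one] at e2
    rw [Finset.sum_congr rfl
      (fun K hK => hgf K (Finset.mem_filter.1 hK).1)] at e1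
    rw [e1, e2]
  obtain ⟨R, hRdef⟩ : ∃ R : Finset α → ℝ, R = fun S => ∑ x : α, ∑ y : α,
      if x ≠ y ∧ Xor' (x ∈ S) (y ∈ S) then
        (1 / 4) * (g S - g (if x ∈ S then insert y (S.erase x) else insert x (S.erase y))) ^ 2
          - (meanOn (splitSets a x y) g - meanOn ((univ : Finset α).powersetCard a) g) ^ 2
      else 0 := ⟨_, rfl⟩
  have hpt : ∀ H ∈ C, ∑ x, ∑ y, sliceTerm u v x y f H = R (sliceMap u v G₀ H) := by
    intro H hH
    rw [hRdef]
    have hout : ∀ x y, (x ∉ exclusiveSet u v G₀ ∨ y ∉ exclusiveSet u v G₀) →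
        sliceTerm u v x y f H = 0 := by
      intro x y hxy
      rw [sliceTerm, if_neg]
      rintro ⟨hd, hD⟩
      have hk := mem_cls.1 hH
      rw [pairKey_eq_iff huv] at hk
      have hsum : adjN H u x + adjN H v x = 1 ∧ adjN H u y + adjN H v y = 1 := by
        rcases hD with ⟨a1, a2, a3, a4⟩ | ⟨a1, a2, a3, a4⟩ <;> simp [adjN, a1, a2, a3, a4]
      rcases hxy with h | h <;> refine h ((mem_exclusiveSet G₀).2 ⟨?_, ?_, ?_⟩)
      · exact hd.2.1.symm
      · exact hd.2.2.2.1.symm
      · rw [← hk.2.2 x hd.2.1.symm hd.2.2.2.1.symm]; exact hsum.1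
      · exact hd.2.2.1.symm
      · exact hd.2.2.2.2.1.symm
      · rw [← hk.2.2 y hd.2.2.1.symm hd.2.2.2.2.1.symm]; exact hsum.2
    rw [← Finset.sum_subset (Finset.subset_univ (exclusiveSet u v G₀))
      (fun x _ hx => Finset.sum_eq_zero (fun y _ => hout x y (Or.inl hx))),
      ← Finset.sum_coe_sort (exclusiveSet u v G₀)]
    refine Finset.sum_congr rfl (fun x _ => ?_)
    rw [← Finset.sum_subset (Finset.subset_univ (exclusiveSet u v G₀))
      (fun y _ hy => hout x.1 y (Or.inr hy)), ← Finset.sum_coe_sort (exclusiveSet u v G₀)]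
    refine Finset.sum_congr rfl (fun y _ => ?_)
    by_cases hxy : x = y
    · subst hxy
      rw [sliceTerm, if_neg (fun h => h.1.2.2.2.2.2 rfl)]
      simp
    have hxy' : x.1 ≠ y.1 := fun h => hxy (Subtype.ext h)
    have hd := distinct4_of_exclusive G₀ huv x.2 y.2 hxy'
    by_cases hX : Xor' (x ∈ sliceMap u v G₀ H) (y ∈ sliceMap u v G₀ H)
    · have hD := (crossMatched_iff huv G₀ hH x y).2 hX
      rw [sliceTerm, if_pos ⟨hd, hD⟩, if_pos ⟨hxy, hX⟩, hsplit x y H hH hD, hmean H hH,
        hgf H hH, ← hgf _ (flip4_mem huv G₀ hH hd)]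
      rcases hX with ⟨hx, hy⟩ | ⟨hy, hx⟩
      · rw [if_pos hx, (sliceMap_flip huv G₀ hH hx hy).1]
      · rw [if_neg hx, (sliceMap_flip huv G₀ hH hy hx).2]
    · rw [sliceTerm, if_neg (fun h => hX ((crossMatched_iff huv G₀ hH x y).1 h.2)),
        if_neg (fun h => hX h.2)]
  rw [Finset.sum_congr rfl hpt, htr' R]
  simp only [hRdef]
  have hl : ∀ H ∈ C, 2 * (Q u v f H) ^ 2 =
      (fun S => 2 * (g S - meanOn ((univ : Finset α).powersetCard a) g) ^ 2)
        (sliceMap u v G₀ H) := by
    intro H hH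
    simp only [Q, dev, hmean H hH, hgf H hH]
  rw [Finset.sum_congr rfl hl,
    htr' (fun S => 2 * (g S - meanOn ((univ : Finset α).powersetCard a) g) ^ 2), ← Finset.mul_sum]
  have hJ := slice_ineq (α := α) a g
  set P := (univ : Finset α).powersetCard a
  set m := meanOn P g
  -- split the right-hand side
  have hR : ∑ S ∈ P, ∑ x : α, ∑ y : α, (if x ≠ y ∧ Xor' (x ∈ S) (y ∈ S) then
        (1 / 4) * (g S - g (if x ∈ S then insert y (S.erase x) else insert x (S.erase y))) ^ 2
          - (meanOn (splitSets a x y) g - m) ^ 2 else 0) =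
      (1 / 2) * (∑ S ∈ P, ∑ x ∈ S, ∑ y ∈ Sᶜ, (g S - g (insert y (S.erase x))) ^ 2)
      - ∑ p ∈ (univ : Finset α).offDiag, ((splitSets a p.1 p.2).card : ℝ) *
          (meanOn (splitSets a p.1 p.2) g - m) ^ 2 := by
    have e1 : ∑ p ∈ (univ : Finset α).offDiag, ((splitSets a p.1 p.2).card : ℝ) *
          (meanOn (splitSets a p.1 p.2) g - m) ^ 2 =
        ∑ S ∈ P, ∑ x : α, ∑ y : α, (if x ≠ y ∧ Xor' (x ∈ S) (y ∈ S) then
          (meanOn (splitSets a x y) g - m) ^ 2 else 0) := by
      have eo : (univ : Finset α).offDiag = univ.filter (fun p => p.1 ≠ p.2) := by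
        ext p; simp
      rw [eo, Finset.sum_filter, Fintype.sum_prod_type]
      conv_rhs => rw [Finset.sum_comm]
      refine Finset.sum_congr rfl (fun x _ => ?_)
      conv_rhs => rw [Finset.sum_comm]
      refine Finset.sum_congr rfl (fun y _ => ?_)
      by_cases hxy : x = y
      · simp [hxy]
      · simp only [ne_eq, hxy, not_false_eq_true, true_and, if_true]
        rw [← Finset.sum_filter, Finset.sum_const, nsmul_eq_mul]
        congr 2
    have e2 : ∀ S : Finset α, ∑ x : α, ∑ y : α, (if x ≠ y ∧ Xor' (x ∈ S) (y ∈ S) then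
          (g S - g (if x ∈ S then insert y (S.erase x) else insert x (S.erase y))) ^ 2 else 0) =
        2 * ∑ x ∈ S, ∑ y ∈ Sᶜ, (g S - g (insert y (S.erase x))) ^ 2 := by
      intro S
      have hterm : ∀ x y : α, (if x ≠ y ∧ Xor' (x ∈ S) (y ∈ S) then
          (g S - g (if x ∈ S then insert y (S.erase x) else insert x (S.erase y))) ^ 2 else 0) =
          (if x ∈ S ∧ y ∈ Sᶜ then (g S - g (insert y (S.erase x))) ^ 2 else 0) +
          (if y ∈ S ∧ x ∈ Sᶜ then (g S - g (insert x (S.erase y))) ^ 2 else 0) := by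
        intro x y
        by_cases hx : x ∈ S <;> by_cases hy : y ∈ S <;>
          simp [hx, hy, Xor'] <;> grind
      simp only [hterm, Finset.sum_add_distrib]
      rw [two_mul]
      congr 1
      · simp only [ite_and, Finset.sum_ite_irrel, Finset.sum_const_zero, Fintype.sum_ite_mem]
      · rw [Finset.sum_comm]
        simp only [ite_and, Finset.sum_ite_irrel, Finset.sum_const_zero, Fintype.sum_ite_mem]
    rw [e1]
    rw [show (1 / 2 : ℝ) * (∑ S ∈ P, ∑ x ∈ S, ∑ y ∈ Sᶜ, (g S - g (insert y (S.erase x))) ^ 2) =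
      (1 / 4) * ∑ S ∈ P, (2 * ∑ x ∈ S, ∑ y ∈ Sᶜ, (g S - g (insert y (S.erase x))) ^ 2) by
        rw [← Finset.mul_sum]; ring]
    simp only [← e2, Finset.mul_sum, ← Finset.sum_sub_distrib]
    refine Finset.sum_congr rfl (fun S _ => Finset.sum_congr rfl (fun x _ =>
      Finset.sum_congr rfl (fun y _ => ?_)))
    split <;> ring
  rw [hR]
  linarith

end fibre

theorem sum_eq_sum_avg_cls {κ : Type*} (key : Realization d → κ) (F : Realization d → ℝ) :
    ∑ G, F G = ∑ G, (∑ H ∈ cls key G, F H) / ((cls key G).card : ℝ) :=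
  (sum_avg key F).symm

theorem slice_pair {u v : Fin n} (huv : u ≠ v) (f : Realization d → ℝ) :
    2 * ip (Q u v f) (Q u v f) ≤
      ∑ x, ∑ y, if Distinct4 u v x y then (1 / 4) * swEnergy u v x y f - psi u v x y f else 0 := by
  have hr : (∑ x, ∑ y, if Distinct4 u v x y then
      (1 / 4) * swEnergy u v x y f - psi u v x y f else 0) =
      ∑ H : Realization d, ∑ x, ∑ y, sliceTerm u v x y f H := by
    conv_rhs => rw [Finset.sum_comm]
    refine Finset.sum_congr rfl (fun x _ => ?_)
    conv_rhs => rw [Finset.sum_comm]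
    refine Finset.sum_congr rfl (fun y _ => ?_)
    by_cases hd : Distinct4 u v x y
    · simp only [hd, if_true, swEnergy, psi, sliceTerm, true_and, Finset.mul_sum,
        ← Finset.sum_sub_distrib]
      refine Finset.sum_congr rfl (fun H _ => ?_)
      split <;> ring
    · simp [hd, sliceTerm]
  have hl : 2 * ip (Q u v f) (Q u v f) = ∑ H, 2 * (Q u v f H) ^ 2 := by
    simp [ip, Finset.mul_sum, sq]
  rw [hr, hl, sum_eq_sum_avg_cls (pairKey u v), sum_eq_sum_avg_cls (pairKey u v)
    (fun H => ∑ x, ∑ y, sliceTerm u v x y f H)]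
  refine Finset.sum_le_sum (fun G _ => ?_)
  exact div_le_div_of_nonneg_right (fibre_ineq huv G f) (by positivity)

/-- A consequence: each fluctuation is controlled by the switch energy. -/
theorem pair_le_energy {u v : Fin n} (huv : u ≠ v) (f : Realization d → ℝ) :
    2 * ip (Q u v f) (Q u v f) ≤
      ∑ x, ∑ y, if Distinct4 u v x y then (1 / 4) * swEnergy u v x y f else 0 := by
  refine le_trans (slice_pair huv f) ?_
  refine Finset.sum_le_sum (fun x _ => Finset.sum_le_sum (fun y _ => ?_))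
  split
  · have hpsi : 0 ≤ psi u v x y f := by
      unfold psi
      refine Finset.sum_nonneg (fun G _ => ?_)
      split
      · positivity
      · exact le_rfl
    linarith
  · exact le_rfl

end Vale.Agent.P335
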