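import Mathlib
import Vale.Agent.P335.Avg
import Vale.Agent.P335.AvgLemmas

/-! Tables with three rows and prescribed margins. -/

namespace Vale.Agent.P335

open Finset
open scoped Classical

variable {C : Type*} [Fintype C] [DecidableEq C]

/-- 0-1 tables with three rows, row sums `r` and column sums `c`. -/
abbrev Tables {C : Type*} [Fintype C] [DecidableEq C] (r : Fin 3 → ℕ) (c : C → ℕ) : Type _ :=
  {M : Fin 3 → C → Bool //
    (∀ i, (univ.filter (fun p => M i p = true)).card = r i) ∧
    ∀ p, (univ.filter (fun i => M i p = true)).card = c p}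

/-- The sum over the three rows of the fluctuation given that row. -/
noncomputable def rowL {r : Fin 3 → ℕ} {c : C → ℕ} (f : Tables r c → ℝ) : Tables r c → ℝ :=
  fun M => ∑ i : Fin 3, dev (fun N : Tables r c => N.1 i) f M

namespace ThreeRowAux

variable {r : Fin 3 → ℕ} {c : C → ℕ}

theorem col_card (M : Fin 3 → C → Bool) (x : C) :
    (univ.filter (fun t => M t x = true)).card = ∑ t, (M t x).toNat := by
  rw [card_filter]
  exact sum_congr rfl fun t _ => by cases M t x <;> simp

theorem col_sum (N : Tables r c) (x : C) : ∑ t, (N.1 t x).toNat = c x := by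
  rw [← col_card]; exact N.2.2 x

theorem others_all : ∀ i j k : Fin 3, i ≠ j → i ≠ k → j ≠ k →
    ∀ t, t = i ∨ t = j ∨ t = k := by decide

theorem exists_third : ∀ a b : Fin 3, a ≠ b → ∃ e, e ≠ a ∧ e ≠ b := by decide

theorem pair_cases : ∀ i j k t u : Fin 3, i ≠ j → i ≠ k → j ≠ k → t ≠ u → t ≠ i → u ≠ i →
    (t = j ∧ u = k) ∨ (t = k ∧ u = j) := by decide

/-- Exchanging a misplaced pair lowers the number of disagreements. -/
theorem flip_lt : ∀ m₁ m₂ m₃ m₄ : Bool,
    ((m₁ = false ∧ m₂ = true ∧ m₃ = true) ∨ (m₁ = false ∧ m₂ = true ∧ m₄ = false) ∨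
      (m₁ = false ∧ m₃ = true ∧ m₄ = false) ∨ (m₂ = true ∧ m₃ = true ∧ m₄ = false)) →
    (false != m₁).toNat + (true != m₂).toNat + (true != m₃).toNat + (false != m₄).toNat <
      (true != m₁).toNat + (false != m₂).toNat + (false != m₃).toNat + (true != m₄).toNat := by
  decide

theorem sum3 {A : Type*} [AddCommMonoid A] {i j k : Fin 3} (hij : i ≠ j) (hik : i ≠ k)
    (hjk : j ≠ k) (F : Fin 3 → A) : ∑ t, F t = F i + F j + F k := by
  have h : (univ : Finset (Fin 3)) = {i, j, k} :=
    (eq_univ_of_forall fun t => by simpa using others_all i j k hij hik hjk t).symm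
  rw [h, sum_insert (by simp [hij, hik]), sum_insert (by simp [hjk]), sum_singleton, add_assoc]

theorem col3 {i j k : Fin 3} (hij : i ≠ j) (hik : i ≠ k) (hjk : j ≠ k) (N : Tables r c) (x : C) :
    (N.1 i x).toNat + (N.1 j x).toNat + (N.1 k x).toNat = c x := by
  rw [← sum3 hij hik hjk (fun t => (N.1 t x).toNat)]; exact col_sum N x

theorem exists_others (i : Fin 3) : ∃ j k : Fin 3, i ≠ j ∧ i ≠ k ∧ j ≠ k ∧
    ∀ t, t = i ∨ t = j ∨ t = k := by
  revert i; decide

/-- Permute each row of a table. -/
def permRows (N : Tables r c) (σ : Fin 3 → Equiv.Perm C)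
    (h : ∀ x, ∑ t, (N.1 t (σ t x)).toNat = c x) : Tables r c :=
  ⟨fun t x => N.1 t (σ t x), fun t => by
    rw [← N.2.1 t]
    exact card_equiv (σ t) (fun x => by simp), fun x => (col_card (fun t x => N.1 t (σ t x)) x).trans (h x)⟩

/-- Row `t` of `N'` is row `t` of `N` with the different entries at `p`, `q` exchanged. -/
def Mv (t : Fin 3) (N N' : Tables r c) (p q : C) : Prop :=
  N.1 t p ≠ N.1 t q ∧ N'.1 t = fun x => N.1 t (Equiv.swap p q x)

/-- A move between columns of equal sums. -/
def Wstep (t : Fin 3) (N N' : Tables r c) : Prop := ∃ p q, c p = c q ∧ Mv t N N' p q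

/-- A move between columns of different sums. -/
def Xstep (t : Fin 3) (N N' : Tables r c) : Prop := ∃ p q, c p ≠ c q ∧ Mv t N N' p q

theorem step_of_mv {t : Fin 3} {N N' : Tables r c} {p q : C} (h : Mv t N N' p q) :
    Wstep t N N' ∨ Xstep t N N' := by
  by_cases hc : c p = c q
  · exact Or.inl ⟨p, q, hc, h⟩
  · exact Or.inr ⟨p, q, hc, h⟩

/-- Averages over two sets agree up to `D` when linked by a bijection. -/
theorem avg_close {A B : Finset (Tables r c)} (h : Tables r c → ℝ) (D : ℝ)
    (φ ψ : Tables r c → Tables r c) (hφ : ∀ N ∈ A, φ N ∈ B) (hψ : ∀ N ∈ B, ψ N ∈ A)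
    (h1 : ∀ N ∈ A, ψ (φ N) = N) (h2 : ∀ N ∈ B, φ (ψ N) = N) (hA : A.Nonempty)
    (hD : ∀ N ∈ A, |h N - h (φ N)| ≤ D) :
    |(∑ N ∈ A, h N) / (A.card : ℝ) - (∑ N ∈ B, h N) / (B.card : ℝ)| ≤ D := by
  have hc : A.card = B.card := card_nbij' φ ψ hφ hψ h1 h2
  have hs : ∑ N ∈ B, h N = ∑ N ∈ A, h (φ N) :=
    (sum_nbij' φ ψ hφ hψ h1 h2 (fun _ _ => rfl)).symm
  have hpos : (0:ℝ) < A.card := Nat.cast_pos.2 hA.card_pos
  rw [hs, ← hc, ← sub_div, ← sum_sub_distrib, abs_div, abs_of_pos hpos, div_le_iff₀ hpos]
  refine (abs_sum_le_sum_abs _ _).trans ((sum_le_sum hD).trans (le_of_eq ?_))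
  rw [sum_const, nsmul_eq_mul, mul_comm]

/-- The permutations supported on the columns shared by rows `j`, `k` in row class `M`. -/
noncomputable def grp (i : Fin 3) (M : Tables r c) : Finset (Equiv.Perm C) :=
  univ.filter fun τ => ∀ x, c x ≠ (M.1 i x).toNat + 1 → τ x = x

/-- Apply a permutation to the two rows other than `i`. -/
def rowPerm (i : Fin 3) (τ : Equiv.Perm C) : Fin 3 → Equiv.Perm C :=
  fun t => if t = i then 1 else τ

theorem grp_valid {i : Fin 3} {M N : Tables r c} {τ : Equiv.Perm C} (hτ : τ ∈ grp i M)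
    (hN : ∀ x, c x = (M.1 i x).toNat + 1 → (N.1 i x).toNat + 1 = c x) :
    ∀ x, ∑ t, (N.1 t (rowPerm i τ t x)).toNat = c x := by
  intro x
  obtain ⟨j, k, hij, hik, hjk, -⟩ := exists_others i
  rw [sum3 hij hik hjk]
  have h := (mem_filter.1 hτ).2
  simp only [rowPerm, if_pos, if_neg hij.symm, if_neg hik.symm, Equiv.Perm.one_apply]
  by_cases hx : c x = (M.1 i x).toNat + 1
  · have hy : c (τ x) = (M.1 i (τ x)).toNat + 1 := by
      by_contra hne
      have := h (τ x) hne
      rw [τ.injective this] at hne
      exact hne hx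
    have h1 := col3 hij hik hjk N (τ x)
    have h2 := hN x hx
    have h3 := hN _ hy
    omega
  · rw [h x hx]; exact col3 hij hik hjk N x

/-- The action of a permutation, fixing row `i`. -/
noncomputable def act (i : Fin 3) (τ : Equiv.Perm C) (N : Tables r c) : Tables r c :=
  if h : ∀ x, ∑ t, (N.1 t (rowPerm i τ t x)).toNat = c x then permRows N (rowPerm i τ) h else N

theorem act_row {i : Fin 3} {τ : Equiv.Perm C} {N : Tables r c}
    (h : ∀ x, ∑ t, (N.1 t (rowPerm i τ t x)).toNat = c x) (t : Fin 3) (x : C) :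
    (act i τ N).1 t x = N.1 t (rowPerm i τ t x) := by
  rw [act, dif_pos h]; rfl

/-- A row pattern compatible with the shared columns of `M`. -/
def Fits (i : Fin 3) (M N : Tables r c) : Prop :=
  ∀ x, c x = (M.1 i x).toNat + 1 → (N.1 i x).toNat + 1 = c x

theorem grp_mul {i : Fin 3} {M : Tables r c} {a b : Equiv.Perm C} (ha : a ∈ grp i M)
    (hb : b ∈ grp i M) : a * b ∈ grp i M := by
  refine mem_filter.2 ⟨mem_univ _, fun x hx => ?_⟩
  rw [Equiv.Perm.mul_apply, (mem_filter.1 hb).2 x hx, (mem_filter.1 ha).2 x hx]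

theorem grp_inv {i : Fin 3} {M : Tables r c} {a : Equiv.Perm C} (ha : a ∈ grp i M) :
    a⁻¹ ∈ grp i M := by
  refine mem_filter.2 ⟨mem_univ _, fun x hx => ?_⟩
  rw [Equiv.Perm.inv_def, Equiv.symm_apply_eq]
  exact ((mem_filter.1 ha).2 x hx).symm

theorem act_self {i : Fin 3} {M N : Tables r c} {τ : Equiv.Perm C} (hτ : τ ∈ grp i M)
    (hN : Fits i M N) : (act i τ N).1 i = N.1 i := by
  funext x
  rw [act_row (grp_valid hτ hN)]
  simp [rowPerm]

theorem act_fits {i : Fin 3} {M N : Tables r c} {τ : Equiv.Perm C} (hτ : τ ∈ grp i M)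
    (hN : Fits i M N) : Fits i M (act i τ N) := by
  unfold Fits; rw [act_self hτ hN]; exact hN

theorem act_act {i : Fin 3} {M N : Tables r c} {a b : Equiv.Perm C} (ha : a ∈ grp i M)
    (hb : b ∈ grp i M) (hN : Fits i M N) : act i b (act i a N) = act i (a * b) N := by
  apply Subtype.ext
  funext t x
  rw [act_row (grp_valid hb (act_fits ha hN)), act_row (grp_valid ha hN),
    act_row (grp_valid (grp_mul ha hb) hN)]
  by_cases h : t = i <;> simp [rowPerm, h, Equiv.Perm.mul_apply]

theorem act_one {i : Fin 3} {M N : Tables r c} (hN : Fits i M N) : act i 1 N = N := by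
  have h1 : (1 : Equiv.Perm C) ∈ grp i M := mem_filter.2 ⟨mem_univ _, fun _ _ => rfl⟩
  apply Subtype.ext
  funext t x
  rw [act_row (grp_valid h1 hN)]
  by_cases h : t = i <;> simp [rowPerm, h]

theorem one_mem_grp (i : Fin 3) (M : Tables r c) : (1 : Equiv.Perm C) ∈ grp i M :=
  mem_filter.2 ⟨mem_univ _, fun _ _ => rfl⟩

/-- The row class of `M`. -/
noncomputable def rowClass (i : Fin 3) (M : Tables r c) : Finset (Tables r c) :=
  cls (fun N : Tables r c => N.1 i) M

theorem mem_rowClass {i : Fin 3} {M N : Tables r c} : N ∈ rowClass i M ↔ N.1 i = M.1 i :=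
  mem_cls

theorem fits_of_mem {i : Fin 3} {M N : Tables r c} (h : N ∈ rowClass i M) : Fits i M N := by
  intro x hx
  rw [mem_rowClass.1 h]; omega

/-- The permutations act transitively on a row class. -/
theorem exists_act (i : Fin 3) (M : Tables r c) : ∀ (n : ℕ) (N₁ N₂ : Tables r c),
    N₁ ∈ rowClass i M → N₂ ∈ rowClass i M →
    (univ.filter (fun z : Fin 3 × C => N₁.1 z.1 z.2 ≠ N₂.1 z.1 z.2)).card ≤ n →
    ∃ τ ∈ grp i M, act i τ N₁ = N₂ := by
  intro n
  induction n with
  | zero =>
    intro N₁ N₂ h₁ _ hd
    refine ⟨1, one_mem_grp i M, ?_⟩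
    rw [act_one (fits_of_mem h₁)]
    apply Subtype.ext
    funext t x
    by_contra hne
    have : (t, x) ∈ univ.filter (fun z : Fin 3 × C => N₁.1 z.1 z.2 ≠ N₂.1 z.1 z.2) :=
      mem_filter.2 ⟨mem_univ _, hne⟩
    exact absurd (card_pos.2 ⟨_, this⟩) (by omega)
  | succ n ih =>
    intro N₁ N₂ h₁ h₂ hd
    obtain ⟨j, k, hij, hik, hjk, hall⟩ := exists_others i
    by_cases hj : N₁.1 j = N₂.1 j
    · refine ⟨1, one_mem_grp i M, ?_⟩
      rw [act_one (fits_of_mem h₁)]
      apply Subtype.ext
      funext t x
      have hi : N₁.1 i x = N₂.1 i x := by rw [mem_rowClass.1 h₁, mem_rowClass.1 h₂]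
      rcases hall t with rfl | rfl | rfl
      · exact hi
      · rw [hj]
      · have e1 := col3 hij hik hjk N₁ x
        have e2 := col3 hij hik hjk N₂ x
        rw [hi, hj] at e1
        cases h : N₁.1 t x <;> cases h' : N₂.1 t x <;> simp [h, h'] at e1 e2 ⊢ <;> omega
    · have hcard : (univ.filter fun x => N₁.1 j x = true).card
          = (univ.filter fun x => N₂.1 j x = true).card := by rw [N₁.2.1 j, N₂.2.1 j]
      obtain ⟨a, ha1, ha2⟩ : ∃ a, N₁.1 j a = true ∧ N₂.1 j a = false := by
        by_contra hno
        push Not at hno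
        have hsub : (univ.filter fun x => N₁.1 j x = true) ⊆
            (univ.filter fun x => N₂.1 j x = true) := fun x hx => by
          have := hno x (mem_filter.1 hx).2; simpa using this
        have he := eq_of_subset_of_card_le hsub hcard.ge
        apply hj; funext x
        have hmem := congrArg (fun s => x ∈ s) he
        simp only [mem_filter, mem_univ, true_and, eq_iff_iff] at hmem
        cases h : N₁.1 j x <;> cases h' : N₂.1 j x <;> simp_all
      obtain ⟨b, hb1, hb2⟩ : ∃ b, N₁.1 j b = false ∧ N₂.1 j b = true := by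
        by_contra hno
        push Not at hno
        have hsub : (univ.filter fun x => N₂.1 j x = true) ⊂
            (univ.filter fun x => N₁.1 j x = true) := by
          refine (ssubset_iff_of_subset fun x hx => ?_).2 ⟨a, by simp [ha1], by simp [ha2]⟩
          simp only [mem_filter, mem_univ, true_and] at hx ⊢
          cases h : N₁.1 j x
          · exact absurd hx (hno x h)
          · rfl
        exact absurd (card_lt_card hsub) (by omega)
      have hFa : c a = (M.1 i a).toNat + 1 := by
        have e1 := col3 hij hik hjk N₁ a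
        have e2 := col3 hij hik hjk N₂ a
        rw [congrFun (mem_rowClass.1 h₁) a, ha1] at e1
        rw [congrFun (mem_rowClass.1 h₂) a, ha2] at e2
        cases h : N₂.1 k a <;> simp [h] at e1 e2 <;> omega
      have hFb : c b = (M.1 i b).toNat + 1 := by
        have e1 := col3 hij hik hjk N₁ b
        have e2 := col3 hij hik hjk N₂ b
        rw [congrFun (mem_rowClass.1 h₁) b, hb1] at e1
        rw [congrFun (mem_rowClass.1 h₂) b, hb2] at e2
        cases h : N₁.1 k b <;> simp [h] at e1 e2 <;> omega
      have hτ : Equiv.swap a b ∈ grp i M := by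
        refine mem_filter.2 ⟨mem_univ _, fun x hx => Equiv.swap_apply_of_ne_of_ne ?_ ?_⟩
        · rintro rfl; exact hx hFa
        · rintro rfl; exact hx hFb
      have hv := grp_valid hτ (fits_of_mem h₁)
      set N := act i (Equiv.swap a b) N₁ with hN
      have hNc : N ∈ rowClass i M := by
        rw [mem_rowClass, hN, act_self hτ (fits_of_mem h₁)]; exact mem_rowClass.1 h₁
      have hlt : (univ.filter (fun z : Fin 3 × C => N.1 z.1 z.2 ≠ N₂.1 z.1 z.2)).card <
          (univ.filter (fun z : Fin 3 × C => N₁.1 z.1 z.2 ≠ N₂.1 z.1 z.2)).card := by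
        refine card_lt_card ((ssubset_iff_of_subset fun z hz => ?_).2
          ⟨(j, a), by simp [ha1, ha2], ?_⟩)
        · obtain ⟨t, x⟩ := z
          simp only [mem_filter, mem_univ, true_and, hN, act_row hv] at hz ⊢
          by_cases ht : t = i
          · subst ht; simpa [rowPerm] using hz
          · rw [show rowPerm i (Equiv.swap a b) t = Equiv.swap a b by simp [rowPerm, ht]] at hz
            by_cases hxa : x = a
            · subst hxa
              rw [Equiv.swap_apply_left] at hz
              rcases hall t with rfl | rfl | rfl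
              · exact absurd rfl ht
              · simp [ha1, ha2]
              · have e1 := col3 hij hik hjk N₁ x
                have e2 := col3 hij hik hjk N₂ x
                rw [congrFun (mem_rowClass.1 h₁) x, ha1] at e1
                rw [congrFun (mem_rowClass.1 h₂) x, ha2] at e2
                cases h : N₁.1 t x <;> cases h' : N₂.1 t x <;> simp [h, h'] at e1 e2 ⊢ <;> omega
            · by_cases hxb : x = b
              · subst hxb
                rw [Equiv.swap_apply_right] at hz
                rcases hall t with rfl | rfl | rfl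
                · exact absurd rfl ht
                · simp [hb1, hb2]
                · have e1 := col3 hij hik hjk N₁ x
                  have e2 := col3 hij hik hjk N₂ x
                  rw [congrFun (mem_rowClass.1 h₁) x, hb1] at e1
                  rw [congrFun (mem_rowClass.1 h₂) x, hb2] at e2
                  cases h : N₁.1 t x <;> cases h' : N₂.1 t x <;> simp [h, h'] at e1 e2 ⊢ <;> omega
              · rwa [Equiv.swap_apply_of_ne_of_ne hxa hxb] at hz
        · simp [hN, act_row hv, rowPerm, hij.symm, hb1, ha2]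
      obtain ⟨τ, hτm, hτe⟩ := ih N N₂ hNc h₂ (by omega)
      refine ⟨Equiv.swap a b * τ, grp_mul hτ hτm, ?_⟩
      rw [← act_act hτ hτm (fits_of_mem h₁)]
      exact hτe

/-- Averaging over the permutations gives the class average. -/
theorem sum_act (i : Fin 3) (M : Tables r c) (h : Tables r c → ℝ) {N : Tables r c}
    (hN : N ∈ rowClass i M) :
    ((rowClass i M).card : ℝ) * ∑ τ ∈ grp i M, h (act i τ N)
      = ((grp i M).card : ℝ) * ∑ X ∈ rowClass i M, h X := by
  have hconst : ∀ X ∈ rowClass i M,
      ∑ τ ∈ grp i M, h (act i τ X) = ∑ τ ∈ grp i M, h (act i τ N) := by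
    intro X hX
    obtain ⟨σ, hσ, hσe⟩ := exists_act i M _ N X hN hX le_rfl
    refine sum_nbij' (fun τ => σ * τ) (fun τ => σ⁻¹ * τ) (fun τ h => grp_mul hσ h)
      (fun τ h => grp_mul (grp_inv hσ) h) (fun τ _ => by simp) (fun τ _ => by simp) ?_
    intro τ hτ
    rw [← act_act hσ hτ (fits_of_mem hN), hσe]
  have hperm : ∀ τ ∈ grp i M, ∑ X ∈ rowClass i M, h (act i τ X) = ∑ X ∈ rowClass i M, h X := by
    intro τ hτ
    have hinv := grp_inv hτ
    refine sum_nbij' (act i τ) (act i τ⁻¹) ?_ ?_ ?_ ?_ (fun _ _ => rfl)
    · intro X hX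
      exact mem_rowClass.2 ((act_self hτ (fits_of_mem hX)).trans (mem_rowClass.1 hX))
    · intro X hX
      exact mem_rowClass.2 ((act_self hinv (fits_of_mem hX)).trans (mem_rowClass.1 hX))
    · intro X hX
      rw [act_act hτ hinv (fits_of_mem hX), mul_inv_cancel, act_one (fits_of_mem hX)]
    · intro X hX
      rw [act_act hinv hτ (fits_of_mem hX), inv_mul_cancel, act_one (fits_of_mem hX)]
  calc ((rowClass i M).card : ℝ) * ∑ τ ∈ grp i M, h (act i τ N)
      = ∑ X ∈ rowClass i M, ∑ τ ∈ grp i M, h (act i τ X) := by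
        rw [sum_congr rfl hconst, sum_const, nsmul_eq_mul]
    _ = ∑ τ ∈ grp i M, ∑ X ∈ rowClass i M, h (act i τ X) := sum_comm
    _ = _ := by rw [sum_congr rfl hperm, sum_const, nsmul_eq_mul]

/-- A within move in row `i`: the class averages are close. -/
theorem close_within {i : Fin 3} {M M' : Tables r c} {p q : C} (hc : c p = c q)
    (hmv : Mv i M M' p q) (h : Tables r c → ℝ) (D : ℝ)
    (hD : ∀ N N' : Tables r c, ∀ t u, t ≠ u → t ≠ i → u ≠ i → Wstep t N N' →
      N'.1 u = N.1 u → |h N - h N'| ≤ D) :
    |avg (fun N : Tables r c => N.1 i) h M - avg (fun N : Tables r c => N.1 i) h M'| ≤ D := by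
  obtain ⟨j, k, hij, hik, hjk, -⟩ := exists_others i
  have hv : ∀ N : Tables r c, ∀ x, ∑ t, (N.1 t (Equiv.swap p q x)).toNat = c x := by
    intro N x
    rw [col_sum N]
    by_cases hxp : x = p
    · subst hxp; rw [Equiv.swap_apply_left]; exact hc.symm
    by_cases hxq : x = q
    · subst hxq; rw [Equiv.swap_apply_right]; exact hc
    rw [Equiv.swap_apply_of_ne_of_ne hxp hxq]
  set φ : Tables r c → Tables r c := fun N => permRows N (fun _ => Equiv.swap p q) (hv N) with hφ
  have hinv : ∀ N, φ (φ N) = N := fun N => Subtype.ext (funext fun t => funext fun x => by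
    simp [hφ, permRows])
  refine avg_close h D φ φ ?_ ?_ (fun N _ => hinv N) (fun N _ => hinv N)
    ⟨M, mem_cls.2 rfl⟩ ?_
  · intro N hN
    exact mem_cls.2 ((funext fun x => by
      show N.1 i (Equiv.swap p q x) = M'.1 i x
      rw [hmv.2, congrFun (mem_cls.1 hN) _] : (φ N).1 i = M'.1 i))
  · intro N hN
    exact mem_cls.2 ((funext fun x => by
      show N.1 i (Equiv.swap p q x) = M.1 i x
      rw [congrFun (mem_cls.1 hN) _, hmv.2]; simp : (φ N).1 i = M.1 i))
  · intro N hN
    have hne : N.1 i p ≠ N.1 i q := by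
      rw [congrFun (mem_cls.1 hN) p, congrFun (mem_cls.1 hN) q]; exact hmv.1
    have ep := col3 hij hik hjk N p
    have eq := col3 hij hik hjk N q
    have row : ∀ t, N.1 t p = N.1 t q → (φ N).1 t = N.1 t := fun t ht => funext fun x => by
      show N.1 t (Equiv.swap p q x) = N.1 t x
      by_cases hxp : x = p
      · subst hxp; rw [Equiv.swap_apply_left]; exact ht.symm
      by_cases hxq : x = q
      · subst hxq; rw [Equiv.swap_apply_right]; exact ht
      rw [Equiv.swap_apply_of_ne_of_ne hxp hxq]
    by_cases hj : N.1 j p = N.1 j q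
    · have hk : N.1 k p ≠ N.1 k q := by
        intro hk
        apply hne
        cases h1 : N.1 i p <;> cases h2 : N.1 i q <;>
          simp [h1, h2, hj, hk] at ep eq ⊢ <;> omega
      exact hD N (φ N) k j hjk.symm hik.symm hij.symm ⟨p, q, hc, hk, rfl⟩ (row j hj)
    · have hk : N.1 k p = N.1 k q := by
        cases h1 : N.1 i p <;> cases h2 : N.1 i q <;> simp [h1, h2] at hne <;>
        cases h3 : N.1 j p <;> cases h4 : N.1 j q <;> simp [h3, h4] at hj <;>
        cases h5 : N.1 k p <;> cases h6 : N.1 k q <;>
          simp [h1, h2, h3, h4, h5, h6] at ep eq ⊢ <;> omega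
      exact hD N (φ N) j k hjk hij.symm hik.symm ⟨p, q, hc, hj, rfl⟩ (row k hk)

/-- A cross move in row `i`, normalised so that `p` has column sum one and `q` two. -/
theorem close_cross {i : Fin 3} {M M' : Tables r c} {p q : C} (hp : c p = 1) (hq : c q = 2)
    (hMp : M.1 i p = true) (hMq : M.1 i q = false)
    (hM' : M'.1 i = fun x => M.1 i (Equiv.swap p q x)) (h : Tables r c → ℝ) (D : ℝ)
    (hD1 : ∀ N N' : Tables r c, ∀ t u, t ≠ u → t ≠ i → u ≠ i → Xstep t N N' →
      N'.1 u = N.1 u → |h N - h N'| ≤ D)
    (hD2 : ∀ N N' : Tables r c, ∀ t u, t ≠ u → t ≠ i → u ≠ i → Xstep t N N' →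
      Wstep u N N' → |h N - h N'| ≤ D) :
    |avg (fun N : Tables r c => N.1 i) h M - avg (fun N : Tables r c => N.1 i) h M'| ≤ D := by
  have hpq : p ≠ q := fun e => by rw [e, hMq] at hMp; exact Bool.false_ne_true hMp
  set G := grp i M with hG
  have hfix : ∀ τ ∈ G, τ p = p ∧ τ q = q := fun τ hτ =>
    ⟨(mem_filter.1 hτ).2 p (by simp [hMp, hp]), (mem_filter.1 hτ).2 q (by simp [hMq, hq])⟩
  have hfit : ∀ N ∈ rowClass i M', Fits i M N := by
    intro N hN x hx
    rw [mem_rowClass.1 hN, hM']
    simp only
    have hxp : x ≠ p := fun e => by subst e; simp [hMp, hp] at hx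
    have hxq : x ≠ q := fun e => by subst e; simp [hMq, hq] at hx
    rw [Equiv.swap_apply_of_ne_of_ne hxp hxq]; omega
  -- a partner in the class of `M` for each member of the class of `M'`
  have key : ∀ N' ∈ rowClass i M', ∃ N ∈ rowClass i M,
      ∀ τ ∈ G, |h (act i τ N) - h (act i τ N')| ≤ D := by
    have core : ∀ (j k : Fin 3), i ≠ j → i ≠ k → j ≠ k → ∀ N' ∈ rowClass i M',
        N'.1 j p = true → ∃ N ∈ rowClass i M,
          ∀ τ ∈ G, |h (act i τ N) - h (act i τ N')| ≤ D := by
      intro j k hij hik hjk N' hN' hjp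
      have hip : N'.1 i p = false := by rw [mem_rowClass.1 hN', hM']; simpa using hMq
      have hiq : N'.1 i q = true := by rw [mem_rowClass.1 hN', hM']; simpa using hMp
      have ep := col3 hij hik hjk N' p
      have eq := col3 hij hik hjk N' q
      have hkp : N'.1 k p = false := by
        cases hh : N'.1 k p <;> simp [hip, hjp, hp, hh] at ep ⊢
      have hall := others_all i j k hij hik hjk
      by_cases hjq : N'.1 j q = true
      · -- row `j` holds both columns
        have hkq : N'.1 k q = false := by
          cases hh : N'.1 k q <;> simp [hiq, hjq, hq, hh] at eq ⊢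
        obtain ⟨w, hw1, hw2⟩ : ∃ w, N'.1 k w = true ∧ M.1 k w = false := by
          by_contra hno
          push Not at hno
          have e1 := col3 hij hik hjk M q
          have hMkq : M.1 k q = true := by
            cases hh : M.1 k q <;> cases h2 : M.1 j q <;> simp [hMq, hq, hh, h2] at e1 ⊢
          have hsub : (univ.filter fun x => N'.1 k x = true) ⊂
              (univ.filter fun x => M.1 k x = true) := by
            refine (ssubset_iff_of_subset fun x hx => ?_).2 ⟨q, by simp [hMkq], by simp [hkq]⟩
            simp only [mem_filter, mem_univ, true_and] at hx ⊢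
            simpa using hno x hx
          have := card_lt_card hsub
          rw [N'.2.1 k, M.2.1 k] at this
          omega
        have hwp : w ≠ p := fun e => by subst e; rw [hkp] at hw1; exact Bool.false_ne_true hw1
        have hwq : w ≠ q := fun e => by subst e; rw [hkq] at hw1; exact Bool.false_ne_true hw1
        have hwi : N'.1 i w = M.1 i w := by
          rw [mem_rowClass.1 hN', hM']
          simp [Equiv.swap_apply_of_ne_of_ne hwp hwq]
        have ew := col3 hij hik hjk N' w
        have ewM := col3 hij hik hjk M w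
        have hjw : N'.1 j w = false := by
          cases hh : N'.1 j w <;> cases h2 : M.1 j w <;>
            simp [hw1, hw2, hwi, hh, h2] at ew ewM ⊢ <;> omega
        have hwF : c w = (M.1 i w).toNat + 1 := by simp [hw1, hwi, hjw] at ew; omega
        set σ : Fin 3 → Equiv.Perm C := fun t =>
          if t = i then Equiv.swap p q else if t = j then Equiv.swap p w else Equiv.swap w q with hσ
        have hv : ∀ x, ∑ t, (N'.1 t (σ t x)).toNat = c x := by
          intro x
          rw [sum3 hij hik hjk]
          simp only [hσ, if_pos, if_neg hij.symm, if_neg hik.symm, if_neg hjk.symm]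
          by_cases hxp : x = p
          · subst hxp
            simp [Equiv.swap_apply_of_ne_of_ne hwp.symm hpq, hiq, hjw, hkp, hp]
          by_cases hxq : x = q
          · subst hxq
            simp [Equiv.swap_apply_of_ne_of_ne hpq.symm hwq.symm, hip, hjq, hw1, hq]
          by_cases hxw : x = w
          · subst hxw
            simp [Equiv.swap_apply_of_ne_of_ne hwp hwq, hjp, hkq, hwF, hwi]
          rw [Equiv.swap_apply_of_ne_of_ne hxp hxq, Equiv.swap_apply_of_ne_of_ne hxp hxw,
            Equiv.swap_apply_of_ne_of_ne hxw hxq]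
          exact col3 hij hik hjk N' x
        set N := permRows N' σ hv with hN
        have hNi : N.1 i = M.1 i := funext fun x => by
          show N'.1 i (σ i x) = M.1 i x
          rw [show σ i = Equiv.swap p q by simp [hσ], mem_rowClass.1 hN', hM']; simp
        refine ⟨N, mem_rowClass.2 hNi, fun τ hτ => ?_⟩
        obtain ⟨hτp, hτq⟩ := hfix τ hτ
        have hA := grp_valid hτ (fits_of_mem (mem_rowClass.2 hNi))
        have hB := grp_valid hτ (hfit N' hN')
        set w' := τ⁻¹ w with hw'
        have hτw : τ w' = w := by simp [hw']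
        have hw'F : c w' = (M.1 i w').toNat + 1 := by
          by_contra hne
          have hfw := (mem_filter.1 hτ).2 w' hne
          rw [hτw] at hfw
          rw [← hfw] at hne
          exact hne hwF
        have hsw : ∀ a b : C, ∀ x, τ (Equiv.swap a b x) = Equiv.swap (τ a) (τ b) (τ x) :=
          fun a b x => τ.injective.map_swap a b x
        have mj : Mv j (act i τ N) (act i τ N') p w' := by
          constructor
          · rw [act_row hA, act_row hA]
            simp only [rowPerm, if_neg hij.symm, hτp, hτw]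
            show N'.1 j (σ j p) ≠ N'.1 j (σ j w)
            simp [hσ, hij.symm, hjp, hjw]
          · funext x
            rw [act_row hB, act_row hA]
            simp only [rowPerm, if_neg hij.symm]
            show _ = N'.1 j (σ j _)
            simp [hσ, hij.symm, hsw, hτp, hτw]
        have mk : Mv k (act i τ N) (act i τ N') w' q := by
          constructor
          · rw [act_row hA, act_row hA]
            simp only [rowPerm, if_neg hik.symm, hτq, hτw]
            show N'.1 k (σ k w) ≠ N'.1 k (σ k q)
            simp [hσ, hik.symm, hjk.symm, hkq, hw1]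
          · funext x
            rw [act_row hB, act_row hA]
            simp only [rowPerm, if_neg hik.symm]
            show _ = N'.1 k (σ k _)
            simp [hσ, hik.symm, hjk.symm, hsw, hτq, hτw]
        cases hb : M.1 i w'
        · have hcw : c w' = 1 := by simp [hw'F, hb]
          exact hD2 _ _ k j hjk.symm hik.symm hij.symm ⟨w', q, by omega, mk⟩
            ⟨p, w', by omega, mj⟩
        · have hcw : c w' = 2 := by simp [hw'F, hb]
          exact hD2 _ _ j k hjk hij.symm hik.symm ⟨p, w', by omega, mj⟩
            ⟨w', q, by omega, mk⟩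
      · -- the two columns are held by different rows
        simp only [Bool.not_eq_true] at hjq
        have hkq : N'.1 k q = true := by
          cases hh : N'.1 k q <;> simp [hiq, hjq, hq, hh] at eq ⊢
        set σ : Fin 3 → Equiv.Perm C := fun t => if t = k then 1 else Equiv.swap p q with hσ
        have hv : ∀ x, ∑ t, (N'.1 t (σ t x)).toNat = c x := by
          intro x
          rw [sum3 hij hik hjk]
          simp only [hσ, if_pos, if_neg hik, if_neg hjk, Equiv.Perm.one_apply]
          by_cases hxp : x = p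
          · subst hxp; simp [hiq, hjq, hkp, hp]
          by_cases hxq : x = q
          · subst hxq; simp [hip, hjp, hkq, hq]
          rw [Equiv.swap_apply_of_ne_of_ne hxp hxq]
          exact col3 hij hik hjk N' x
        set N := permRows N' σ hv with hN
        have hNi : N.1 i = M.1 i := funext fun x => by
          show N'.1 i (σ i x) = M.1 i x
          rw [show σ i = Equiv.swap p q by simp [hσ, hik], mem_rowClass.1 hN', hM']; simp
        refine ⟨N, mem_rowClass.2 hNi, fun τ hτ => ?_⟩
        obtain ⟨hτp, hτq⟩ := hfix τ hτ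
        have hA := grp_valid hτ (fits_of_mem (mem_rowClass.2 hNi))
        have hB := grp_valid hτ (hfit N' hN')
        refine hD1 _ _ j k hjk hij.symm hik.symm ⟨p, q, by omega, ?_, ?_⟩ ?_
        · rw [act_row hA, act_row hA]
          simp only [rowPerm, if_neg hij.symm, hτp, hτq]
          show N'.1 j (σ j p) ≠ N'.1 j (σ j q)
          simp [hσ, hjk, hjp, hjq]
        · funext x
          rw [act_row hB, act_row hA]
          simp only [rowPerm, if_neg hij.symm]
          show _ = N'.1 j (σ j _)
          simp [hσ, hjk, τ.injective.map_swap p q x, hτp, hτq]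
        · funext x
          rw [act_row hB, act_row hA]
          simp only [rowPerm, if_neg hik.symm]
          show _ = N'.1 k (σ k _)
          simp [hσ]
    intro N' hN'
    obtain ⟨j, k, hij, hik, hjk, -⟩ := exists_others i
    by_cases hjp : N'.1 j p = true
    · exact core j k hij hik hjk N' hN' hjp
    · have hkp : N'.1 k p = true := by
        have ep := col3 hij hik hjk N' p
        have hip : N'.1 i p = false := by rw [mem_rowClass.1 hN', hM']; simpa using hMq
        simp only [Bool.not_eq_true] at hjp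
        cases hh : N'.1 k p <;> simp [hip, hjp, hp, hh] at ep ⊢
      exact core k j hik hij hjk.symm N' hN' hkp
  -- compare the two averages
  set A := rowClass i M with hA
  set B := rowClass i M' with hB
  have hApos : (0:ℝ) < A.card := cls_card_pos _ M
  have hBpos : (0:ℝ) < B.card := cls_card_pos _ M'
  have hGpos : (0:ℝ) < G.card := Nat.cast_pos.2 (card_pos.2 ⟨1, one_mem_grp i M⟩)
  choose! φ hφA hφD using key
  have hBsum : ∑ N' ∈ B, ∑ τ ∈ G, h (act i τ N') = (G.card : ℝ) * ∑ X ∈ B, h X := by
    rw [sum_comm, ← nsmul_eq_mul, ← sum_const]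
    refine sum_congr rfl fun τ hτ => ?_
    have hinv := grp_inv hτ
    refine sum_nbij' (act i τ) (act i τ⁻¹) ?_ ?_ ?_ ?_ (fun _ _ => rfl)
    · intro X hX
      exact mem_rowClass.2 ((act_self hτ (hfit X hX)).trans (mem_rowClass.1 hX))
    · intro X hX
      exact mem_rowClass.2 ((act_self hinv (hfit X hX)).trans (mem_rowClass.1 hX))
    · intro X hX
      rw [act_act hτ hinv (hfit X hX), mul_inv_cancel, act_one (hfit X hX)]
    · intro X hX
      rw [act_act hinv hτ (hfit X hX), inv_mul_cancel, act_one (hfit X hX)]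
  have hAsum : ∑ N' ∈ B, ∑ τ ∈ G, h (act i τ (φ N'))
      = (B.card : ℝ) * ((G.card : ℝ) * ((∑ X ∈ A, h X) / A.card)) := by
    rw [← nsmul_eq_mul, ← sum_const]
    refine sum_congr rfl fun N' hN' => ?_
    have := sum_act i M h (hφA N' hN')
    rw [← mul_div_assoc, eq_div_iff hApos.ne']
    linarith
  have hbound : |∑ N' ∈ B, ∑ τ ∈ G, (h (act i τ (φ N')) - h (act i τ N'))|
      ≤ (B.card : ℝ) * ((G.card : ℝ) * D) := by
    refine (abs_sum_le_sum_abs _ _).trans ?_
    refine (sum_le_sum (g := fun _ => (G.card : ℝ) * D) fun N' hN' => ?_).trans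
      (by simp)
    refine (abs_sum_le_sum_abs _ _).trans ?_
    refine (sum_le_sum (g := fun _ => D) fun τ hτ => hφD N' hN' τ hτ).trans (by simp)
  simp only [sum_sub_distrib, hAsum, hBsum] at hbound
  show |(∑ X ∈ A, h X) / (A.card : ℝ) - (∑ X ∈ B, h X) / (B.card : ℝ)| ≤ D
  have e : (B.card : ℝ) * ((G.card : ℝ) * ((∑ X ∈ A, h X) / A.card))
      - (G.card : ℝ) * ∑ X ∈ B, h X = ((B.card : ℝ) * G.card) *
        ((∑ X ∈ A, h X) / (A.card : ℝ) - (∑ X ∈ B, h X) / (B.card : ℝ)) := by
    field_simp
  rw [e, abs_mul, abs_of_pos (by positivity), ← mul_assoc] at hbound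
  exact le_of_mul_le_mul_left hbound (by positivity)

/-- Tables are connected by switches. -/
theorem const_of_moves (g : Tables r c → ℝ) (hg : ∀ N N' : Tables r c, ∀ a b : Fin 3,
      a ≠ b → ∀ p q, Mv a N N' p q → Mv b N N' p q → (∀ t, t ≠ a → t ≠ b → N'.1 t = N.1 t) →
      g N = g N') : ∀ (n : ℕ) (M M' : Tables r c),
    (univ.filter (fun z : Fin 3 × C => M.1 z.1 z.2 ≠ M'.1 z.1 z.2)).card ≤ n → g M = g M' := by
  intro n
  induction n with
  | zero =>
    intro M M' hd
    have : M = M' := Subtype.ext (funext fun t => funext fun x => by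
      by_contra hne
      have hmem : (t, x) ∈ univ.filter (fun z : Fin 3 × C => M.1 z.1 z.2 ≠ M'.1 z.1 z.2) :=
        mem_filter.2 ⟨mem_univ _, hne⟩
      have := card_pos.2 ⟨_, hmem⟩
      omega)
    rw [this]
  | succ n ih =>
    intro M M' hd
    by_cases heq : M = M'
    · rw [heq]
    have swr : ∀ (a b : Fin 3) (x y : C), a ≠ b → M.1 a x = true → M.1 a y = false →
        M.1 b x = false → M.1 b y = true →
        ((M'.1 a x = false ∧ M'.1 a y = true ∧ M'.1 b x = true) ∨
         (M'.1 a x = false ∧ M'.1 a y = true ∧ M'.1 b y = false) ∨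
         (M'.1 a x = false ∧ M'.1 b x = true ∧ M'.1 b y = false) ∨
         (M'.1 a y = true ∧ M'.1 b x = true ∧ M'.1 b y = false)) → g M = g M' := by
      intro a b x y hab hax hay hbx hby himp
      have hxy : x ≠ y := fun e => by rw [e, hay] at hax; exact Bool.false_ne_true hax
      set σ : Fin 3 → Equiv.Perm C := fun t => if t = a ∨ t = b then Equiv.swap x y else 1 with hσ
      obtain ⟨e, he1, he2⟩ : ∃ e, e ≠ a ∧ e ≠ b := exists_third a b hab
      have hv : ∀ z, ∑ t, (M.1 t (σ t z)).toNat = c z := by
        intro z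
        rw [sum3 hab he1.symm he2.symm]
        simp only [hσ, true_or, or_true, if_true, he1, he2, or_self, if_false,
          Equiv.Perm.one_apply]
        have := col3 hab he1.symm he2.symm M z
        by_cases hzx : z = x
        · subst hzx; simp [hay, hby, hax, hbx] at this ⊢; omega
        by_cases hzy : z = y
        · subst hzy; simp [hay, hby, hax, hbx] at this ⊢; omega
        rw [Equiv.swap_apply_of_ne_of_ne hzx hzy]; exact this
      set N := permRows M σ hv with hN
      have hNr : ∀ t z, N.1 t z = M.1 t (σ t z) := fun _ _ => rfl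
      have h1 : g M = g N := hg M N a b hab x y
        ⟨by simp [hax, hay], funext fun z => by simp [hNr, hσ]⟩
        ⟨by simp [hbx, hby], funext fun z => by simp [hNr, hσ]⟩
        (fun t h1 h2 => funext fun z => by simp [hNr, hσ, h1, h2])
      rw [h1]
      refine ih N M' ?_
      set T := univ.filter (fun z : Fin 3 × C => M.1 z.1 z.2 ≠ M'.1 z.1 z.2) with hT
      set S := univ.filter (fun z : Fin 3 × C => N.1 z.1 z.2 ≠ M'.1 z.1 z.2) with hS
      set Z : Finset (Fin 3 × C) := {(a, x), (a, y), (b, x), (b, y)} with hZ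
      have hout : S \ Z = T \ Z := by
        ext ⟨t, z⟩
        simp only [hS, hT, mem_sdiff, mem_filter, mem_univ, true_and, hNr]
        refine and_congr_left fun hz => ?_
        simp only [hZ, Finset.mem_insert, Finset.mem_singleton, Prod.mk.injEq] at hz
        by_cases ht : t = a ∨ t = b
        · have : z ≠ x ∧ z ≠ y := by rcases ht with rfl | rfl <;> simp_all
          simp [hσ, ht, Equiv.swap_apply_of_ne_of_ne this.1 this.2]
        · simp [hσ, ht]
      have cnt : ∀ P : Fin 3 × C → Bool, (Z.filter fun z => P z = true).card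
          = (P (a, x)).toNat + (P (a, y)).toNat + (P (b, x)).toNat + (P (b, y)).toNat := by
        intro P
        rw [hZ, card_filter, sum_insert (by simp [hxy, hab]), sum_insert (by simp [hxy, hab]),
          sum_insert (by simp [hxy]), sum_singleton]
        cases P (a, x) <;> cases P (a, y) <;> cases P (b, x) <;> cases P (b, y) <;> rfl
      have inT : (T ∩ Z) = Z.filter (fun z => (M.1 z.1 z.2 != M'.1 z.1 z.2) = true) := by
        ext z; simp [hT, and_comm]
      have inS : (S ∩ Z) = Z.filter (fun z => (N.1 z.1 z.2 != M'.1 z.1 z.2) = true) := by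
        ext z; simp [hS, and_comm]
      have cT := cnt (fun z => M.1 z.1 z.2 != M'.1 z.1 z.2)
      have cS := cnt (fun z => N.1 z.1 z.2 != M'.1 z.1 z.2)
      rw [← inT] at cT
      rw [← inS] at cS
      have sT := card_inter_add_card_sdiff T Z
      have sS := card_inter_add_card_sdiff S Z
      rw [hout] at sS
      have hlt : (S ∩ Z).card < (T ∩ Z).card := by
        rw [cT, cS]
        simp only [hNr, hσ, true_or, or_true, if_true, Equiv.swap_apply_left,
          Equiv.swap_apply_right, hax, hay, hbx, hby]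
        exact flip_lt _ _ _ _ himp
      omega
    -- find an improving switch
    have rowEx : ∀ (t : Fin 3) (z : C), M.1 t z = true → M'.1 t z = false →
        ∃ w, M.1 t w = false ∧ M'.1 t w = true := by
      intro t z hz hz'
      by_contra hno
      push Not at hno
      have hsub : (univ.filter fun x => M'.1 t x = true) ⊂
          (univ.filter fun x => M.1 t x = true) := by
        refine (ssubset_iff_of_subset fun x hx => ?_).2 ⟨z, by simp [hz], by simp [hz']⟩
        simp only [mem_filter, mem_univ, true_and] at hx ⊢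
        cases h : M.1 t x
        · exact absurd hx (hno x h)
        · rfl
      have := card_lt_card hsub
      rw [M.2.1 t, M'.2.1 t] at this
      omega
    have rowEx' : ∀ (t : Fin 3) (z : C), M.1 t z = false → M'.1 t z = true →
        ∃ w, M.1 t w = true ∧ M'.1 t w = false := by
      intro t z hz hz'
      by_contra hno
      push Not at hno
      have hsub : (univ.filter fun x => M.1 t x = true) ⊂
          (univ.filter fun x => M'.1 t x = true) := by
        refine (ssubset_iff_of_subset fun x hx => ?_).2 ⟨z, by simp [hz'], by simp [hz]⟩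
        simp only [mem_filter, mem_univ, true_and] at hx ⊢
        simpa using hno x hx
      have := card_lt_card hsub
      rw [M.2.1 t, M'.2.1 t] at this
      omega
    obtain ⟨a, p, hap, hap'⟩ : ∃ a p, M.1 a p = true ∧ M'.1 a p = false := by
      by_contra hno
      push Not at hno
      apply heq
      refine Subtype.ext (funext fun t => funext fun z => ?_)
      cases h : M.1 t z
      · cases h' : M'.1 t z
        · rfl
        · obtain ⟨w, h1, h2⟩ := rowEx' t z h h'
          exact absurd h2 (hno t w h1)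
      · have := hno t z h
        simpa using this.symm
    obtain ⟨j, k, hj, hk, hjk, -⟩ := exists_others a
    obtain ⟨b, e, hb, hbe, hae, hbp, hbp'⟩ : ∃ b e, a ≠ b ∧ b ≠ e ∧ a ≠ e ∧
        M.1 b p = false ∧ M'.1 b p = true := by
      have e1 := col3 hj hk hjk M p
      have e2 := col3 hj hk hjk M' p
      cases h1 : M.1 j p <;> cases h2 : M'.1 j p <;> cases h3 : M.1 k p <;> cases h4 : M'.1 k p <;>
        first
        | exact ⟨j, k, hj, hjk, hk, h1, h2⟩
        | exact ⟨k, j, hk, hjk.symm, hj, h3, h4⟩
        | (exfalso; simp [hap, hap', h1, h2, h3, h4] at e1 e2; omega)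
    obtain ⟨q, haq, haq'⟩ := rowEx a p hap hap'
    by_cases hbq : M.1 b q = true
    · exact swr a b p q hb hap haq hbp hbq (Or.inl ⟨hap', haq', hbp'⟩)
    simp only [Bool.not_eq_true] at hbq
    have eq1 := col3 hb hae hbe M q
    have eq2 := col3 hb hae hbe M' q
    have heq' : M.1 e q = true ∧ M'.1 e q = false := by
      cases h1 : M.1 e q <;> cases h2 : M'.1 e q <;> cases h3 : M'.1 b q <;>
        simp [haq, haq', hbq, h1, h2, h3] at eq1 eq2 ⊢ <;> omega
    by_cases hep : M.1 e p = false
    · exact swr a e p q hae hap haq hep heq'.1 (Or.inr (Or.inl ⟨hap', haq', heq'.2⟩))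
    simp only [Bool.not_eq_false] at hep
    obtain ⟨s, hbs, hbs'⟩ := rowEx' b p hbp hbp'
    by_cases has : M.1 a s = false
    · exact swr b a s p hb.symm hbs hbp has hap
        (Or.inr (Or.inl ⟨hbs', hbp', hap'⟩))
    simp only [Bool.not_eq_false] at has
    have es1 := col3 hb hae hbe M s
    have es2 := col3 hb hae hbe M' s
    have hes : M.1 e s = false ∧ M'.1 e s = true := by
      cases h1 : M.1 e s <;> cases h2 : M'.1 e s <;> cases h3 : M'.1 a s <;>
        simp [has, hbs, hbs', h1, h2, h3] at es1 es2 ⊢ <;> omega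
    exact swr b e s p hbe hbs hbp hes.1 hep (Or.inl ⟨hbs', hbp', hes.2⟩)

end ThreeRowAux

open ThreeRowAux in
theorem three_row {r : Fin 3 → ℕ} {c : C → ℕ} (f : Tables r c → ℝ) :
    ip f (rowL f) ≤ ip (rowL f) (rowL f) := by
  let key : Fin 3 → Tables r c → (C → Bool) := fun i N => N.1 i
  let T : (Tables r c → ℝ) →ₗ[ℝ] (Tables r c → ℝ) :=
    { toFun := rowL
      map_add' := fun f g => by
        funext M
        simp only [rowL, dev_add, Pi.add_apply, sum_add_distrib]
      map_smul' := fun a f => by
        funext M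
        simp only [rowL, dev_smul, Pi.smul_apply, smul_eq_mul, mul_sum, RingHom.id_apply] }
  have hTs : ∀ f, T f = ∑ i, dev (key i) f := fun f => by
    funext M; simp [T, rowL, key, Finset.sum_apply]
  have hsym : ∀ f g, ip (T f) g = ip f (T g) := by
    intro f g
    have h1 : ∀ f g : Tables r c → ℝ, ip (rowL f) g = ∑ i, ip (dev (key i) f) g := fun f g => by
      simp only [ip, rowL, sum_mul, key]; exact sum_comm
    show ip (rowL f) g = ip f (rowL g)
    rw [h1, ip_comm f, h1]
    exact sum_congr rfl fun i _ => by rw [ip_dev_comm, ip_comm]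
  refine ip_le_of_eigen T hsym ?_ f
  intro f μ hf hμ
  by_contra hcon
  push Not at hcon
  obtain ⟨hμ0, hμ1⟩ := hcon
  set g : Fin 3 → Tables r c → ℝ := fun i => avg (key i) f with hg
  have hsum : ∀ M, ∑ i, g i M = (3 - μ) * f M := by
    intro M
    have h := congrFun hμ M
    simp only [T, LinearMap.coe_mk, AddHom.coe_mk, rowL, dev, Pi.smul_apply, smul_eq_mul,
      sum_sub_distrib, sum_const, card_univ, Fintype.card_fin, nsmul_eq_mul] at h
    simp only [hg, key]
    push_cast at h
    linarith
  have hgrow : ∀ t (N N' : Tables r c), N'.1 t = N.1 t → g t N = g t N' := fun t N N' h =>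
    avg_congr f h.symm
  -- the bound for one move, in terms of a bound on the two other rows
  have hrec : ∀ (i : Fin 3) (M M' : Tables r c) (D : ℝ), 0 ≤ D →
      (∀ j k, i ≠ j → i ≠ k → j ≠ k →
        |avg (key i) (fun N => g j N + g k N) M - avg (key i) (fun N => g j N + g k N) M'| ≤ D) →
      (2 - μ) * |g i M - g i M'| ≤ D := by
    intro i M M' D _ hD
    obtain ⟨j, k, hij, hik, hjk, -⟩ := exists_others i
    have he : ∀ X, (2 - μ) * g i X = avg (key i) (fun N => g j N + g k N) X := by
      intro X
      have hh : avg (key i) (fun N => ∑ t, g t N) X = (3 - μ) * g i X := by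
        simp only [hsum]
        simp [hg, avg, ← mul_sum, mul_div_assoc]
      have hh2 : avg (key i) (fun N => ∑ t, g t N) X
          = g i X + avg (key i) (fun N => g j N + g k N) X := by
        have e : (fun N => ∑ t, g t N) = g i + fun N => g j N + g k N := by
          funext N
          rw [sum3 hij hik hjk]; simp [add_assoc]
        rw [e]
        have : avg (key i) (g i + fun N => g j N + g k N) X
            = avg (key i) (g i) X + avg (key i) (fun N => g j N + g k N) X := by
          simp [avg, sum_add_distrib, add_div]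
        rw [this]
        congr 1
        exact congrFun (avg_avg (key i) f) X
      linarith
    have := hD j k hij hik hjk
    rw [← he, ← he, ← mul_sub, abs_mul, abs_of_pos (by linarith)] at this
    exact this
  -- the largest changes along moves
  have hmax : ∀ P : Fin 3 → Tables r c → Tables r c → Prop, ∃ L : ℝ, 0 ≤ L ∧
      (∀ t N N', P t N N' → |g t N - g t N'| ≤ L) ∧
      (L = 0 ∨ ∃ t N N', P t N N' ∧ |g t N - g t N'| = L) := by
    intro P
    by_cases hne : (univ.filter fun z : Fin 3 × Tables r c × Tables r c =>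
        P z.1 z.2.1 z.2.2).Nonempty
    · obtain ⟨z, hz, hzmax⟩ := exists_max_image _
        (fun z : Fin 3 × Tables r c × Tables r c => |g z.1 z.2.1 - g z.1 z.2.2|) hne
      exact ⟨_, abs_nonneg _, fun t N N' h => hzmax (t, N, N') (mem_filter.2 ⟨mem_univ _, h⟩),
        Or.inr ⟨z.1, z.2.1, z.2.2, (mem_filter.1 hz).2, rfl⟩⟩
    · refine ⟨0, le_rfl, fun t N N' h => absurd ⟨(t, N, N'), mem_filter.2 ⟨mem_univ _, h⟩⟩ hne,
        Or.inl rfl⟩
  obtain ⟨L₀, hL₀, hW, hW'⟩ := hmax Wstep
  obtain ⟨L₁, hL₁, hX, hX'⟩ := hmax Xstep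
  -- splitting the change of the sum of two rows
  have hpair : ∀ (i j k : Fin 3), i ≠ j → i ≠ k → j ≠ k → ∀ (N N' : Tables r c) (t u : Fin 3),
      t ≠ u → t ≠ i → u ≠ i →
      |(g j N + g k N) - (g j N' + g k N')| ≤ |g t N - g t N'| + |g u N - g u N'| := by
    intro i j k hij hik hjk N N' t u htu hti hui
    have : (t = j ∧ u = k) ∨ (t = k ∧ u = j) := by
      exact pair_cases i j k t u hij hik hjk htu hti hui
    rcases this with ⟨rfl, rfl⟩ | ⟨rfl, rfl⟩ <;>
      [skip; rw [add_comm |g t N - g t N'|]] <;>
      refine le_trans (le_of_eq ?_) (abs_add_le _ _) <;> congr 1 <;> ring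
  have hz : ∀ (u : Fin 3) (N N' : Tables r c), N'.1 u = N.1 u → |g u N - g u N'| = 0 :=
    fun u N N' h => by rw [hgrow u N N' h, sub_self, abs_zero]
  have hWrec : (2 - μ) * L₀ ≤ L₀ := by
    rcases hW' with h0 | ⟨i, M, M', ⟨p, q, hc, hmv⟩, hv⟩
    · simp [h0]
    rw [← hv]
    refine (hrec i M M' L₀ hL₀ fun j k hij hik hjk => ?_).trans hv.ge
    refine close_within hc hmv _ L₀ fun N N' t u htu hti hui hstep hu => ?_
    refine (hpair i j k hij hik hjk N N' t u htu hti hui).trans ?_
    rw [hz u N N' hu, add_zero]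
    exact hW t N N' hstep
  have hL₀0 : L₀ = 0 := by nlinarith
  have hXrec : (2 - μ) * L₁ ≤ L₁ + L₀ := by
    rcases hX' with h0 | ⟨i, M, M', ⟨p, q, hc, hne, hrow⟩, hv⟩
    · simp [h0, hL₀]
    have main : ∀ (X X' : Tables r c) (a b : C), c a = 1 → c b = 2 → X.1 i a = true →
        X.1 i b = false → (X'.1 i = fun x => X.1 i (Equiv.swap a b x)) →
        (2 - μ) * |g i X - g i X'| ≤ L₁ + L₀ := by
      intro X X' a b ha hb hXa hXb hX'
      refine hrec i X X' (L₁ + L₀) (by linarith) fun j k hij hik hjk => ?_
      refine close_cross ha hb hXa hXb hX' _ (L₁ + L₀)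
        (fun N N' t u htu hti hui hstep hu => ?_) (fun N N' t u htu hti hui hstep hu => ?_)
      · refine (hpair i j k hij hik hjk N N' t u htu hti hui).trans ?_
        rw [hz u N N' hu]
        linarith [hX t N N' hstep]
      · refine (hpair i j k hij hik hjk N N' t u htu hti hui).trans ?_
        linarith [hX t N N' hstep, hW u N N' hu]
    obtain ⟨j, k, hij, hik, hjk, -⟩ := exists_others i
    have hrow' : ∀ z, M'.1 i z = M.1 i (Equiv.swap p q z) := fun z => by rw [hrow]
    have e1 := col3 hij hik hjk M p
    have e2 := col3 hij hik hjk M q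
    have e3 := col3 hij hik hjk M' p
    have e4 := col3 hij hik hjk M' q
    rw [hrow' p, Equiv.swap_apply_left] at e3
    rw [hrow' q, Equiv.swap_apply_right] at e4
    have hswap : ∀ X : Tables r c, (fun x => X.1 i (Equiv.swap q p x))
        = fun x => X.1 i (Equiv.swap p q x) := fun X => funext fun x => by rw [Equiv.swap_comm]
    have hback : M.1 i = fun x => M'.1 i (Equiv.swap p q x) := funext fun x => by
      rw [hrow']; simp
    have hM'p : M'.1 i p = M.1 i q := by rw [hrow']; simp
    have hM'q : M'.1 i q = M.1 i p := by rw [hrow']; simp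
    have b3 : ∀ b : Bool, b.toNat ≤ 1 := fun b => by cases b <;> simp
    have := b3 (M.1 j p); have := b3 (M.1 k p); have := b3 (M.1 j q); have := b3 (M.1 k q)
    have := b3 (M'.1 j p); have := b3 (M'.1 k p); have := b3 (M'.1 j q); have := b3 (M'.1 k q)
    rw [← hv]
    cases hip : M.1 i p <;> cases hiq : M.1 i q
    · exact absurd (hip.trans hiq.symm) hne
    · -- `q` holds the entry
      simp only [hip, hiq, Bool.toNat_false, Bool.toNat_true] at e1 e2 e3 e4
      rcases (by omega : (c q = 1 ∧ c p = 2) ∨ (c p = 1 ∧ c q = 2)) with ⟨h1, h2⟩ | ⟨h1, h2⟩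
      · exact (main M M' q p h1 h2 hiq hip (by rw [hswap]; exact hrow)).trans
          (by rw [hv])
      · rw [abs_sub_comm]
        exact (main M' M p q h1 h2 (hM'p.trans hiq) (hM'q.trans hip) hback).trans
          (by rw [abs_sub_comm, hv])
    · simp only [hip, hiq, Bool.toNat_false, Bool.toNat_true] at e1 e2 e3 e4
      rcases (by omega : (c p = 1 ∧ c q = 2) ∨ (c q = 1 ∧ c p = 2)) with ⟨h1, h2⟩ | ⟨h1, h2⟩
      · exact (main M M' p q h1 h2 hip hiq hrow).trans (by rw [hv])
      · rw [abs_sub_comm]
        exact (main M' M q p h1 h2 (hM'q.trans hip) (hM'p.trans hiq)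
          (by rw [hswap]; exact hback)).trans (by rw [abs_sub_comm, hv])
    · exact absurd (hip.trans hiq.symm) hne
  have hL₁0 : L₁ = 0 := by nlinarith
  have hmove : ∀ t N N' p q, Mv t N N' p q → g t N = g t N' := by
    intro t N N' p q h
    have h0 : |g t N - g t N'| ≤ 0 := by
      rcases step_of_mv h with h | h
      · exact hL₀0 ▸ hW t N N' h
      · exact hL₁0 ▸ hX t N N' h
    exact sub_eq_zero.1 (abs_nonpos_iff.1 h0)
  have hconst : ∀ t M M', g t M = g t M' := by
    intro t M M'
    refine const_of_moves (g t) (fun N N' a b _ p q ha hb ho => ?_) _ M M' le_rfl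
    by_cases h1 : t = a
    · subst h1; exact hmove t N N' p q ha
    by_cases h2 : t = b
    · subst h2; exact hmove t N N' p q hb
    exact hgrow t N N' (ho t h1 h2)
  have hfc : ∀ M M', f M = f M' := by
    intro M M'
    have h1 := hsum M
    have h2 := hsum M'
    rw [sum_congr rfl fun t _ => hconst t M M'] at h1
    exact mul_left_cancel₀ (show (3 - μ) ≠ 0 by linarith) (h1.symm.trans h2)
  have hT0 : T f = 0 := by
    rw [hTs]
    refine sum_eq_zero fun i _ => funext fun M => ?_
    simp [dev, congrFun (avg_of_invariant (key i) f fun x y _ => hfc x y) M]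
  rw [hμ] at hT0
  exact hf ((smul_eq_zero.1 hT0).resolve_left hμ0)


end Vale.Agent.P335
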