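import Mathlib
import Vale.Agent.P335.Defs
import Vale.Agent.P335.Basic
import Vale.Agent.P335.ThreeRow

/-! The fibre of a vertex triangle as a set of three-row tables. -/

namespace Vale.Agent.P335.TriangleAux

open Finset
open scoped Classical

variable {n : ℕ} {d : Fin n → ℕ}

/-- Vertices outside the triangle. -/
abbrev Out (a b c : Fin n) : Type := {w : Fin n // w ≠ a ∧ w ≠ b ∧ w ≠ c}

/-- What is fixed when only the edges at the triangle are re-shared. -/
noncomputable def triKey (a b c : Fin n) (G : Realization d) :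
    (Out a b c → Out a b c → ℕ) × (Out a b c → ℕ) × ℕ :=
  (fun i j => adjN G i.1 j.1, fun w => adjN G a w.1 + adjN G b w.1 + adjN G c w.1,
    adjN G b c + adjN G c a + adjN G a b)

theorem triKey_eq_iff {a b c : Fin n} (G H : Realization d) :
    triKey a b c G = triKey a b c H ↔
      (∀ i j : Out a b c, adjN G i.1 j.1 = adjN H i.1 j.1) ∧
      (∀ w : Out a b c, adjN G a w.1 + adjN G b w.1 + adjN G c w.1
        = adjN H a w.1 + adjN H b w.1 + adjN H c w.1) ∧
      adjN G b c + adjN G c a + adjN G a b = adjN H b c + adjN H c a + adjN H a b := by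
  simp [triKey, funext_iff]

theorem triKey_rotate {a b c : Fin n} (G H : Realization d) :
    triKey b c a G = triKey b c a H ↔ triKey a b c G = triKey a b c H := by
  rw [triKey_eq_iff, triKey_eq_iff]
  constructor
  · rintro ⟨h1, h2, h3⟩
    refine ⟨fun i j => h1 ⟨i.1, i.2.2.1, i.2.2.2, i.2.1⟩ ⟨j.1, j.2.2.1, j.2.2.2, j.2.1⟩,
      fun w => ?_, by omega⟩
    have := h2 ⟨w.1, w.2.2.1, w.2.2.2, w.2.1⟩
    simp only at this
    omega
  · rintro ⟨h1, h2, h3⟩
    refine ⟨fun i j => h1 ⟨i.1, i.2.2.2, i.2.1, i.2.2.1⟩ ⟨j.1, j.2.2.2, j.2.1, j.2.2.1⟩,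
      fun w => ?_, by omega⟩
    have := h2 ⟨w.1, w.2.2.2, w.2.1, w.2.2.1⟩
    simp only at this
    omega

/-- Within a triangle fibre, the key of `(b, c)` amounts to the row of `a`. -/
theorem pairKey_eq_iff_row {a b c : Fin n} (hab : a ≠ b) (hac : a ≠ c) (hbc : b ≠ c)
    (G H : Realization d) :
    pairKey b c G = pairKey b c H ↔
      triKey a b c G = triKey a b c H ∧
      (∀ w : Out a b c, adjN G a w.1 = adjN H a w.1) ∧ adjN G b c = adjN H b c := by
  rw [pairKey_eq_iff hbc, triKey_eq_iff]
  constructor
  · rintro ⟨h1, h2, h3⟩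
    refine ⟨⟨fun i j => h1 _ _ i.2.2.1 i.2.2.2 j.2.2.1 j.2.2.2, fun w => ?_, ?_⟩,
      fun w => h1 _ _ hab hac w.2.2.1 w.2.2.2, h2⟩
    · have e1 := h1 a w.1 hab hac w.2.2.1 w.2.2.2
      have e2 := h3 w.1 w.2.2.1 w.2.2.2
      omega
    · have e2 := h3 a hab hac
      have := adjN_comm G a b
      have := adjN_comm H a b
      omega
  · rintro ⟨⟨h1, h2, h3⟩, h4, h5⟩
    refine ⟨fun i j hib hic hjb hjc => ?_, h5, fun w hwb hwc => ?_⟩
    · by_cases hi : i = a
      · by_cases hj : j = a
        · rw [hi, hj, adjN_self, adjN_self]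
        · rw [hi]; exact h4 ⟨j, hj, hjb, hjc⟩
      · by_cases hj : j = a
        · rw [hj, adjN_comm G, adjN_comm H]; exact h4 ⟨i, hi, hib, hic⟩
        · exact h1 ⟨i, hi, hib, hic⟩ ⟨j, hj, hjb, hjc⟩
    · by_cases hw : w = a
      · subst hw
        have := adjN_comm G w b
        have := adjN_comm H w b
        omega
      · have e1 := h2 ⟨w, hw, hwb, hwc⟩
        have e2 := h4 ⟨w, hw, hwb, hwc⟩
        simp only at e1 e2
        omega

theorem sum_split {a b c : Fin n} (hab : a ≠ b) (hac : a ≠ c) (hbc : b ≠ c) (g : Fin n → ℕ) :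
    ∑ j, g j = g a + g b + g c + ∑ w : Out a b c, g w.1 := by
  have h := (Finset.sum_add_sum_compl ({a, b, c} : Finset (Fin n)) g).symm
  rw [h]
  congr 1
  · rw [Finset.sum_insert (by simp [hab, hac]), Finset.sum_pair hbc]; omega
  · exact Finset.sum_subtype _ (fun x => by simp) g

/-- The two other corners of row `i`. -/
def opp (a b c : Fin n) : Fin 3 → Fin n × Fin n := ![(b, c), (c, a), (a, b)]

/-- The three-row table of a graph. -/
noncomputable def tbl (a b c : Fin n) (G : Realization d) :
    Fin 3 → Option (Out a b c) → Bool :=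
  fun i p => match p with
    | some w => decide (G.1.Adj (![a, b, c] i) w.1)
    | none => !decide (G.1.Adj (opp a b c i).1 (opp a b c i).2)

theorem tbl_some (a b c : Fin n) (G : Realization d) (i : Fin 3) (w : Out a b c) :
    (if tbl a b c G i (some w) = true then 1 else 0) = adjN G (![a, b, c] i) w.1 := by
  simp [tbl, adjN]

theorem tbl_none (a b c : Fin n) (G : Realization d) (i : Fin 3) :
    (if tbl a b c G i none = true then 1 else 0) + adjN G (opp a b c i).1 (opp a b c i).2 = 1 := by
  by_cases h : G.1.Adj (opp a b c i).1 (opp a b c i).2 <;> simp [tbl, adjN, h]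

/-- Number of true entries in a column. -/
noncomputable def colSum {C : Type*} (M : Fin 3 → C → Bool) (p : C) : ℕ :=
  (univ.filter (fun i => M i p = true)).card

/-- Number of true entries in a row. -/
noncomputable def rowSum {C : Type*} [Fintype C] (M : Fin 3 → C → Bool) (i : Fin 3) : ℕ :=
  (univ.filter (fun p => M i p = true)).card

theorem colSum_eq {C : Type*} (M : Fin 3 → C → Bool) (p : C) :
    colSum M p = (if M 0 p = true then 1 else 0) + (if M 1 p = true then 1 else 0)
      + (if M 2 p = true then 1 else 0) := by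
  rw [colSum, Finset.card_filter, Fin.sum_univ_three]

theorem rowSum_eq {a b c : Fin n} (M : Fin 3 → Option (Out a b c) → Bool) (i : Fin 3) :
    rowSum M i = (if M i none = true then 1 else 0) +
      ∑ w : Out a b c, if M i (some w) = true then 1 else 0 := by
  rw [rowSum, Finset.card_filter, Fintype.sum_option]

theorem colSum_tbl_some (a b c : Fin n) (G : Realization d) (w : Out a b c) :
    colSum (tbl a b c G) (some w) = adjN G a w.1 + adjN G b w.1 + adjN G c w.1 := by
  rw [colSum_eq, tbl_some, tbl_some, tbl_some]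
  simp

theorem colSum_tbl_none (a b c : Fin n) (G : Realization d) :
    colSum (tbl a b c G) none + (adjN G b c + adjN G c a + adjN G a b) = 3 := by
  have h0 := tbl_none a b c G 0
  have h1 := tbl_none a b c G 1
  have h2 := tbl_none a b c G 2
  rw [colSum_eq]
  simp [opp] at h0 h1 h2 ⊢
  omega

theorem rowSum_tbl {a b c : Fin n} (hab : a ≠ b) (hac : a ≠ c) (hbc : b ≠ c)
    (G : Realization d) (i : Fin 3) :
    rowSum (tbl a b c G) i + (adjN G b c + adjN G c a + adjN G a b) = d (![a, b, c] i) + 1 := by
  have h := tbl_none a b c G i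
  have hs := sum_split hab hac hbc (adjN G (![a, b, c] i))
  rw [sum_adjN] at hs
  rw [rowSum_eq]
  simp only [tbl_some]
  have ha := adjN_self G a
  have hb := adjN_self G b
  have hc := adjN_self G c
  have := adjN_comm G a b
  have := adjN_comm G b c
  have := adjN_comm G c a
  fin_cases i <;> simp [opp] at h hs ⊢ <;> omega

/-- Position of a vertex in the triangle. -/
def pos (a b c i : Fin n) : Option (Fin 3) :=
  if i = a then some 0 else if i = b then some 1 else if i = c then some 2 else none

theorem pos_out {a b c : Fin n} (w : Out a b c) : pos a b c w.1 = none := by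
  simp [pos, w.2.1, w.2.2.1, w.2.2.2]

/-- The third element of `Fin 3`. -/
def third : Fin 3 → Fin 3 → Fin 3 := ![![0, 2, 1], ![2, 1, 0], ![1, 0, 2]]

theorem third_comm : ∀ p q, third p q = third q p := by decide

/-- Adjacency rebuilt from a table `M` and the edges of `G` outside the triangle. -/
noncomputable def rebuildAdj (a b c : Fin n) (G : Realization d)
    (M : Fin 3 → Option (Out a b c) → Bool) (i j : Fin n) : Bool :=
  match pos a b c i, pos a b c j with
  | none, none => decide (G.1.Adj i j)
  | some p, none => if h : j ≠ a ∧ j ≠ b ∧ j ≠ c then M p (some ⟨j, h⟩) else false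
  | none, some q => if h : i ≠ a ∧ i ≠ b ∧ i ≠ c then M q (some ⟨i, h⟩) else false
  | some p, some q => if p = q then false else !(M (third p q) none)

theorem rebuildAdj_comm (a b c : Fin n) (G : Realization d)
    (M : Fin 3 → Option (Out a b c) → Bool) (i j : Fin n) :
    rebuildAdj a b c G M i j = rebuildAdj a b c G M j i := by
  unfold rebuildAdj
  rcases pos a b c i with _ | p <;> rcases pos a b c j with _ | q <;>
    simp [SimpleGraph.adj_comm, eq_comm, third_comm]

theorem rebuildAdj_self (a b c : Fin n) (G : Realization d)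
    (M : Fin 3 → Option (Out a b c) → Bool) (i : Fin n) :
    rebuildAdj a b c G M i i = false := by
  unfold rebuildAdj
  rcases pos a b c i with _ | p <;> simp

/-- The graph rebuilt from a table. -/
noncomputable def rebuildGraph (a b c : Fin n) (G : Realization d)
    (M : Fin 3 → Option (Out a b c) → Bool) : SimpleGraph (Fin n) where
  Adj i j := rebuildAdj a b c G M i j = true
  symm := ⟨fun i j h => by rwa [rebuildAdj_comm]⟩
  loopless := ⟨fun i h => by simp [rebuildAdj_self] at h⟩

theorem rebuild_degree {a b c : Fin n} (hab : a ≠ b) (hac : a ≠ c) (hbc : b ≠ c)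
    (G : Realization d) (M : Fin 3 → Option (Out a b c) → Bool)
    (hr : ∀ i, rowSum M i = rowSum (tbl a b c G) i)
    (hcol : ∀ p, colSum M p = colSum (tbl a b c G) p) (i : Fin n) :
    ((rebuildGraph a b c G M).neighborSet i).ncard = d i := by
  have hcard : ((rebuildGraph a b c G M).neighborSet i).ncard =
      ∑ j, if rebuildAdj a b c G M i j = true then 1 else 0 := by
    rw [← Finset.card_filter, ← Set.ncard_coe_finset]
    congr 1
    ext j
    simp [rebuildGraph]
  rw [hcard, sum_split hab hac hbc]
  have pa : pos a b c a = some 0 := by simp [pos]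
  have pb : pos a b c b = some 1 := by simp [pos, hab.symm]
  have pc : pos a b c c = some 2 := by simp [pos, hac.symm, hbc.symm]
  have hout : ∀ w : Out a b c, ∀ p : Fin 3,
      (if h : w.1 ≠ a ∧ w.1 ≠ b ∧ w.1 ≠ c then M p (some ⟨w.1, h⟩) else false) = M p (some w) :=
    fun w p => dif_pos w.2
  have h3 := colSum_tbl_none a b c G
  have hn := hcol none
  rw [colSum_eq] at hn
  have hcases : i = a ∨ i = b ∨ i = c ∨ (i ≠ a ∧ i ≠ b ∧ i ≠ c) := by tauto
  rcases hcases with rfl | rfl | rfl | hi
  · have hR := hr 0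
    have hT := rowSum_tbl hab hac hbc G 0
    rw [rowSum_eq] at hR
    simp only [rebuildAdj, pa, pb, pc, pos_out, hout]
    simp [third] at hR hT ⊢
    rcases Bool.eq_false_or_eq_true (M 0 none) with e0 | e0 <;>
      rcases Bool.eq_false_or_eq_true (M 1 none) with e1 | e1 <;>
      rcases Bool.eq_false_or_eq_true (M 2 none) with e2 | e2 <;>
      simp [e0, e1, e2] at hn hR ⊢ <;> omega
  · have hR := hr 1
    have hT := rowSum_tbl hab hac hbc G 1
    rw [rowSum_eq] at hR
    simp only [rebuildAdj, pa, pb, pc, pos_out, hout]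
    simp [third] at hR hT ⊢
    rcases Bool.eq_false_or_eq_true (M 0 none) with e0 | e0 <;>
      rcases Bool.eq_false_or_eq_true (M 1 none) with e1 | e1 <;>
      rcases Bool.eq_false_or_eq_true (M 2 none) with e2 | e2 <;>
      simp [e0, e1, e2] at hn hR ⊢ <;> omega
  · have hR := hr 2
    have hT := rowSum_tbl hab hac hbc G 2
    rw [rowSum_eq] at hR
    simp only [rebuildAdj, pa, pb, pc, pos_out, hout]
    simp [third] at hR hT ⊢
    rcases Bool.eq_false_or_eq_true (M 0 none) with e0 | e0 <;>
      rcases Bool.eq_false_or_eq_true (M 1 none) with e1 | e1 <;>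
      rcases Bool.eq_false_or_eq_true (M 2 none) with e2 | e2 <;>
      simp [e0, e1, e2] at hn hR ⊢ <;> omega
  · have hC := (hcol (some ⟨i, hi⟩)).trans (colSum_tbl_some a b c G ⟨i, hi⟩)
    rw [colSum_eq] at hC
    have hs := sum_split hab hac hbc (adjN G i)
    rw [sum_adjN] at hs
    have := adjN_comm G a i
    have := adjN_comm G b i
    have := adjN_comm G c i
    have pi : pos a b c i = none := by simp [pos, hi]
    simp only [rebuildAdj, pa, pb, pc, pos_out, pi]
    simp [hi, adjN] at hC hs ⊢
    simp [adjN] at *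
    omega

/-- The realisation rebuilt from a table with the margins of `G`. -/
noncomputable def rebuild {a b c : Fin n} (hab : a ≠ b) (hac : a ≠ c) (hbc : b ≠ c)
    (G : Realization d)
    (M : Tables (rowSum (tbl a b c G)) (colSum (tbl a b c G))) : Realization d :=
  ⟨rebuildGraph a b c G M.1, rebuild_degree hab hac hbc G M.1 M.2.1 M.2.2⟩

theorem tbl_rebuild {a b c : Fin n} (hab : a ≠ b) (hac : a ≠ c) (hbc : b ≠ c)
    (G : Realization d)
    (M : Tables (rowSum (tbl a b c G)) (colSum (tbl a b c G))) :
    tbl a b c (rebuild hab hac hbc G M) = M.1 := by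
  funext i p
  have pa : pos a b c a = some 0 := by simp [pos]
  have pb : pos a b c b = some 1 := by simp [pos, hab.symm]
  have pc : pos a b c c = some 2 := by simp [pos, hac.symm, hbc.symm]
  rcases p with _ | w
  · fin_cases i <;>
      simp [tbl, opp, rebuild, rebuildGraph, rebuildAdj, pa, pb, pc, third]
  · have := w.2
    fin_cases i <;>
      simp [tbl, rebuild, rebuildGraph, rebuildAdj, pa, pb, pc, pos_out, this]

theorem triKey_rebuild {a b c : Fin n} (hab : a ≠ b) (hac : a ≠ c) (hbc : b ≠ c)
    (G : Realization d)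
    (M : Tables (rowSum (tbl a b c G)) (colSum (tbl a b c G))) :
    triKey a b c (rebuild hab hac hbc G M) = triKey a b c G := by
  have ht := tbl_rebuild hab hac hbc G M
  refine (triKey_eq_iff _ _).2 ⟨fun i j => ?_, fun w => ?_, ?_⟩
  · simp [adjN, rebuild, rebuildGraph, rebuildAdj, pos_out]
  · rw [← colSum_tbl_some, ← colSum_tbl_some, ht]
    exact M.2.2 _
  · have h1 := colSum_tbl_none a b c (rebuild hab hac hbc G M)
    have h2 := colSum_tbl_none a b c G
    rw [ht] at h1
    have h3 : colSum M.1 none = colSum (tbl a b c G) none := M.2.2 none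
    omega

theorem eq_of_tbl {a b c : Fin n} (hab : a ≠ b) (hac : a ≠ c) (hbc : b ≠ c)
    {G H : Realization d} (hk : triKey a b c G = triKey a b c H)
    (ht : tbl a b c G = tbl a b c H) : G = H := by
  obtain ⟨h1, -, -⟩ := (triKey_eq_iff _ _).1 hk
  have hrow : ∀ (i : Fin 3) (w : Out a b c),
      adjN G (![a, b, c] i) w.1 = adjN H (![a, b, c] i) w.1 := fun i w => by
    rw [← tbl_some, ← tbl_some, ht]
  have hin : ∀ i : Fin 3,
      adjN G (opp a b c i).1 (opp a b c i).2 = adjN H (opp a b c i).1 (opp a b c i).2 := fun i => by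
    have e1 := tbl_none a b c G i
    have e2 := tbl_none a b c H i
    rw [ht] at e1
    omega
  have key : pairKey b c G = pairKey b c H :=
    (pairKey_eq_iff_row hab hac hbc G H).2 ⟨hk, fun w => hrow 0 w, hin 0⟩
  obtain ⟨k1, k2, k3⟩ := (pairKey_eq_iff hbc G H).1 key
  refine realization_ext fun i j => ?_
  have hb' : ∀ x, adjN G b x = adjN H b x := fun x => by
    by_cases hxa : x = a
    · subst hxa; rw [adjN_comm G, adjN_comm H]; exact hin 2
    by_cases hxb : x = b
    · subst hxb; rw [adjN_self, adjN_self]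
    by_cases hxc : x = c
    · subst hxc; exact k2
    exact hrow 1 ⟨x, hxa, hxb, hxc⟩
  have hc' : ∀ x, adjN G c x = adjN H c x := fun x => by
    by_cases hxc : x = c
    · subst hxc; rw [adjN_self, adjN_self]
    by_cases hxb : x = b
    · subst hxb; rw [adjN_comm G, adjN_comm H]; exact k2
    have := k3 x hxb hxc
    have := hb' x
    omega
  by_cases hib : i = b
  · rw [hib]; exact hb' j
  by_cases hic : i = c
  · rw [hic]; exact hc' j
  by_cases hjb : j = b
  · rw [hjb, adjN_comm G, adjN_comm H]; exact hb' i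
  by_cases hjc : j = c
  · rw [hjc, adjN_comm G, adjN_comm H]; exact hc' i
  exact k1 i j hib hic hjb hjc

theorem tbl_margins {a b c : Fin n} (hab : a ≠ b) (hac : a ≠ c) (hbc : b ≠ c)
    {G H : Realization d} (hk : triKey a b c H = triKey a b c G) :
    (∀ i, rowSum (tbl a b c H) i = rowSum (tbl a b c G) i) ∧
    ∀ p, colSum (tbl a b c H) p = colSum (tbl a b c G) p := by
  obtain ⟨-, h2, h3⟩ := (triKey_eq_iff _ _).1 hk
  refine ⟨fun i => ?_, fun p => ?_⟩
  · have e1 := rowSum_tbl hab hac hbc H i
    have e2 := rowSum_tbl hab hac hbc G i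
    omega
  · rcases p with _ | w
    · have e1 := colSum_tbl_none a b c H
      have e2 := colSum_tbl_none a b c G
      omega
    · rw [colSum_tbl_some, colSum_tbl_some]; exact h2 w

/-- A triangle fibre is the set of tables with the given margins. -/
noncomputable def fibreEquiv {a b c : Fin n} (hab : a ≠ b) (hac : a ≠ c) (hbc : b ≠ c)
    (G : Realization d) :
    {H : Realization d // triKey a b c H = triKey a b c G} ≃
      Tables (rowSum (tbl a b c G)) (colSum (tbl a b c G)) where
  toFun H := ⟨tbl a b c H.1, (tbl_margins hab hac hbc H.2).1, (tbl_margins hab hac hbc H.2).2⟩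
  invFun M := ⟨rebuild hab hac hbc G M, triKey_rebuild hab hac hbc G M⟩
  left_inv H := Subtype.ext (eq_of_tbl hab hac hbc
    ((triKey_rebuild hab hac hbc G _).trans H.2.symm) (tbl_rebuild hab hac hbc G _))
  right_inv M := Subtype.ext (tbl_rebuild hab hac hbc G M)

/-- Row `i` of the table carries the same information as the key of the opposite pair. -/
theorem tbl_row_iff {a b c : Fin n} (hab : a ≠ b) (hac : a ≠ c) (hbc : b ≠ c)
    (G H : Realization d) (i : Fin 3) :
    pairKey (opp a b c i).1 (opp a b c i).2 G = pairKey (opp a b c i).1 (opp a b c i).2 H ↔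
      triKey a b c G = triKey a b c H ∧ tbl a b c G i = tbl a b c H i := by
  have hrow : tbl a b c G i = tbl a b c H i ↔
      (∀ w : Out a b c, adjN G (![a, b, c] i) w.1 = adjN H (![a, b, c] i) w.1) ∧
      adjN G (opp a b c i).1 (opp a b c i).2 = adjN H (opp a b c i).1 (opp a b c i).2 := by
    constructor
    · intro h
      refine ⟨fun w => by rw [← tbl_some, ← tbl_some, h], ?_⟩
      have e1 := tbl_none a b c G i
      have e2 := tbl_none a b c H i
      rw [h] at e1
      omega
    · rintro ⟨h1, h2⟩
      funext p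
      rcases p with _ | w
      · simp only [adjN] at h2
        simp only [tbl]
        split_ifs at h2 <;> simp_all
      · have := h1 w
        simp only [adjN] at this
        simp only [tbl]
        split_ifs at this <;> simp_all
  rw [hrow]
  fin_cases i
  · exact pairKey_eq_iff_row hab hac hbc G H
  · refine (pairKey_eq_iff_row hbc hab.symm hac.symm G H).trans ?_
    rw [triKey_rotate]
    simp only [opp]
    refine and_congr_right fun _ => and_congr_left fun _ =>
      ⟨fun h w => h ⟨w.1, w.2.2.1, w.2.2.2, w.2.1⟩, fun h w => h ⟨w.1, w.2.2.2, w.2.1, w.2.2.1⟩⟩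
  · refine (pairKey_eq_iff_row hac.symm hbc.symm hab G H).trans ?_
    rw [← triKey_rotate]
    simp only [opp]
    refine and_congr_right fun _ => and_congr_left fun _ =>
      ⟨fun h w => h ⟨w.1, w.2.2.2, w.2.1, w.2.2.1⟩, fun h w => h ⟨w.1, w.2.2.1, w.2.2.2, w.2.1⟩⟩

end Vale.Agent.P335.TriangleAux
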