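import Mathlib
import Vale.Agent.P335.Defs
import Vale.Agent.P335.Basic
import Vale.Agent.P335.AvgLemmas
import Vale.Agent.P335.ThreeRow
import Vale.Agent.P335.TriangleAuxTable

/-! The contribution of three pairs forming a triangle. -/

namespace Vale.Agent.P335

open Finset
open scoped Classical

variable {n : ℕ} {d : Fin n → ℕ}

open TriangleAux in
private theorem tri_dev_eq {a b c : Fin n} (hab : a ≠ b) (hac : a ≠ c) (hbc : b ≠ c)
    (G₀ : Realization d) (f : Realization d → ℝ)
    (H : {H : Realization d // triKey a b c H = triKey a b c G₀}) (i : Fin 3) :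
    dev (fun N : Tables (rowSum (tbl a b c G₀)) (colSum (tbl a b c G₀)) => N.1 i)
        (fun N => f ((fibreEquiv hab hac hbc G₀).symm N).1) (fibreEquiv hab hac hbc G₀ H) =
      Q (opp a b c i).1 (opp a b c i).2 f H.1 := by
  set e := fibreEquiv hab hac hbc G₀ with he
  have hmap : (cls (fun N : Tables (rowSum (tbl a b c G₀)) (colSum (tbl a b c G₀)) => N.1 i)
        (e H)).map (e.symm.toEmbedding.trans (Function.Embedding.subtype _)) =
      cls (pairKey (opp a b c i).1 (opp a b c i).2) H.1 := by
    ext K
    simp only [Finset.mem_map, mem_cls, Function.Embedding.trans_apply, Equiv.coe_toEmbedding,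
      Function.Embedding.coe_subtype]
    constructor
    · rintro ⟨N, hN, rfl⟩
      refine (tbl_row_iff hab hac hbc _ _ i).2 ⟨(e.symm N).2.trans H.2.symm, ?_⟩
      have : tbl a b c (e.symm N).1 = N.1 := congrArg Subtype.val (e.apply_symm_apply N)
      rw [this]; exact hN
    · intro hK
      obtain ⟨hk, hr⟩ := (tbl_row_iff hab hac hbc _ _ i).1 hK
      exact ⟨e ⟨K, hk.trans H.2⟩, hr, by simp⟩
  simp only [Q, dev, avg, ← hmap, Finset.sum_map, Finset.card_map, Function.Embedding.trans_apply,
    Equiv.coe_toEmbedding, Function.Embedding.coe_subtype, Equiv.symm_apply_apply]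

open TriangleAux in
theorem triangle_nonneg {a b c : Fin n} (hab : a ≠ b) (hac : a ≠ c) (hbc : b ≠ c)
    (f : Realization d → ℝ) :
    0 ≤ ip (Q a b f) (Q a c f) + ip (Q a b f) (Q b c f) + ip (Q a c f) (Q b c f) := by
  set S : Realization d → ℝ := fun G => Q b c f G + Q a c f G + Q a b f G with hS
  have key : ip f S ≤ ip S S := by
    rw [← sub_nonneg, ip, ip, ← Finset.sum_sub_distrib,
      ← Finset.sum_fiberwise_of_maps_to (g := triKey a b c)
        (t := univ.image (triKey (d := d) a b c)) (fun x hx => Finset.mem_image_of_mem _ hx)]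
    refine Finset.sum_nonneg fun k hk => ?_
    obtain ⟨G₀, -, rfl⟩ := Finset.mem_image.1 hk
    rw [Finset.sum_subtype _ (p := fun H : Realization d => triKey a b c H = triKey a b c G₀)
      (fun H => by simp)]
    set e := fibreEquiv hab hac hbc G₀ with he
    set g := fun N => f (e.symm N).1 with hg
    have hL : ∀ H : {H : Realization d // triKey a b c H = triKey a b c G₀},
        rowL g (e H) = S H.1 := by
      intro H
      simp only [rowL, Fin.sum_univ_three, hg, he, tri_dev_eq hab hac hbc G₀ f H]
      simp [opp, hS, Q_comm c a]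
    have h3 := three_row g
    rw [ip, ip, ← Equiv.sum_comp e, ← Equiv.sum_comp e (fun N => rowL g N * rowL g N)] at h3
    simp only [hg] at hL h3
    simp only [hL, Equiv.symm_apply_apply] at h3
    rw [Finset.sum_sub_distrib]
    linarith
  have hQ : ∀ u v : Fin n, ip f (Q u v f) = ip (Q u v f) (Q u v f) :=
    fun u v => (ip_dev_self _ f).symm
  have e1 : ip f S = ip f (Q b c f) + ip f (Q a c f) + ip f (Q a b f) := by
    simp only [ip, hS, mul_add, Finset.sum_add_distrib]
  have e2 : ip S S = ip (Q b c f) (Q b c f) + ip (Q a c f) (Q a c f) + ip (Q a b f) (Q a b f)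
      + 2 * (ip (Q a b f) (Q a c f) + ip (Q a b f) (Q b c f) + ip (Q a c f) (Q b c f)) := by
    simp only [ip, hS, Finset.mul_sum, mul_add, ← Finset.sum_add_distrib]
    exact Finset.sum_congr rfl fun G _ => by ring
  rw [e1, e2, hQ, hQ, hQ] at key
  linarith

end Vale.Agent.P335
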