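import Mathlib
import Vale.Agent.P335.Defs
import Vale.Agent.P335.Basic
import Vale.Agent.P335.AvgLemmas
import Vale.Agent.P335.Markov
import Vale.Agent.P335.Triangle
import Vale.Agent.P335.DisjointPair
import Vale.Agent.P335.SlicePair
import Vale.Agent.P335.Connected
import Vale.Agent.P335.Comparison

/-! Assembly: the spectral gap and the mixing time of the switch chain. -/

namespace Vale.Agent.P335

open Finset
open scoped Classical

variable {n : ℕ} {d : Fin n → ℕ}

/-- `Lop` as a linear map. -/
noncomputable def LopLin : (Realization d → ℝ) →ₗ[ℝ] (Realization d → ℝ) where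
  toFun := Lop
  map_add' f g := by
    funext G
    simp only [Lop, Q, Pi.add_apply, ← Finset.sum_add_distrib, dev_add]
  map_smul' c f := by
    funext G
    simp only [Lop, Q, dev_smul, Pi.smul_apply, smul_eq_mul, RingHom.id_apply, Finset.mul_sum]

theorem ip_finset_sum_left {Ω ι : Type*} [Fintype Ω] (s : Finset ι) (F : ι → Ω → ℝ) (g : Ω → ℝ) :
    ip (fun x => ∑ i ∈ s, F i x) g = ∑ i ∈ s, ip (F i) g := by
  unfold ip
  rw [Finset.sum_comm]
  exact Finset.sum_congr rfl (fun x _ => by rw [Finset.sum_mul])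

theorem ip_Lop (f g : Realization d → ℝ) :
    ip (Lop f) g = ∑ p ∈ vPairs n, ip (Q p.1 p.2 f) g :=
  ip_finset_sum_left _ _ _

theorem ip_Lop_self (f : Realization d → ℝ) :
    ip f (Lop f) = ∑ p ∈ vPairs n, ip (Q p.1 p.2 f) (Q p.1 p.2 f) := by
  rw [ip_comm, ip_Lop]
  exact Finset.sum_congr rfl (fun p _ => by rw [ip_comm, Q, ip_dev_self])

/-- The pair correlation. -/
noncomputable def corr (f : Realization d → ℝ) (u v x y : Fin n) : ℝ :=
  ip (Q u v f) (Q x y f)

theorem corr_comm (f : Realization d → ℝ) (u v x y : Fin n) :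
    corr f u v x y = corr f x y u v := ip_comm _ _

theorem corr_flip_left (f : Realization d → ℝ) (u v x y : Fin n) :
    corr f u v x y = corr f v u x y := by
  rw [corr, corr, Q_comm u v f]

theorem corr_flip_right (f : Realization d → ℝ) (u v x y : Fin n) :
    corr f u v x y = corr f u v y x := by
  rw [corr, corr, Q_comm x y f]

theorem distinct4_comm {u v x y : Fin n} (h : Distinct4 u v x y) : Distinct4 x y u v := by
  obtain ⟨h1, h2, h3, h4, h5, h6⟩ := h
  exact ⟨h6, h2.symm, h4.symm, h3.symm, h5.symm, h1⟩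

theorem disjoint_sum (f : Realization d → ℝ) :
    2 * ∑ p ∈ vPairs n, ip (Q p.1 p.2 f) (Q p.1 p.2 f) ≤
      ∑ u, ∑ v, ∑ x, ∑ y, (if Distinct4 u v x y then corr f u v x y else 0) := by
  have h1 : ∑ u, ∑ v, ∑ x, ∑ y, (if Distinct4 u v x y then
      (1 / 4) * swEnergy u v x y f - psi u v x y f else 0) ≤
      ∑ u, ∑ v, ∑ x, ∑ y, (if Distinct4 u v x y then corr f u v x y else 0) := by
    set S := fun (g : Fin n → Fin n → Fin n → Fin n → ℝ) =>
      ∑ u, ∑ v, ∑ x, ∑ y, (if Distinct4 u v x y then g u v x y else 0) with hS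
    have hsw : ∀ g : Fin n → Fin n → Fin n → Fin n → ℝ,
        S (fun u v x y => g x y u v) = S g := by
      intro g
      simp only [hS]
      conv_lhs => rw [Finset.sum_comm]
      rw [show (∑ v, ∑ u, ∑ x, ∑ y, if Distinct4 u v x y then g x y u v else (0:ℝ)) =
        ∑ p : (Fin n × Fin n) × Fin n × Fin n,
          (if Distinct4 p.1.2 p.1.1 p.2.1 p.2.2 then g p.2.1 p.2.2 p.1.2 p.1.1 else 0) by
        simp [Fintype.sum_prod_type]]
      rw [show (∑ u, ∑ v, ∑ x, ∑ y, if Distinct4 u v x y then g u v x y else (0:ℝ)) =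
        ∑ p : (Fin n × Fin n) × Fin n × Fin n,
          (if Distinct4 p.1.1 p.1.2 p.2.1 p.2.2 then g p.1.1 p.1.2 p.2.1 p.2.2 else 0) by
        simp [Fintype.sum_prod_type]]
      refine Fintype.sum_equiv
        { toFun := fun p => ((p.2.1, p.2.2), (p.1.2, p.1.1))
          invFun := fun p => ((p.2.2, p.2.1), (p.1.1, p.1.2))
          left_inv := fun p => rfl
          right_inv := fun p => rfl } _ _ (fun p => ?_)
      by_cases hd : Distinct4 p.1.2 p.1.1 p.2.1 p.2.2
      · simp [hd, distinct4_comm hd]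
      · have : ¬ Distinct4 p.2.1 p.2.2 p.1.2 p.1.1 := fun h' => hd (distinct4_comm h')
        simp [hd, this]
    have hc : S (fun u v x y => (1 / 2) * swEnergy u v x y f - psi u v x y f - psi x y u v f) ≤
        S (fun u v x y => 2 * corr f u v x y) := by
      refine Finset.sum_le_sum (fun u _ => Finset.sum_le_sum (fun v _ =>
        Finset.sum_le_sum (fun x _ => Finset.sum_le_sum (fun y _ => ?_))))
      by_cases hd : Distinct4 u v x y
      · simpa [hd, corr] using disjoint_pair hd f
      · simp [hd]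
    have hlin : ∀ (a b : ℝ) (g g' : Fin n → Fin n → Fin n → Fin n → ℝ),
        S (fun u v x y => a * g u v x y + b * g' u v x y) = a * S g + b * S g' := by
      intro a b g g'
      simp only [hS, Finset.mul_sum, ← Finset.sum_add_distrib]
      refine Finset.sum_congr rfl (fun u _ => Finset.sum_congr rfl (fun v _ =>
        Finset.sum_congr rfl (fun x _ => Finset.sum_congr rfl (fun y _ => ?_))))
      split <;> simp
    have e1 := hlin (1 / 4) (-1) (fun u v x y => swEnergy u v x y f) (fun u v x y => psi u v x y f)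
    have e2 := hlin 1 (-1) (fun u v x y => (1 / 2) * swEnergy u v x y f - psi u v x y f)
      (fun u v x y => psi x y u v f)
    have e3 := hlin (1 / 2) (-1) (fun u v x y => swEnergy u v x y f) (fun u v x y => psi u v x y f)
    have e4 := hlin 2 0 (fun u v x y => corr f u v x y) (fun _ _ _ _ => 0)
    have e5 := hsw (fun u v x y => psi u v x y f)
    simp only [neg_one_mul, ← sub_eq_add_neg, one_mul, zero_mul, add_zero] at e1 e2 e3 e4
    show S (fun u v x y => (1 / 4) * swEnergy u v x y f - psi u v x y f) ≤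
      S (fun u v x y => corr f u v x y)
    linarith
  refine le_trans ?_ h1
  rw [Finset.mul_sum, vPairs, Finset.sum_filter, Fintype.sum_prod_type]
  refine Finset.sum_le_sum (fun u _ => Finset.sum_le_sum (fun v _ => ?_))
  by_cases huv : u = v
  · subst huv
    simp [Distinct4]
  · simp only [ne_eq, huv, not_false_eq_true, if_true]
    exact slice_pair huv f

/-- Ordered triples of distinct vertices. -/
noncomputable def triSum (f : Realization d → ℝ) : ℝ :=
  ∑ a, ∑ b, ∑ c, if a ≠ b ∧ a ≠ c ∧ b ≠ c then corr f a b a c else 0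

theorem triSum_nonneg (f : Realization d → ℝ) : 0 ≤ triSum f := by
  set φ := fun a b c : Fin n => if a ≠ b ∧ a ≠ c ∧ b ≠ c then corr f a b a c else 0 with hφ
  have e1 : ∑ a, ∑ b, ∑ c, φ b a c = triSum f := Finset.sum_comm
  have e2 : ∑ a, ∑ b, ∑ c, φ c a b = triSum f := by
    rw [triSum]
    conv_lhs => arg 2; ext a; rw [Finset.sum_comm]
    rw [Finset.sum_comm]
  have h : 0 ≤ ∑ a, ∑ b, ∑ c, (φ a b c + φ b a c + φ c a b) := by
    refine Finset.sum_nonneg (fun a _ => Finset.sum_nonneg (fun b _ =>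
      Finset.sum_nonneg (fun c _ => ?_)))
    by_cases hd : a ≠ b ∧ a ≠ c ∧ b ≠ c
    · obtain ⟨h1, h2, h3⟩ := hd
      simp only [hφ, h1, h2, h3, h1.symm, h2.symm, h3.symm, ne_eq, not_false_eq_true,
        and_self, if_true]
      rw [corr_flip_left f b a b c, corr_flip_left f c a c b, corr_flip_right f a c c b]
      exact triangle_nonneg h1 h2 h3 f
    · simp only [hφ]
      rw [if_neg hd, if_neg (fun h' => hd ⟨h'.1.symm, h'.2.2, h'.2.1⟩),
        if_neg (fun h' => hd ⟨h'.2.2, h'.1.symm, h'.2.1.symm⟩)]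
      simp
  have hsum : ∑ a, ∑ b, ∑ c, (φ a b c + φ b a c + φ c a b) = triSum f + triSum f + triSum f := by
    simp only [Finset.sum_add_distrib]
    rw [e1, e2]
    rfl
  linarith [h, hsum]

theorem inner_split {u v : Fin n} (huv : u ≠ v) (f : Realization d → ℝ) :
    ∑ x, ∑ y, (if x ≠ y then corr f u v x y else 0) =
      (∑ x, ∑ y, if Distinct4 u v x y then corr f u v x y else 0) + 2 * corr f u v u v +
      2 * ∑ w, (if w ≠ u ∧ w ≠ v then corr f u v u w + corr f u v v w else 0) := by
  have hterm : ∀ x y : Fin n, (if x ≠ y then corr f u v x y else 0) =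
      (if Distinct4 u v x y then corr f u v x y else 0) +
      (if x = u ∧ y = v then corr f u v x y else 0) + (if x = v ∧ y = u then corr f u v x y else 0) +
      (if x = u then (if y ≠ u ∧ y ≠ v then corr f u v x y else 0) else 0) +
      (if x = v then (if y ≠ u ∧ y ≠ v then corr f u v x y else 0) else 0) +
      (if y = u then (if x ≠ u ∧ x ≠ v then corr f u v x y else 0) else 0) +
      (if y = v then (if x ≠ u ∧ x ≠ v then corr f u v x y else 0) else 0) := by
    intro x y
    by_cases hxu : x = u <;> by_cases hxv : x = v <;> by_cases hyu : y = u <;>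
      by_cases hyv : y = v <;>
      simp [hxu, hxv, hyu, hyv, Distinct4, huv, Ne.symm huv] <;>
      (try simp_all [eq_comm]) <;> (split <;> simp_all [eq_comm])
  simp_rw [hterm, Finset.sum_add_distrib]
  have a1 : (∑ x, ∑ y, if x = u ∧ y = v then corr f u v x y else (0:ℝ)) = corr f u v u v := by
    simp [ite_and]
  have a2 : (∑ x, ∑ y, if x = v ∧ y = u then corr f u v x y else (0:ℝ)) = corr f u v u v := by
    simp [ite_and]
    exact corr_flip_right f u v v u
  have a3 : ∀ z, (∑ x, ∑ y, if x = z then (if y ≠ u ∧ y ≠ v then corr f u v x y else (0:ℝ)) else 0) =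
      ∑ w, (if w ≠ u ∧ w ≠ v then corr f u v z w else 0) := by
    intro z
    rw [Finset.sum_eq_single z]
    · simp
    · intro b _ hb; simp [hb]
    · simp
  have a4 : ∀ z, (∑ x, ∑ y, if y = z then (if x ≠ u ∧ x ≠ v then corr f u v x y else (0:ℝ)) else 0) =
      ∑ w, (if w ≠ u ∧ w ≠ v then corr f u v z w else 0) := by
    intro z
    refine Finset.sum_congr rfl (fun x _ => ?_)
    rw [Finset.sum_eq_single z]
    · simp [corr_flip_right f u v x z]
    · intro b _ hb; simp [hb]
    · simp
  rw [a1, a2, a3 u, a3 v, a4 u, a4 v]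
  have a5 : (∑ w, if w ≠ u ∧ w ≠ v then corr f u v u w + corr f u v v w else (0:ℝ)) =
      (∑ w, if w ≠ u ∧ w ≠ v then corr f u v u w else 0) +
        ∑ w, if w ≠ u ∧ w ≠ v then corr f u v v w else 0 := by
    rw [← Finset.sum_add_distrib]
    exact Finset.sum_congr rfl (fun w _ => by split <;> simp)
  rw [a5]
  ring

theorem four_le_sq (f : Realization d → ℝ) : 4 * ip f (Lop f) ≤ ip (Lop f) (Lop f) := by
  have hex : ip (Lop f) (Lop f) =
      ∑ u, ∑ v, if u ≠ v then ∑ x, ∑ y, (if x ≠ y then corr f u v x y else 0) else 0 := by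
    rw [ip_Lop, vPairs, Finset.sum_filter, Fintype.sum_prod_type]
    refine Finset.sum_congr rfl (fun u _ => Finset.sum_congr rfl (fun v _ => ?_))
    by_cases huv : u ≠ v
    · simp only [huv, ne_eq, not_false_eq_true, if_true]
      rw [ip_comm, ip_Lop, vPairs, Finset.sum_filter, Fintype.sum_prod_type]
      refine Finset.sum_congr rfl (fun x _ => Finset.sum_congr rfl (fun y _ => ?_))
      dsimp only
      split
      · exact ip_comm _ _
      · rfl
    · simp [huv]
  have hD : ∑ u, ∑ v, (if u ≠ v then ∑ x, ∑ y, (if Distinct4 u v x y then corr f u v x y else 0)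
      else 0) = ∑ u, ∑ v, ∑ x, ∑ y, (if Distinct4 u v x y then corr f u v x y else 0) := by
    refine Finset.sum_congr rfl (fun u _ => Finset.sum_congr rfl (fun v _ => ?_))
    by_cases huv : u = v
    · subst huv; simp [Distinct4]
    · simp [huv]
  have hS : ∑ u, ∑ v, (if u ≠ v then 2 * corr f u v u v else 0) =
      2 * ∑ p ∈ vPairs n, ip (Q p.1 p.2 f) (Q p.1 p.2 f) := by
    rw [vPairs, Finset.sum_filter, Fintype.sum_prod_type, Finset.mul_sum]
    refine Finset.sum_congr rfl (fun u _ => ?_)
    rw [Finset.mul_sum]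
    exact Finset.sum_congr rfl (fun v _ => by by_cases huv : u = v <;> simp [huv, corr])
  have hT : ∑ u, ∑ v, (if u ≠ v then
      2 * ∑ w, (if w ≠ u ∧ w ≠ v then corr f u v u w + corr f u v v w else 0) else 0) =
      4 * triSum f := by
    have e : ∀ u v : Fin n, (if u ≠ v then
        2 * ∑ w, (if w ≠ u ∧ w ≠ v then corr f u v u w + corr f u v v w else 0) else 0) =
        2 * ∑ w, ((if u ≠ v ∧ u ≠ w ∧ v ≠ w then corr f u v u w else 0) +
          (if v ≠ u ∧ v ≠ w ∧ u ≠ w then corr f v u v w else 0)) := by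
      intro u v
      by_cases huv : u = v
      · simp [huv]
      · simp only [ne_eq, huv, not_false_eq_true, if_true, Ne.symm huv, true_and]
        congr 1
        refine Finset.sum_congr rfl (fun w _ => ?_)
        rw [← corr_flip_left f u v v w]
        by_cases h1 : w = u <;> by_cases h2 : w = v <;>
          simp [h1, h2, huv, Ne.symm huv, Ne.symm (a := w) (b := u), Ne.symm (a := w) (b := v)]
    simp_rw [e, Finset.sum_add_distrib, mul_add, Finset.sum_add_distrib, ← Finset.mul_sum]
    rw [triSum]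
    conv_lhs => arg 2; rw [Finset.sum_comm]
    ring
  have key : ip (Lop f) (Lop f) =
      (∑ u, ∑ v, ∑ x, ∑ y, (if Distinct4 u v x y then corr f u v x y else 0)) +
      2 * (∑ p ∈ vPairs n, ip (Q p.1 p.2 f) (Q p.1 p.2 f)) + 4 * triSum f := by
    rw [hex, ← hD, ← hS, ← hT]
    simp only [← Finset.sum_add_distrib]
    refine Finset.sum_congr rfl (fun u _ => Finset.sum_congr rfl (fun v _ => ?_))
    by_cases huv : u = v
    · simp [huv]
    · simp only [ne_eq, huv, not_false_eq_true, if_true]
      exact inner_split huv f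
  rw [key, ip_Lop_self]
  linarith [disjoint_sum f, triSum_nonneg f]

theorem eq_of_Lop_zero (f : Realization d → ℝ) (h : Lop f = 0) : ∀ G H, f G = f H := by
  have h0 : ∑ p ∈ vPairs n, ip (Q p.1 p.2 f) (Q p.1 p.2 f) = 0 := by
    rw [← ip_Lop_self, h]; simp [ip]
  have hz := (Finset.sum_eq_zero_iff_of_nonneg (fun p _ => ip_self_nonneg _)).1 h0
  refine switch_connected f (fun u v x y G hd hD => ?_)
  have hp : ((u, v) : Fin n × Fin n) ∈ vPairs n := by simp [vPairs, hd.1]
  have hip := hz _ hp
  have hdev : dev (pairKey u v) f = 0 := by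
    funext K
    have hK := (Finset.sum_eq_zero_iff_of_nonneg
      (fun (G : Realization d) _ => mul_self_nonneg (Q u v f G))).1 (by simpa [ip] using hip) K
      (Finset.mem_univ _)
    simpa [Q] using mul_self_eq_zero.1 hK
  exact eq_of_dev_eq_zero _ _ hdev (pairKey_flip4 hd G).1

theorem poincare_switch (hn : 4 ≤ n) (f : Realization d → ℝ) (hf : ∑ G, f G = 0) :
    (1 / (6 * (n.choose 4 : ℝ))) * ∑ G, f G ^ 2 ≤
      (1 / 2) * ∑ G, ∑ H, switchChain d G H * (f G - f H) ^ 2 := by
  have hsym : ∀ f g : Realization d → ℝ, ip (LopLin f) g = ip f (LopLin g) := by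
    intro f g
    show ip (Lop f) g = ip f (Lop g)
    rw [ip_Lop, ip_comm f (Lop g), ip_Lop]
    exact Finset.sum_congr rfl (fun p _ => by rw [Q, ip_dev_comm, ip_comm, Q])
  have hpos : ∀ f : Realization d → ℝ, 0 ≤ ip f (LopLin f) := by
    intro f
    show 0 ≤ ip f (Lop f)
    rw [ip_Lop_self]
    exact Finset.sum_nonneg (fun p _ => ip_self_nonneg _)
  have h4 : 4 * ip f f ≤ ip f (LopLin f) :=
    poincare_of_sq LopLin hsym (by norm_num) four_le_sq hpos eq_of_Lop_zero f hf
  have hE : ip f (Lop f) ≤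
      (1 / 8) * ∑ u, ∑ v, ∑ x, ∑ y, (if Distinct4 u v x y then swEnergy u v x y f else 0) := by
    rw [ip_Lop_self, vPairs, Finset.sum_filter, Fintype.sum_prod_type, Finset.mul_sum]
    refine Finset.sum_le_sum (fun u _ => ?_)
    rw [Finset.mul_sum]
    refine Finset.sum_le_sum (fun v _ => ?_)
    by_cases huv : u = v
    · subst huv; simp [Distinct4]
    · simp only [ne_eq, huv, not_false_eq_true, if_true]
      have h2 := pair_le_energy huv f
      have h3 : (∑ x, ∑ y, if Distinct4 u v x y then (1 / 4) * swEnergy u v x y f else 0) =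
          (1 / 4) * ∑ x, ∑ y, if Distinct4 u v x y then swEnergy u v x y f else 0 := by
        simp only [Finset.mul_sum, mul_ite, mul_zero]
      linarith
  have hC := energy_le_dirichlet hn f
  have hsq : ip f f = ∑ G, f G ^ 2 := by simp [ip, sq]
  have hch : (0:ℝ) < n.choose 4 := by exact_mod_cast Nat.choose_pos hn
  have h4' : 4 * ∑ G, f G ^ 2 ≤ ip f (Lop f) := by rw [← hsq]; exact h4
  rw [one_div, ← mul_comm, ← div_eq_mul_inv, div_le_iff₀ (by positivity)]
  nlinarith

/-- The number of realisations is at most `2 ^ (n * n)`. -/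
theorem card_realization_le : Fintype.card (Realization d) ≤ 2 ^ (n * n) := by
  have h : Fintype.card (Realization d) ≤ Fintype.card (Fin n × Fin n → Bool) := by
    refine Fintype.card_le_of_injective (fun G p => decide (G.1.Adj p.1 p.2)) (fun G H hGH => ?_)
    apply Subtype.ext
    ext i j
    simpa using congrFun hGH (i, j)
  simpa using h

theorem switch_mixing (hn : 4 ≤ n) (G : Realization d) (t : ℕ) (ht : n ^ 6 ≤ t) :
    (1 / 2) * ∑ H, |(switchChain d ^ t) G H - 1 / (Fintype.card (Realization d) : ℝ)| ≤ 1 / 4 := by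
  have hn' : (4:ℝ) ≤ n := by exact_mod_cast hn
  have hch : (0:ℝ) < n.choose 4 := by exact_mod_cast Nat.choose_pos hn
  refine tv_of_poincare (switchChain d) switchChain_symm switchChain_nonneg (switchChain_row hn)
    switchChain_lazy (γ := 1 / (6 * (n.choose 4 : ℝ))) (by positivity) (poincare_switch hn) t ?_ G
  have hc4 : (n.choose 4 : ℝ) ≤ (n:ℝ) ^ 4 / 24 := by
    have := Nat.choose_le_pow_div (α := ℝ) 4 n
    simpa [Nat.factorial] using this
  have htR : ((n:ℝ) ^ 6) ≤ t := by exact_mod_cast ht
  have hcard : (Fintype.card (Realization d) : ℝ) ≤ (2:ℝ) ^ (n * n) := by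
    exact_mod_cast card_realization_le
  have hpos : (0:ℝ) < Fintype.card (Realization d) := by
    have : Nonempty (Realization d) := ⟨G⟩
    exact_mod_cast Fintype.card_pos
  have hlog : Real.log (Fintype.card (Realization d) : ℝ) ≤ (n:ℝ) * n := by
    calc Real.log _ ≤ Real.log ((2:ℝ) ^ (n * n)) := Real.log_le_log hpos hcard
      _ = ((n * n : ℕ) : ℝ) * Real.log 2 := Real.log_pow _ _
      _ ≤ ((n * n : ℕ) : ℝ) * 1 := by
        refine mul_le_mul_of_nonneg_left ?_ (by positivity)
        linarith [Real.log_le_sub_one_of_pos (show (0:ℝ) < 2 by norm_num)]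
      _ = (n:ℝ) * n := by push_cast; ring
  rw [one_div, ← div_eq_inv_mul, le_div_iff₀ (by positivity)]
  have h1 : (Real.log (Fintype.card (Realization d) : ℝ) / 2 + 1) * (6 * (n.choose 4 : ℝ)) ≤
      ((n:ℝ) * n) * (6 * ((n:ℝ) ^ 4 / 24)) := by
    apply mul_le_mul (by nlinarith) (by linarith) (by positivity) (by positivity)
  nlinarith [pow_nonneg (show (0:ℝ) ≤ n by linarith) 6]

end Vale.Agent.P335
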